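import Mathlib

/-!
Definitions for row 38 (Sidorenko's conjecture is false).
-/

set_option autoImplicit false
open Finset Module
open scoped BigOperators Matrix

namespace Crest.Agent.R38

/-- triangular numbers -/
def tri (j : ℕ) : ℕ := j * (j + 1) / 2

theorem two_mul_tri (j : ℕ) : 2 * tri j = j * (j + 1) := by
  unfold tri
  exact Nat.mul_div_cancel' (Nat.even_mul_succ_self j).two_dvd

/-- symmetric `n × n` matrices -/
def Sy (F : Type) [Field F] (n : ℕ) : Submodule F (Matrix (Fin n) (Fin n) F) where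
  carrier := {x | x.IsSymm}
  add_mem' := fun ha hb => Matrix.IsSymm.add ha hb
  zero_mem' := Matrix.isSymm_zero
  smul_mem' := fun c _ hx => Matrix.IsSymm.smul hx c

section
variable {F : Type} [Field F] {n : ℕ}

theorem mem_Sy {x : Matrix (Fin n) (Fin n) F} : x ∈ Sy F n ↔ x.IsSymm := Iff.rfl

noncomputable instance instFintypeSy [Fintype F] : Fintype (Sy F n) := Fintype.ofFinite _

/-- kernel of a symmetric matrix -/
def kr (x : Sy F n) : Submodule F (Fin n → F) := LinearMap.ker (Matrix.mulVecLin x.1)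

/-- corank of a symmetric matrix -/
noncomputable def cr (x : Sy F n) : ℕ := finrank F (kr x)

/-- dimension of the space of vectors on which `a`, `b`, `c` agree -/
noncomputable def ty0 (a b c : Sy F n) : ℕ := finrank F ↥(kr (a - b) ⊓ kr (a - c))
end

/-- position pattern of a Lagrangian with respect to three given ones -/
structure Pat where
  m0 : ℕ
  mab : ℕ
  mac : ℕ
  mbc : ℕ
  d0 : ℕ
  d1 : ℕ
  ma : ℕ
  mb : ℕ
  mc : ℕ

namespace Pat
def ja (π : Pat) : ℕ := π.m0 + π.mab + π.mac + π.d0 + π.d1 + π.ma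
def jb (π : Pat) : ℕ := π.m0 + π.mab + π.mbc + π.d0 + π.d1 + π.mb
def jc (π : Pat) : ℕ := π.m0 + π.mac + π.mbc + π.d0 + π.d1 + π.mc
def Mab (π : Pat) : ℕ := π.m0 + π.mab
def Mac (π : Pat) : ℕ := π.m0 + π.mac
def Mbc (π : Pat) : ℕ := π.m0 + π.mbc
def s1 (π : Pat) : ℕ := π.m0 + π.mab + π.mac + π.mbc + 2 * (π.d0 + π.d1)

/-- necessary conditions on a pattern; `n0 = dim a∩b∩c`, `jab = dim a∩b`, ... -/
def Feas (π : Pat) (n n0 jab jac jbc : ℕ) : Prop :=
  π.m0 ≤ n0 ∧ n0 + π.mab + π.d0 ≤ jab ∧ n0 + π.mac + π.d0 ≤ jac ∧ n0 + π.mbc + π.d0 ≤ jbc ∧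
  2 * π.d1 + jab + jac + jbc ≤ n + 2 * n0 ∧
  jab + π.mac + π.mbc + 2 * (π.d0 + π.d1) + π.ma + π.mb ≤ n ∧
  jac + π.mab + π.mbc + 2 * (π.d0 + π.d1) + π.ma + π.mc ≤ n ∧
  jbc + π.mab + π.mac + 2 * (π.d0 + π.d1) + π.mb + π.mc ≤ n ∧
  n0 + π.mab + π.mac + π.mbc + 2 * (π.d0 + π.d1) + π.ma + π.mb + π.mc ≤ n

/-- exponent of `q` in the number of Lagrangians with pattern `π` -/
def ex (π : Pat) (n n0 jab jac jbc : ℕ) : ℤ :=
  (π.m0 : ℤ) * ((n0 : ℤ) - π.m0) + (π.mab : ℤ) * ((jab : ℤ) - π.m0 - π.mab)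
    + (π.mac : ℤ) * ((jac : ℤ) - π.m0 - π.mac) + (π.mbc : ℤ) * ((jbc : ℤ) - π.m0 - π.mbc)
    + (π.d0 : ℤ) * ((jab : ℤ) + jac + jbc - n0 - 2 * π.m0 - π.mab - π.mac - π.mbc - π.d0)
    + (π.d1 : ℤ) * ((n : ℤ) + n0 - 2 * π.m0 - π.mab - π.mac - π.mbc - π.d0 - π.d1) - (tri π.d1 : ℤ)
    + (tri (n - π.s1) : ℤ) - (tri π.ma : ℤ) - (tri π.mb : ℤ) - (tri π.mc : ℤ)
end Pat

section
variable (F : Type) [Field F] [Fintype F] [DecidableEq F]

/-- probability that a symmetric `12 × 12` matrix has corank `6` -/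
noncomputable def pA : ℝ := (Nat.card {z : Sy F 12 // cr z = 6} : ℝ) / (Fintype.card (Sy F 12) : ℝ)

variable {F}

/-- normalised indicator of corank `6` -/
noncomputable def A (z : Sy F 12) : ℝ := if cr z = 6 then (pA F)⁻¹ else 0

open Classical in
/-- discriminant sign of a rank `6` symmetric matrix -/
noncomputable def tau (z : Sy F 12) : ℝ :=
  if ∃ (U : Matrix (Fin 12) (Fin 6) F) (S : Matrix (Fin 6) (Fin 6) F),
      z.1 = U * S * Uᵀ ∧ quadraticChar F S.det = 1 then 1 else -1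

/-- quadratic character of the determinant -/
noncomputable def sig (z : Sy F 12) : ℝ := ((quadraticChar F z.1.det : ℤ) : ℝ)

/-- sign of a Boolean -/
def sg (b : Bool) : ℝ := if b then 1 else -1

/-- `0/1` value of a Boolean -/
def nb (b : Bool) : ℕ := if b then 1 else 0

/-- vertex set of one coordinate of the host -/
abbrev Y (F : Type) [Field F] : Type := Sy F 12 × Bool

/-- the three elementary kernels `1`, `A (1 + τ ε ε')`, `A (1 - τ ε ε')` -/
noncomputable def kk (η : SignType) (x y : Y F) : ℝ :=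
  if η = 0 then 1 else A (x.1 - y.1) * (1 + (η : ℝ) * tau (x.1 - y.1) * sg x.2 * sg y.2)

/-- signed pair function -/
noncomputable def sig' (x y : Y F) : ℝ := sig (x.1 - y.1) * sg x.2 * sg y.2

/-- majorant of every face function -/
noncomputable def Gam (a b c : Sy F 12) : ℝ :=
  𝔼 y : Sy F 12, (1 + A (a - y)) * (1 + A (b - y)) * (1 + A (c - y))
end

/-- faces of the stacked triangulation of the sphere with `8` vertices -/
def face : Fin 12 → Fin 3 → Fin 8 :=
  ![![0, 1, 2], ![0, 2, 3], ![0, 3, 4], ![0, 4, 5], ![0, 5, 6], ![0, 6, 7], ![0, 1, 7],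
    ![1, 2, 3], ![1, 3, 4], ![1, 4, 5], ![1, 5, 7], ![5, 6, 7]]

/-- its `18` edges -/
def edge : Fin 18 → Fin 8 × Fin 8 :=
  ![(0, 1), (0, 2), (0, 3), (0, 4), (0, 5), (0, 6), (0, 7), (1, 2), (2, 3), (3, 4), (4, 5), (5, 6),
    (6, 7), (1, 7), (1, 3), (1, 4), (1, 5), (5, 7)]

/-- `side f i` is the edge of face `f` opposite to its `i`-th corner -/
def side : Fin 12 → Fin 3 → Fin 18 :=
  ![![7, 1, 0], ![8, 2, 1], ![9, 3, 2], ![10, 4, 3], ![11, 5, 4], ![12, 6, 5], ![13, 6, 0],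
    ![8, 14, 7], ![9, 15, 14], ![10, 16, 15], ![17, 13, 16], ![12, 17, 11]]

theorem edge_side0 : ∀ f, edge (side f 0) = (face f 1, face f 2) := by decide
theorem edge_side1 : ∀ f, edge (side f 1) = (face f 0, face f 2) := by decide
theorem edge_side2 : ∀ f, edge (side f 2) = (face f 0, face f 1) := by decide
theorem face_injective : ∀ f, Function.Injective (face f) := by decide
theorem edge_lt : ∀ e, (edge e).1 < (edge e).2 := by decide
theorem card_side : ∀ e, #{c : Fin 12 × Fin 3 | side c.1 c.2 = e} = 2 := by decide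

/-- limit of a face function on a generic triple; `s i` is the sign of the side opposite to corner `i` -/
noncomputable def Ginf (η : Fin 3 → SignType) (s : Fin 3 → ℝ) : ℝ :=
  ∑ S : Fin 3 → Bool, (∏ i, s i ^ nb (S i)) * ∏ i, (η i : ℝ) ^ (nb (S (i + 1)) + nb (S (i + 2)))

/-- limit of the one-coordinate density -/
noncomputable def Tinf (η : Fin 12 → Fin 3 → SignType) : ℝ :=
  ∑ S : Fin 18 → Bool, ∏ f, ∏ i, (η f i : ℝ) ^ (nb (S (side f (i + 1))) + nb (S (side f (i + 2))))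

/-- one-coordinate density -/
noncomputable def Tq (F : Type) [Field F] [Fintype F] [DecidableEq F]
    (η : Fin 12 → Fin 3 → SignType) : ℝ :=
  𝔼 x : Fin 8 → Y F, 𝔼 y : Fin 12 → Y F, ∏ f, ∏ i, kk (η f i) (x (face f i)) (y f)

end Crest.Agent.R38
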