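import Crest.Agent.PVc.R38.Iso

-- ▼ part PVc/R38/LagAux
section

/-!
Linear algebra for `Lag.lean`: relations between three subspaces.
-/

set_option autoImplicit false
set_option linter.unusedSectionVars false
open Finset Module
open scoped BigOperators Matrix

namespace Crest.Agent.R38.LagAux

variable {F : Type} [Field F] {V : Type} [AddCommGroup V] [Module F V] [FiniteDimensional F V]

theorem dim_map {U W W' : Type} [AddCommGroup U] [Module F U] [AddCommGroup W] [Module F W]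
    [AddCommGroup W'] [Module F W'] [FiniteDimensional F W] (f : W →ₗ[F] W') (S : Submodule F W)
    (j : U →ₗ[F] W) (hj : Function.Injective j) (K : Submodule F U)
    (h : S ⊓ LinearMap.ker f = K.map j) :
    finrank F (S.map f) + finrank F K = finrank F S := by
  have h1 := LinearMap.finrank_range_add_finrank_ker (f.domRestrict S)
  rw [LinearMap.range_domRestrict, LinearMap.ker_domRestrict,
    ← Submodule.finrank_map_subtype_eq, Submodule.map_comap_subtype, h,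
    ← (Submodule.equivMapOfInjective j hj K).finrank_eq] at h1
  exact h1

/-- the sum map -/
def add2 (F V : Type) [Field F] [AddCommGroup V] [Module F V] : V × V →ₗ[F] V :=
  LinearMap.fst F V V + LinearMap.snd F V V


/-- linear relations between three subspaces -/
def Rel (A B C : Submodule F V) : Submodule F (V × V) := A.prod B ⊓ C.comap (add2 F V)

theorem mem_Rel {A B C : Submodule F V} {p : V × V} :
    p ∈ Rel A B C ↔ p.1 ∈ A ∧ p.2 ∈ B ∧ p.1 + p.2 ∈ C :=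
  ⟨fun h => ⟨h.1.1, h.1.2, h.2⟩, fun h => ⟨⟨h.1, h.2.1⟩, h.2.2⟩⟩

/-- trivial relations -/
def Tri (A B C : Submodule F V) : Submodule F (V × V) where
  carrier := {p | ∃ k1 ∈ A, ∃ k2 ∈ B, ∃ k3 ∈ C, p = (k1 + k2, k3 - k1)}
  add_mem' := by
    rintro _ _ ⟨k1, h1, k2, h2, k3, h3, rfl⟩ ⟨l1, g1, l2, g2, l3, g3, rfl⟩
    refine ⟨k1 + l1, A.add_mem h1 g1, k2 + l2, B.add_mem h2 g2, k3 + l3, C.add_mem h3 g3, ?_⟩
    ext <;> simp only [Prod.mk_add_mk] <;> abel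
  zero_mem' := ⟨0, A.zero_mem, 0, B.zero_mem, 0, C.zero_mem, Prod.ext (by simp) (by simp)⟩
  smul_mem' := by
    rintro c _ ⟨k1, h1, k2, h2, k3, h3, rfl⟩
    exact ⟨c • k1, A.smul_mem c h1, c • k2, B.smul_mem c h2, c • k3, C.smul_mem c h3,
      by simp [smul_sub]⟩


theorem Tri_mono {A B C A' B' C' : Submodule F V} (hA : A ≤ A') (hB : B ≤ B') (hC : C ≤ C') :
    Tri A B C ≤ Tri A' B' C' := by
  rintro _ ⟨k1, h1, k2, h2, k3, h3, rfl⟩
  exact ⟨k1, hA h1, k2, hB h2, k3, hC h3, rfl⟩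

theorem Rel_mono {A B C A' B' C' : Submodule F V} (hA : A ≤ A') (hB : B ≤ B') (hC : C ≤ C') :
    Rel A B C ≤ Rel A' B' C' := fun _ h =>
  mem_Rel.2 ⟨hA (mem_Rel.1 h).1, hB (mem_Rel.1 h).2.1, hC (mem_Rel.1 h).2.2⟩

theorem Tri_le_Rel (A B C : Submodule F V) : Tri (A ⊓ B) (A ⊓ C) (B ⊓ C) ≤ Rel A B C := by
  rintro _ ⟨k1, h1, k2, h2, k3, h3, rfl⟩
  refine mem_Rel.2 ⟨A.add_mem h1.1 h2.1, B.sub_mem h3.1 h1.2, ?_⟩
  have : k1 + k2 + (k3 - k1) = k2 + k3 := by abel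
  rw [this]
  exact C.add_mem h2.2 h3.2

theorem dim_Tri (A B C : Submodule F V) :
    finrank F (Tri A B C) + finrank F ↥(A ⊓ B ⊓ C) = finrank F A + finrank F B + finrank F C := by
  have h1 : (Tri A B C).map (LinearMap.snd F V V) = A ⊔ C := by
    ext v
    constructor
    · rintro ⟨_, ⟨k1, h1, k2, h2, k3, h3, rfl⟩, rfl⟩
      exact Submodule.sub_mem _ (Submodule.mem_sup_right h3) (Submodule.mem_sup_left h1)
    · intro h
      obtain ⟨u, hu, w, hw, rfl⟩ := Submodule.mem_sup.1 h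
      refine ⟨_, ⟨-u, A.neg_mem hu, 0, B.zero_mem, w, hw, rfl⟩, ?_⟩
      simp [add_comm]
  have h2 : Tri A B C ⊓ LinearMap.ker (LinearMap.snd F V V) =
      (A ⊓ C ⊔ B).map (LinearMap.inl F V V) := by
    ext p
    constructor
    · rintro ⟨⟨k1, h1, k2, h2, k3, h3, rfl⟩, h0⟩
      have h0' : k3 - k1 = 0 := h0
      have e : k3 = k1 := sub_eq_zero.1 h0'
      subst e
      exact ⟨k3 + k2, Submodule.add_mem_sup ⟨h1, h3⟩ h2, by simp⟩
    · rintro ⟨v, hv, rfl⟩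
      obtain ⟨u, hu, w, hw, rfl⟩ := Submodule.mem_sup.1 hv
      exact ⟨⟨u, hu.1, w, hw, u, hu.2, by simp⟩, rfl⟩
  have h3 := dim_map _ _ _ LinearMap.inl_injective _ h2
  rw [h1] at h3
  have h4 := Submodule.finrank_sup_add_finrank_inf_eq A C
  have h5 := Submodule.finrank_sup_add_finrank_inf_eq (A ⊓ C) B
  rw [inf_right_comm A C B] at h5
  omega

theorem map_fst_Rel (A B C : Submodule F V) :
    (Rel A B C).map (LinearMap.fst F V V) = A ⊓ (B ⊔ C) := by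
  ext v
  constructor
  · rintro ⟨p, hp, rfl⟩
    obtain ⟨h1, h2, h3⟩ := mem_Rel.1 hp
    refine ⟨h1, ?_⟩
    have : p.1 = -p.2 + (p.1 + p.2) := by abel
    show p.1 ∈ B ⊔ C
    rw [this]
    exact Submodule.add_mem_sup (B.neg_mem h2) h3
  · rintro ⟨h1, h2⟩
    obtain ⟨u, hu, w, hw, rfl⟩ := Submodule.mem_sup.1 h2
    exact ⟨(u + w, -u), mem_Rel.2 ⟨h1, B.neg_mem hu, by simpa using hw⟩, rfl⟩

theorem map_snd_Rel (A B C : Submodule F V) :
    (Rel A B C).map (LinearMap.snd F V V) = B ⊓ (A ⊔ C) := by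
  ext v
  constructor
  · rintro ⟨p, hp, rfl⟩
    obtain ⟨h1, h2, h3⟩ := mem_Rel.1 hp
    refine ⟨h2, ?_⟩
    have : p.2 = -p.1 + (p.1 + p.2) := by abel
    show p.2 ∈ A ⊔ C
    rw [this]
    exact Submodule.add_mem_sup (A.neg_mem h1) h3
  · rintro ⟨h1, h2⟩
    obtain ⟨u, hu, w, hw, rfl⟩ := Submodule.mem_sup.1 h2
    exact ⟨(-u, u + w), mem_Rel.2 ⟨A.neg_mem hu, h1, by simpa using hw⟩, rfl⟩

theorem map_add_Rel (A B C : Submodule F V) :
    (Rel A B C).map (add2 F V) = C ⊓ (A ⊔ B) := by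
  ext v
  constructor
  · rintro ⟨p, hp, rfl⟩
    obtain ⟨h1, h2, h3⟩ := mem_Rel.1 hp
    exact ⟨h3, Submodule.add_mem_sup h1 h2⟩
  · rintro ⟨h1, h2⟩
    obtain ⟨u, hu, w, hw, rfl⟩ := Submodule.mem_sup.1 h2
    exact ⟨(u, w), mem_Rel.2 ⟨hu, hw, h1⟩, rfl⟩

theorem dim_Rel_fst (A B C : Submodule F V) :
    finrank F ↥(A ⊓ (B ⊔ C)) + finrank F ↥(B ⊓ C) = finrank F (Rel A B C) := by
  rw [← map_fst_Rel]
  refine dim_map _ _ _ LinearMap.inr_injective _ ?_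
  ext ⟨u, v⟩
  constructor
  · rintro ⟨h, h0⟩
    have h0' : u = 0 := h0
    subst h0'
    obtain ⟨-, h2, h3⟩ := mem_Rel.1 h
    exact ⟨v, ⟨h2, by simpa using h3⟩, rfl⟩
  · rintro ⟨w, hw, h⟩
    obtain ⟨rfl, rfl⟩ := Prod.mk.inj h
    exact ⟨mem_Rel.2 ⟨A.zero_mem, hw.1, by simpa using hw.2⟩, rfl⟩

theorem dim_Rel_snd (A B C : Submodule F V) :
    finrank F ↥(B ⊓ (A ⊔ C)) + finrank F ↥(A ⊓ C) = finrank F (Rel A B C) := by
  rw [← map_snd_Rel]
  refine dim_map _ _ _ LinearMap.inl_injective _ ?_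
  ext ⟨u, v⟩
  constructor
  · rintro ⟨h, h0⟩
    have h0' : v = 0 := h0
    subst h0'
    obtain ⟨h1, -, h3⟩ := mem_Rel.1 h
    exact ⟨u, ⟨h1, by simpa using h3⟩, rfl⟩
  · rintro ⟨w, hw, h⟩
    obtain ⟨rfl, rfl⟩ := Prod.mk.inj h
    exact ⟨mem_Rel.2 ⟨hw.1, B.zero_mem, by simpa using hw.2⟩, rfl⟩

theorem dim_Rel_add (A B C : Submodule F V) :
    finrank F ↥(C ⊓ (A ⊔ B)) + finrank F ↥(A ⊓ B) = finrank F (Rel A B C) := by
  rw [← map_add_Rel]
  refine dim_map _ _ (LinearMap.prod LinearMap.id (-LinearMap.id))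
    (fun x y h => (Prod.mk.inj h).1) _ ?_
  ext ⟨u, v⟩
  constructor
  · rintro ⟨h, h0⟩
    have h0' : u + v = 0 := h0
    have e : v = -u := (neg_eq_of_add_eq_zero_right h0').symm
    subst e
    obtain ⟨h1, h2, -⟩ := mem_Rel.1 h
    exact ⟨u, ⟨h1, by simpa using h2⟩, rfl⟩
  · rintro ⟨w, hw, h⟩
    obtain ⟨rfl, rfl⟩ := Prod.mk.inj h
    have e : w + -w = 0 := add_neg_cancel w
    refine ⟨mem_Rel.2 ⟨hw.1, B.neg_mem hw.2, ?_⟩, e⟩
    show w + -w ∈ C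
    rw [e]; exact C.zero_mem

/-! ### symplectic spaces -/

variable {ω : LinearMap.BilinForm F V} {n : ℕ}

theorem orth_sup (A B : Submodule F V) :
    ω.orthogonal (A ⊔ B) = ω.orthogonal A ⊓ ω.orthogonal B := by
  refine le_antisymm (le_inf (LinearMap.BilinForm.orthogonal_le le_sup_left)
    (LinearMap.BilinForm.orthogonal_le le_sup_right)) ?_
  rintro v ⟨h1, h2⟩ u hu
  obtain ⟨a, ha, b, hb, rfl⟩ := Submodule.mem_sup.1 hu
  have e1 : ω a v = 0 := h1 a ha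
  have e2 : ω b v = 0 := h2 b hb
  rw [map_add, LinearMap.add_apply, e1, e2, add_zero]

theorem orth_inf (hω : ω.IsAlt) (hnd : ω.Nondegenerate) (A B : Submodule F V) :
    ω.orthogonal (A ⊓ B) = ω.orthogonal A ⊔ ω.orthogonal B := by
  have h := orth_sup (ω := ω) (ω.orthogonal A) (ω.orthogonal B)
  rw [LinearMap.BilinForm.orthogonal_orthogonal hnd hω.isRefl,
    LinearMap.BilinForm.orthogonal_orthogonal hnd hω.isRefl] at h
  rw [← h, LinearMap.BilinForm.orthogonal_orthogonal hnd hω.isRefl]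

theorem dim_orth (hnd : ω.Nondegenerate) (hV : finrank F V = 2 * n) (A : Submodule F V) :
    finrank F (ω.orthogonal A) + finrank F A = 2 * n := by
  have h1 := LinearMap.BilinForm.finrank_orthogonal hnd A
  have h2 := Submodule.finrank_le A
  omega

theorem dim_lag (hnd : ω.Nondegenerate) (hV : finrank F V = 2 * n) {a : Submodule F V}
    (ha : ω.orthogonal a = a) : finrank F a = n := by
  have h := dim_orth hnd hV a
  rw [ha] at h
  omega

theorem dim_lag_inf (hnd : ω.Nondegenerate) (hV : finrank F V = 2 * n) {a : Submodule F V}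
    (ha : ω.orthogonal a = a) (S : Submodule F V) :
    finrank F ↥(a ⊓ ω.orthogonal S) + finrank F S = n + finrank F ↥(a ⊓ S) := by
  have h1 := dim_orth hnd hV (a ⊔ S)
  rw [orth_sup, ha] at h1
  have h2 := Submodule.finrank_sup_add_finrank_inf_eq a S
  have h3 := dim_lag hnd hV ha
  omega

theorem lag_zero {a : Submodule F V} (ha : ω.orthogonal a = a) {u v : V} (hu : u ∈ a)
    (hv : v ∈ a) : ω u v = 0 := by
  rw [← ha] at hv
  exact hv u hu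

theorem le_orth {x S T : Submodule F V} (hx : ω.orthogonal x = x) (hS : S ≤ x) (hT : T ≤ x) :
    T ≤ ω.orthogonal S := fun _ hv _ hu => lag_zero hx (hS hu) (hT hv)

theorem dim_Rel (hω : ω.IsAlt) (hnd : ω.Nondegenerate) (hV : finrank F V = 2 * n)
    {a b c : Submodule F V} (ha : ω.orthogonal a = a) (hb : ω.orthogonal b = b)
    (hc : ω.orthogonal c = c) : finrank F (Rel a b c) = n + finrank F ↥(a ⊓ b ⊓ c) := by
  have h1 := dim_Rel_fst a b c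
  have h2 := dim_lag_inf hnd hV ha (b ⊓ c)
  rw [orth_inf hω hnd, hb, hc, ← inf_assoc] at h2
  omega

theorem inf3 (a b c : Submodule F V) : a ⊓ b ⊓ (a ⊓ c) ⊓ (b ⊓ c) = a ⊓ b ⊓ c := by
  ext v; simp only [Submodule.mem_inf]; tauto

theorem three_ineq (hω : ω.IsAlt) (hnd : ω.Nondegenerate) (hV : finrank F V = 2 * n)
    {a b c : Submodule F V} (ha : ω.orthogonal a = a) (hb : ω.orthogonal b = b)
    (hc : ω.orthogonal c = c) : finrank F ↥(a ⊓ b) + finrank F ↥(a ⊓ c) + finrank F ↥(b ⊓ c) ≤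
      n + 2 * finrank F ↥(a ⊓ b ⊓ c) := by
  have h1 := dim_Rel hω hnd hV ha hb hc
  have h2 := dim_Tri (a ⊓ b) (a ⊓ c) (b ⊓ c)
  rw [inf3] at h2
  have h3 := Submodule.finrank_mono (Tri_le_Rel a b c)
  omega

/-- the symmetric form on pairs -/
def beta (ω : LinearMap.BilinForm F V) : LinearMap.BilinForm F (V × V) :=
  ω.compl₁₂ (LinearMap.fst F V V) (LinearMap.snd F V V) +
    (ω.compl₁₂ (LinearMap.fst F V V) (LinearMap.snd F V V)).flip

theorem beta_apply (p q : V × V) : beta ω p q = ω p.1 q.2 + ω q.1 p.2 := rfl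

theorem beta_symm : (beta ω).IsSymm := ⟨fun p q => by rw [beta_apply, beta_apply, add_comm]⟩

theorem rel_swap (hω : ω.IsAlt) {a b c : Submodule F V} (ha : ω.orthogonal a = a)
    (hb : ω.orthogonal b = b) (hc : ω.orthogonal c = c) {p q : V × V} (hp : p ∈ Rel a b c)
    (hq : q ∈ Rel a b c) : ω q.1 p.2 = ω p.1 q.2 := by
  obtain ⟨h1, h2, h3⟩ := mem_Rel.1 hp
  obtain ⟨g1, g2, g3⟩ := mem_Rel.1 hq
  have h := lag_zero hc h3 g3
  simp only [map_add, LinearMap.add_apply] at h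
  rw [lag_zero ha h1 g1, lag_zero hb h2 g2, ← hω.neg_eq q.1 p.2] at h
  linear_combination -h

theorem rad_eq (h2 : (2 : F) ≠ 0) (hω : ω.IsAlt) (hnd : ω.Nondegenerate)
    {a b c : Submodule F V} (ha : ω.orthogonal a = a) (hb : ω.orthogonal b = b)
    (hc : ω.orthogonal c = c) :
    Rel a b c ⊓ (beta ω).orthogonal (Rel a b c) = Tri (a ⊓ b) (a ⊓ c) (b ⊓ c) := by
  refine le_antisymm ?_ (le_inf (Tri_le_Rel a b c) ?_)
  · rintro p ⟨hp, ho⟩
    obtain ⟨h1, h3, h4⟩ := mem_Rel.1 hp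
    have : p.1 ∈ ω.orthogonal (b ⊓ (a ⊔ c)) := by
      rw [← map_snd_Rel]
      rintro _ ⟨q, hq, rfl⟩
      have e : beta ω q p = 0 := ho q hq
      rw [beta_apply, rel_swap hω ha hb hc hp hq, ← two_mul] at e
      exact hω.isRefl _ _ ((mul_eq_zero.1 e).resolve_left h2)
    rw [orth_inf hω hnd, orth_sup, ha, hb, hc] at this
    obtain ⟨k1, g1, k2, g2, e⟩ := Submodule.mem_sup.1 this
    have e1 : k1 = p.1 - k2 := by rw [← e]; abel
    refine ⟨k1, ⟨?_, g1⟩, k2, g2, p.2 + k1, ⟨b.add_mem h3 g1, ?_⟩, ?_⟩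
    · rw [e1]; exact a.sub_mem h1 g2.1
    · have : p.2 + k1 = p.1 + p.2 - k2 := by rw [e1]; abel
      rw [this]; exact c.sub_mem h4 g2.2
    · ext
      · exact e.symm
      · simp
  · intro p hp q hq
    have hp' := Tri_le_Rel a b c hp
    show beta ω q p = 0
    rw [beta_apply, rel_swap hω ha hb hc hp' hq]
    obtain ⟨k1, h1, k2, h3, k3, h4, rfl⟩ := hp
    obtain ⟨g1, g2, g3⟩ := mem_Rel.1 hq
    have e1 := lag_zero hb h1.2 g2
    have e2 := lag_zero hc h3.2 g3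
    have e3 := lag_zero ha h3.1 g1
    simp only [map_add, LinearMap.add_apply] at e2 ⊢
    linear_combination 2 * e1 + 2 * e2 - 2 * e3

/-! ### the data of a fourth Lagrangian -/

/-- relations inside `x` -/
def Rx (a b c x : Submodule F V) : Submodule F (V × V) := Rel (a ⊓ x) (b ⊓ x) (c ⊓ x)

/-- relations inside `x` that lie in the radical -/
def P0 (ω : LinearMap.BilinForm F V) (a b c x : Submodule F V) : Submodule F (V × V) :=
  Rx a b c x ⊓ (beta ω).orthogonal (Rel a b c)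

theorem Rx_le (a b c x : Submodule F V) : Rx a b c x ≤ Rel a b c :=
  Rel_mono inf_le_left inf_le_left inf_le_left

theorem Rx_iso {a b c x : Submodule F V} (hx : ω.orthogonal x = x) :
    ∀ u ∈ Rx a b c x, ∀ v ∈ Rx a b c x, beta ω u v = 0 := by
  intro u hu v hv
  rw [beta_apply, lag_zero hx (mem_Rel.1 hu).1.2 (mem_Rel.1 hv).2.1.2,
    lag_zero hx (mem_Rel.1 hv).1.2 (mem_Rel.1 hu).2.1.2, add_zero]

theorem inf4 (a b c x : Submodule F V) :
    a ⊓ b ⊓ x ⊓ (a ⊓ c ⊓ x) ⊓ (b ⊓ c ⊓ x) = a ⊓ b ⊓ c ⊓ x := by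
  ext v; simp only [Submodule.mem_inf]; tauto

theorem Tri_inf_le {A B C x : Submodule F V} (h : A = ⊥ ∨ B = ⊥ ∨ C = ⊥) {p : V × V}
    (hp : p ∈ Tri A B C) (h1 : p.1 ∈ x) (h2 : p.2 ∈ x) : p ∈ Tri (A ⊓ x) (B ⊓ x) (C ⊓ x) := by
  obtain ⟨k1, g1, k2, g2, k3, g3, rfl⟩ := hp
  have e1 : k1 ∈ x := by
    rcases h with rfl | rfl | rfl
    · rw [(Submodule.mem_bot F).1 g1]; exact x.zero_mem
    · rw [(Submodule.mem_bot F).1 g2] at h1; simpa using h1
    · rw [(Submodule.mem_bot F).1 g3] at h2; simpa using h2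
  exact ⟨k1, ⟨g1, e1⟩, k2, ⟨g2, (x.add_mem_iff_right e1).1 h1⟩, k3,
    ⟨g3, (x.sub_mem_iff_left e1).1 h2⟩, rfl⟩

/-- the dimensions attached to `x` -/
structure Dat (ω : LinearMap.BilinForm F V) (a b c x : Submodule F V) (π : Pat) : Prop where
  hM0 : finrank F ↥(a ⊓ b ⊓ c ⊓ x) = π.m0
  hMab : finrank F ↥(a ⊓ b ⊓ x) = π.m0 + π.mab
  hMac : finrank F ↥(a ⊓ c ⊓ x) = π.m0 + π.mac
  hMbc : finrank F ↥(b ⊓ c ⊓ x) = π.m0 + π.mbc
  hP0 : finrank F (P0 ω a b c x) = 2 * π.m0 + π.mab + π.mac + π.mbc + π.d0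
  hRx : finrank F (Rx a b c x) = 2 * π.m0 + π.mab + π.mac + π.mbc + π.d0 + π.d1
  hxa : finrank F ↥(a ⊓ x) = π.m0 + π.mab + π.mac + π.d0 + π.d1 + π.ma
  hxb : finrank F ↥(b ⊓ x) = π.m0 + π.mab + π.mbc + π.d0 + π.d1 + π.mb
  hxc : finrank F ↥(c ⊓ x) = π.m0 + π.mac + π.mbc + π.d0 + π.d1 + π.mc

/-- the standing hypotheses -/
structure Hyp (ω : LinearMap.BilinForm F V) (n : ℕ) (a b c : Submodule F V) : Prop where
  two : (2 : F) ≠ 0
  alt : ω.IsAlt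
  nd : ω.Nondegenerate
  dim : finrank F V = 2 * n
  ha : ω.orthogonal a = a
  hb : ω.orthogonal b = b
  hc : ω.orthogonal c = c

variable {a b c x : Submodule F V} {π : Pat}

theorem Hyp.rad (H : Hyp ω n a b c) :
    Rel a b c ⊓ (beta ω).orthogonal (Rel a b c) = Tri (a ⊓ b) (a ⊓ c) (b ⊓ c) :=
  rad_eq H.two H.alt H.nd H.ha H.hb H.hc

theorem Hyp.dim_rad (a b c : Submodule F V) :
    finrank F (Tri (a ⊓ b) (a ⊓ c) (b ⊓ c)) + finrank F ↥(a ⊓ b ⊓ c) =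
      finrank F ↥(a ⊓ b) + finrank F ↥(a ⊓ c) + finrank F ↥(b ⊓ c) := by
  have h2 := dim_Tri (a ⊓ b) (a ⊓ c) (b ⊓ c)
  rwa [inf3] at h2

theorem Hyp.P0_le (H : Hyp ω n a b c) (x : Submodule F V) :
    P0 ω a b c x ≤ Tri (a ⊓ b) (a ⊓ c) (b ⊓ c) := by
  rw [← H.rad]
  exact inf_le_inf_right _ (Rx_le a b c x)

theorem Hyp.le_P0 (H : Hyp ω n a b c) (x : Submodule F V) :
    Tri (a ⊓ b ⊓ x) (a ⊓ c ⊓ x) (b ⊓ c ⊓ x) ≤ P0 ω a b c x := by
  refine le_inf ?_ ?_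
  · rw [inf_inf_distrib_right a b x, inf_inf_distrib_right a c x, inf_inf_distrib_right b c x]
    exact Tri_le_Rel _ _ _
  · refine (Tri_mono inf_le_left inf_le_left inf_le_left).trans ?_
    rw [← H.rad]
    exact inf_le_right

theorem dim_triv (a b c x : Submodule F V) :
    finrank F (Tri (a ⊓ b ⊓ x) (a ⊓ c ⊓ x) (b ⊓ c ⊓ x)) + finrank F ↥(a ⊓ b ⊓ c ⊓ x) =
      finrank F ↥(a ⊓ b ⊓ x) + finrank F ↥(a ⊓ c ⊓ x) + finrank F ↥(b ⊓ c ⊓ x) := by
  have h2 := dim_Tri (a ⊓ b ⊓ x) (a ⊓ c ⊓ x) (b ⊓ c ⊓ x)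
  rwa [inf4] at h2

/-- first projection of the relations -/
def ea (a b c x : Submodule F V) : Submodule F V := a ⊓ x ⊓ (b ⊓ x ⊔ c ⊓ x)
/-- second projection of the relations -/
def eb (a b c x : Submodule F V) : Submodule F V := b ⊓ x ⊓ (a ⊓ x ⊔ c ⊓ x)
/-- third projection of the relations -/
def ec (a b c x : Submodule F V) : Submodule F V := c ⊓ x ⊓ (a ⊓ x ⊔ b ⊓ x)

theorem ea_eq (a b c x : Submodule F V) :
    ea a b c x = (Rx a b c x).map (LinearMap.fst F V V) := (map_fst_Rel _ _ _).symm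
theorem eb_eq (a b c x : Submodule F V) :
    eb a b c x = (Rx a b c x).map (LinearMap.snd F V V) := (map_snd_Rel _ _ _).symm

theorem dim_ea (a b c x : Submodule F V) :
    finrank F (ea a b c x) + finrank F ↥(b ⊓ c ⊓ x) = finrank F (Rx a b c x) := by
  rw [inf_inf_distrib_right b c x]; exact dim_Rel_fst _ _ _
theorem dim_eb (a b c x : Submodule F V) :
    finrank F (eb a b c x) + finrank F ↥(a ⊓ c ⊓ x) = finrank F (Rx a b c x) := by
  rw [inf_inf_distrib_right a c x]; exact dim_Rel_snd _ _ _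
theorem dim_ec (a b c x : Submodule F V) :
    finrank F (ec a b c x) + finrank F ↥(a ⊓ b ⊓ x) = finrank F (Rx a b c x) := by
  rw [inf_inf_distrib_right a b x]; exact dim_Rel_add _ _ _

theorem ea_le (a b c x : Submodule F V) : ea a b c x ≤ a ⊓ x := inf_le_left
theorem eb_le (a b c x : Submodule F V) : eb a b c x ≤ b ⊓ x := inf_le_left
theorem ec_le (a b c x : Submodule F V) : ec a b c x ≤ c ⊓ x := inf_le_left

theorem le_ea (a b c x : Submodule F V) : a ⊓ b ⊓ x ≤ ea a b c x := fun _ h =>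
  ⟨⟨h.1.1, h.2⟩, Submodule.mem_sup_left ⟨h.1.2, h.2⟩⟩
theorem le_eb (a b c x : Submodule F V) : a ⊓ b ⊓ x ≤ eb a b c x := fun _ h =>
  ⟨⟨h.1.2, h.2⟩, Submodule.mem_sup_left ⟨h.1.1, h.2⟩⟩

theorem Hyp.exists_dat (H : Hyp ω n a b c) (x : Submodule F V) : ∃ π, Dat ω a b c x π := by
  have l1 : finrank F ↥(a ⊓ b ⊓ c ⊓ x) ≤ finrank F ↥(a ⊓ b ⊓ x) :=
    Submodule.finrank_mono fun _ h => ⟨h.1.1, h.2⟩
  have l2 : finrank F ↥(a ⊓ b ⊓ c ⊓ x) ≤ finrank F ↥(a ⊓ c ⊓ x) :=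
    Submodule.finrank_mono fun _ h => ⟨⟨h.1.1.1, h.1.2⟩, h.2⟩
  have l3 : finrank F ↥(a ⊓ b ⊓ c ⊓ x) ≤ finrank F ↥(b ⊓ c ⊓ x) :=
    Submodule.finrank_mono fun _ h => ⟨⟨h.1.1.2, h.1.2⟩, h.2⟩
  have l4 := Submodule.finrank_mono (H.le_P0 x)
  have l5 : finrank F (P0 ω a b c x) ≤ finrank F (Rx a b c x) := Submodule.finrank_mono inf_le_left
  have l6 := Submodule.finrank_mono (ea_le a b c x)
  have l7 := Submodule.finrank_mono (eb_le a b c x)
  have l8 := Submodule.finrank_mono (ec_le a b c x)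
  have e1 := dim_triv a b c x
  have e2 := dim_ea a b c x
  have e3 := dim_eb a b c x
  have e4 := dim_ec a b c x
  obtain ⟨mab, h1⟩ := Nat.exists_eq_add_of_le l1
  obtain ⟨mac, h2⟩ := Nat.exists_eq_add_of_le l2
  obtain ⟨mbc, h3⟩ := Nat.exists_eq_add_of_le l3
  obtain ⟨d0, h4⟩ := Nat.exists_eq_add_of_le l4
  obtain ⟨d1, h5⟩ := Nat.exists_eq_add_of_le l5
  obtain ⟨ma, h6⟩ := Nat.exists_eq_add_of_le l6
  obtain ⟨mb, h7⟩ := Nat.exists_eq_add_of_le l7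
  obtain ⟨mc, h8⟩ := Nat.exists_eq_add_of_le l8
  refine ⟨⟨finrank F ↥(a ⊓ b ⊓ c ⊓ x), mab, mac, mbc, d0, d1, ma, mb, mc⟩,
    rfl, h1, h2, h3, ?_, ?_, ?_, ?_, ?_⟩ <;> dsimp only <;> omega

/-- a modular-law computation -/
theorem inf_sup_eq {A S T : Submodule F V} (hS : S ≤ A) (hT : A ⊓ T ≤ S) : A ⊓ (S ⊔ T) = S := by
  rw [inf_comm, sup_inf_assoc_of_le _ hS, inf_comm T A, sup_eq_left.2 hT]

theorem a_inf_S1 (a b c x : Submodule F V) : a ⊓ (ea a b c x ⊔ eb a b c x) = ea a b c x :=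
  inf_sup_eq ((ea_le a b c x).trans inf_le_left) fun _ h =>
    le_ea a b c x ⟨⟨h.1, h.2.1.1⟩, h.2.1.2⟩

theorem b_inf_S2 (a b c x : Submodule F V) : b ⊓ (eb a b c x ⊔ a ⊓ x) = eb a b c x :=
  inf_sup_eq ((eb_le a b c x).trans inf_le_left) fun _ h => le_eb a b c x ⟨⟨h.2.1, h.1⟩, h.2.2⟩

theorem c_inf_S3 (a b c x : Submodule F V) : c ⊓ (a ⊓ x ⊔ b ⊓ x) = ec a b c x :=
  le_antisymm (fun _ h => ⟨⟨h.1, (sup_le inf_le_right inf_le_right : a ⊓ x ⊔ b ⊓ x ≤ x) h.2⟩, h.2⟩)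
    fun _ h => ⟨h.1.1, h.2⟩

theorem Dat.hea (D : Dat ω a b c x π) :
    finrank F (ea a b c x) = π.m0 + π.mab + π.mac + π.d0 + π.d1 := by
  have := dim_ea a b c x; have := D.hMbc; have := D.hRx; omega
theorem Dat.heb (D : Dat ω a b c x π) :
    finrank F (eb a b c x) = π.m0 + π.mab + π.mbc + π.d0 + π.d1 := by
  have := dim_eb a b c x; have := D.hMac; have := D.hRx; omega
theorem Dat.hec (D : Dat ω a b c x π) :
    finrank F (ec a b c x) = π.m0 + π.mac + π.mbc + π.d0 + π.d1 := by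
  have := dim_ec a b c x; have := D.hMab; have := D.hRx; omega

theorem Dat.htriv (D : Dat ω a b c x π) :
    finrank F (Tri (a ⊓ b ⊓ x) (a ⊓ c ⊓ x) (b ⊓ c ⊓ x)) = 2 * π.m0 + π.mab + π.mac + π.mbc := by
  have := dim_triv a b c x
  have := D.hM0; have := D.hMab; have := D.hMac; have := D.hMbc
  omega

theorem Dat.hS1 (D : Dat ω a b c x π) : finrank F ↥(ea a b c x ⊔ eb a b c x) =
    π.m0 + π.mab + π.mac + π.mbc + 2 * (π.d0 + π.d1) := by
  have h1 := Submodule.finrank_sup_add_finrank_inf_eq (ea a b c x) (eb a b c x)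
  have h2 : ea a b c x ⊓ eb a b c x = a ⊓ b ⊓ x :=
    le_antisymm (fun _ h => ⟨⟨h.1.1.1, h.2.1.1⟩, h.1.1.2⟩) (le_inf (le_ea _ _ _ _) (le_eb _ _ _ _))
  rw [h2] at h1
  have := D.hea; have := D.heb; have := D.hMab
  omega

theorem Dat.hS2 (D : Dat ω a b c x π) : finrank F ↥(eb a b c x ⊔ a ⊓ x) =
    π.m0 + π.mab + π.mac + π.mbc + 2 * (π.d0 + π.d1) + π.ma := by
  have h1 := Submodule.finrank_sup_add_finrank_inf_eq (eb a b c x) (a ⊓ x)
  have h2 : eb a b c x ⊓ (a ⊓ x) = a ⊓ b ⊓ x :=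
    le_antisymm (fun _ h => ⟨⟨h.2.1, h.1.1.1⟩, h.2.2⟩)
      (le_inf (le_eb _ _ _ _) fun _ h => ⟨h.1.1, h.2⟩)
  rw [h2] at h1
  have := D.hxa; have := D.heb; have := D.hMab
  omega

theorem Dat.hS3 (D : Dat ω a b c x π) : finrank F ↥(a ⊓ x ⊔ b ⊓ x) =
    π.m0 + π.mab + π.mac + π.mbc + 2 * (π.d0 + π.d1) + π.ma + π.mb := by
  have h1 := Submodule.finrank_sup_add_finrank_inf_eq (a ⊓ x) (b ⊓ x)
  rw [← inf_inf_distrib_right] at h1
  have := D.hxa; have := D.hxb; have := D.hMab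
  omega

theorem Dat.hS (D : Dat ω a b c x π) : finrank F ↥(c ⊓ x ⊔ (a ⊓ x ⊔ b ⊓ x)) =
    π.m0 + π.mab + π.mac + π.mbc + 2 * (π.d0 + π.d1) + π.ma + π.mb + π.mc := by
  have h1 : finrank F ↥(c ⊓ x ⊔ (a ⊓ x ⊔ b ⊓ x)) + finrank F (ec a b c x) = _ :=
    Submodule.finrank_sup_add_finrank_inf_eq (c ⊓ x) (a ⊓ x ⊔ b ⊓ x)
  have := D.hxc; have := D.hS3; have := D.hec
  omega

theorem Hyp.d0_le (H : Hyp ω n a b c) (x : Submodule F V) {A B C : Submodule F V}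
    (h : A = ⊥ ∨ B = ⊥ ∨ C = ⊥) (hA : A ≤ a ⊓ b) (hB : B ≤ a ⊓ c) (hC : C ≤ b ⊓ c) :
    finrank F (P0 ω a b c x) + (finrank F A + finrank F B + finrank F C) ≤
      finrank F (Tri (a ⊓ b) (a ⊓ c) (b ⊓ c)) +
        (finrank F ↥(A ⊓ x) + finrank F ↥(B ⊓ x) + finrank F ↥(C ⊓ x)) := by
  have h1 := Submodule.finrank_sup_add_finrank_inf_eq (P0 ω a b c x) (Tri A B C)
  have h2 := Submodule.finrank_mono (sup_le (H.P0_le x) (Tri_mono hA hB hC))
  have h3 : finrank F ↥(P0 ω a b c x ⊓ Tri A B C) ≤ finrank F (Tri (A ⊓ x) (B ⊓ x) (C ⊓ x)) :=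
    Submodule.finrank_mono fun p hp =>
      Tri_inf_le h hp.2 (mem_Rel.1 hp.1.1).1.2 (mem_Rel.1 hp.1.1).2.1.2
  have h4 := dim_Tri A B C
  have h5 := dim_Tri (A ⊓ x) (B ⊓ x) (C ⊓ x)
  have h6 : A ⊓ B ⊓ C = ⊥ := by rcases h with rfl | rfl | rfl <;> simp
  rw [h6, finrank_bot] at h4
  omega

theorem Hyp.feas [Fintype F] (H : Hyp ω n a b c) (hx : ω.orthogonal x = x)
    (D : Dat ω a b c x π) :
    π.Feas n (finrank F ↥(a ⊓ b ⊓ c)) (finrank F ↥(a ⊓ b)) (finrank F ↥(a ⊓ c))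
      (finrank F ↥(b ⊓ c)) := by
  have r := Hyp.dim_rad a b c
  have d1 := D.hM0; have d2 := D.hMab; have d3 := D.hMac; have d4 := D.hMbc
  have d5 := D.hP0; have d6 := D.hRx; have d7 := D.hxa; have d8 := D.hxb; have d9 := D.hxc
  refine ⟨?_, ?_, ?_, ?_, ?_, ?_, ?_, ?_, ?_⟩
  · rw [← d1]; exact Submodule.finrank_mono inf_le_left
  · have := H.d0_le x (Or.inl rfl) bot_le le_rfl le_rfl
    rw [bot_inf_eq, finrank_bot] at this
    omega
  · have := H.d0_le x (Or.inr (Or.inl rfl)) le_rfl bot_le le_rfl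
    rw [bot_inf_eq, finrank_bot] at this
    omega
  · have := H.d0_le x (Or.inr (Or.inr rfl)) le_rfl le_rfl bot_le
    rw [bot_inf_eq, finrank_bot] at this
    omega
  · have h1 : _ ≤ _ + 2 * finrank F (P0 ω a b c x) :=
      two_mul_le_of_iso (beta ω) beta_symm (Rel a b c) (Rx a b c x) (Rx_le a b c x) (Rx_iso hx)
    rw [H.rad, dim_Rel H.alt H.nd H.dim H.ha H.hb H.hc] at h1
    omega
  · have := three_ineq H.alt H.nd H.dim H.ha H.hb hx
    omega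
  · have := three_ineq H.alt H.nd H.dim H.ha H.hc hx
    omega
  · have := three_ineq H.alt H.nd H.dim H.hb H.hc hx
    omega
  · set S := c ⊓ x ⊔ (a ⊓ x ⊔ b ⊓ x) with hS
    have hSx : S ≤ x := sup_le inf_le_right (sup_le inf_le_right inf_le_right)
    have h1 := Submodule.finrank_sup_add_finrank_inf_eq (a ⊓ b ⊓ c) S
    have h2 : finrank F ↥(a ⊓ b ⊓ c ⊓ S) ≤ finrank F ↥(a ⊓ b ⊓ c ⊓ x) :=
      Submodule.finrank_mono (inf_le_inf_left _ hSx)
    have hK : S ≤ ω.orthogonal (a ⊓ b ⊓ c) :=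
      sup_le (le_orth H.hc inf_le_right inf_le_left)
        (sup_le (le_orth H.ha (inf_le_left.trans inf_le_left) inf_le_left)
          (le_orth H.hb (inf_le_left.trans inf_le_right) inf_le_left))
    have h3 : a ⊓ b ⊓ c ⊔ S ≤ ω.orthogonal (a ⊓ b ⊓ c ⊔ S) := by
      rw [orth_sup]
      refine sup_le (le_inf (le_orth H.hc inf_le_right inf_le_right) ?_)
        (le_inf hK (le_orth hx hSx hSx))
      exact fun k hk s hs => H.alt.isRefl _ _ (hK hs k hk)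
    have h4 := Submodule.finrank_mono h3
    have h5 := dim_orth H.nd H.dim (a ⊓ b ⊓ c ⊔ S)
    have h6 := D.hS
    rw [← hS] at h6
    omega

end Crest.Agent.R38.LagAux
end

-- ▼ part PVc/R38/Lag

set_option autoImplicit false
open Finset Module
open scoped BigOperators Matrix

namespace Crest.Agent.R38

variable {F : Type} [Field F] [Fintype F] {V : Type} [AddCommGroup V] [Module F V]
  [FiniteDimensional F V]

namespace LagAux

theorem fib {X Y : Type} [Finite X] (s : Set X) (f : X → Y) {N B : ℝ} (hB0 : 0 ≤ B)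
    (hN : ((f '' s).ncard : ℝ) ≤ N) (hB : ∀ y ∈ s, ({x | x ∈ s ∧ f x = f y}.ncard : ℝ) ≤ B) :
    (s.ncard : ℝ) ≤ N * B := by
  classical
  obtain ⟨t, rfl⟩ := s.toFinite.exists_finset_coe
  rw [← Finset.coe_image, Set.ncard_coe_finset] at hN
  rw [Set.ncard_coe_finset, Finset.card_eq_sum_card_image f t]
  push_cast
  refine le_trans (Finset.sum_le_card_nsmul _ _ B fun z hz => ?_) ?_
  · obtain ⟨y, hy, rfl⟩ := Finset.mem_image.1 hz
    have := hB y hy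
    rwa [show {x | x ∈ (t : Set X) ∧ f x = f y} = ((t.filter fun x => f x = f y : Finset X) : Set X)
      by ext; simp, Set.ncard_coe_finset] at this
  · rw [nsmul_eq_mul]
    exact mul_le_mul_of_nonneg_right hN hB0

theorem fib3 {X Y : Type} [Finite X] (E : X → X → Prop) {E' : X → X → Prop} (f : X → Y) {N B : ℝ}
    (hB : ∀ y, ({x | E' x y}.ncard : ℝ) ≤ B) (hN : ∀ y, ((f '' {x | E x y}).ncard : ℝ) ≤ N)
    (hE : ∀ x x' y, E x y → E x' y → f x = f x' → E' x x') (y : X) :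
    ({x | E x y}.ncard : ℝ) ≤ N * B := by
  refine fib _ f ((Nat.cast_nonneg _).trans (hB y)) (hN y) fun x' hx' => le_trans ?_ (hB x')
  exact Nat.cast_le.2 (Set.ncard_le_ncard (fun x hx => hE x x' y hx.1 hx' hx.2) (Set.toFinite _))

theorem finite_sub (F V : Type) [Field F] [Fintype F] [AddCommGroup V] [Module F V]
    [FiniteDimensional F V] : Finite (Submodule F V) := by
  have : Finite V := Module.finite_of_finite F
  exact Finite.of_injective _ (SetLike.coe_injective (A := Submodule F V))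

theorem img_le {X : Type} {s : Set X} {f : X → Submodule F V} (lo hi : Submodule F V) (k : ℕ)
    {e : ℤ} (he : (k : ℤ) * ((finrank F hi : ℤ) - finrank F lo - k) = e)
    (h : ∀ x ∈ s, lo ≤ f x ∧ f x ≤ hi ∧ finrank F (f x) = finrank F lo + k) :
    ((f '' s).ncard : ℝ) ≤ 2 ^ k * (Fintype.card F : ℝ) ^ e := by
  have := finite_sub F V
  rcases s.eq_empty_or_nonempty with rfl | ⟨x0, hx0⟩
  · rw [Set.image_empty, Set.ncard_empty, Nat.cast_zero]; positivity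
  have h1 : finrank F lo + k ≤ finrank F hi := by
    rw [← (h x0 hx0).2.2]; exact Submodule.finrank_mono (h x0 hx0).2.1
  have h2 : (f '' s).ncard ≤
      {W : Submodule F V | lo ≤ W ∧ W ≤ hi ∧ finrank F W = finrank F lo + k}.ncard :=
    Set.ncard_le_ncard (by rintro _ ⟨x, hx, rfl⟩; exact h x hx) (Set.toFinite _)
  have h3 := h2.trans (card_between_le lo hi k)
  have h4 : e = ((k * (finrank F hi - finrank F lo - k) : ℕ) : ℤ) := by
    rw [← he, Nat.sub_sub, Nat.cast_mul, Nat.cast_sub h1]; push_cast; ring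
  rw [h4, zpow_natCast]
  exact_mod_cast h3

theorem final_id (π : Pat) {n n0 jab jac jbc U : ℕ}
    (hU : n = π.m0 + π.mab + π.mac + π.mbc + 2 * (π.d0 + π.d1) + π.ma + π.mb + π.mc + U) :
    π.ex n n0 jab jac jbc = (π.m0 : ℤ) * ((n0 : ℤ) - π.m0) +
      ((π.mab : ℤ) * ((jab : ℤ) - π.m0 - π.mab) + ((π.mac : ℤ) * ((jac : ℤ) - π.m0 - π.mac) +
      ((π.mbc : ℤ) * ((jbc : ℤ) - π.m0 - π.mbc) +
      ((π.d0 : ℤ) * ((jab : ℤ) + jac + jbc - n0 - 2 * π.m0 - π.mab - π.mac - π.mbc - π.d0) +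
      (((π.d1 : ℤ) * ((n : ℤ) + n0 - 2 * π.m0 - π.mab - π.mac - π.mbc - π.d0 - π.d1) -
        (tri π.d1 : ℤ)) +
      ((π.ma : ℤ) * ((π.mb : ℤ) + π.mc + U) + ((π.mb : ℤ) * ((π.mc : ℤ) + U) +
      ((π.mc : ℤ) * U + (tri U : ℤ))))))))) := by
  have e : n - π.s1 = π.ma + π.mb + π.mc + U := by
    show n - (π.m0 + π.mab + π.mac + π.mbc + 2 * (π.d0 + π.d1)) = _
    omega
  have h1 : (2 : ℤ) * tri (π.ma + π.mb + π.mc + U) =
      ((π.ma : ℤ) + π.mb + π.mc + U) * ((π.ma : ℤ) + π.mb + π.mc + U + 1) := by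
    exact_mod_cast two_mul_tri (π.ma + π.mb + π.mc + U)
  have h2 : (2 : ℤ) * tri π.ma = (π.ma : ℤ) * ((π.ma : ℤ) + 1) := by exact_mod_cast two_mul_tri _
  have h3 : (2 : ℤ) * tri π.mb = (π.mb : ℤ) * ((π.mb : ℤ) + 1) := by exact_mod_cast two_mul_tri _
  have h4 : (2 : ℤ) * tri π.mc = (π.mc : ℤ) * ((π.mc : ℤ) + 1) := by exact_mod_cast two_mul_tri _
  have h5 : (2 : ℤ) * tri U = (U : ℤ) * ((U : ℤ) + 1) := by exact_mod_cast two_mul_tri _
  show _ + _ + _ + _ + _ + _ - _ + (tri (n - π.s1) : ℤ) - _ - _ - _ = _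
  rw [e]
  refine mul_left_cancel₀ (two_ne_zero (α := ℤ)) ?_
  linear_combination h1 - h2 - h3 - h4 - h5

theorem count (hF : ringChar F ≠ 2) {ω : LinearMap.BilinForm F V} {n : ℕ}
    {a b c : Submodule F V} (H : Hyp ω n a b c) {X : Type} [Finite X] (L : X → Submodule F V)
    (hL : ∀ x, ω.orthogonal (L x) = L x)
    (hcnt : ∀ S : Submodule F V,
      {x | S ≤ L x}.ncard ≤ Fintype.card F ^ tri (n - finrank F S))
    (π : Pat) (D : ∀ x, Dat ω a b c (L x) π) :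
    (Nat.card X : ℝ) ≤ 4 ^ (10 * n) * (Fintype.card F : ℝ) ^
      π.ex n (finrank F ↥(a ⊓ b ⊓ c)) (finrank F ↥(a ⊓ b)) (finrank F ↥(a ⊓ c))
        (finrank F ↥(b ⊓ c)) := by
  have hq : (0 : ℝ) < Fintype.card F := by exact_mod_cast Fintype.card_pos
  rcases isEmpty_or_nonempty X with hX | ⟨⟨y0⟩⟩
  · rw [Nat.card_of_isEmpty, Nat.cast_zero]; positivity
  obtain ⟨f1, -, -, -, -, -, -, -, f9⟩ := H.feas (hL y0) (D y0)
  obtain ⟨U, hU⟩ : ∃ U, n = π.m0 + π.mab + π.mac + π.mbc + 2 * (π.d0 + π.d1) + π.ma + π.mb +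
    π.mc + U := Nat.exists_eq_add_of_le (by omega)
  set q : ℝ := ((Fintype.card F : ℕ) : ℝ) with hqd
  have h9 : ∀ y, ({x | a ⊓ L x = a ⊓ L y ∧ b ⊓ L x = b ⊓ L y ∧ c ⊓ L x = c ⊓ L y}.ncard : ℝ) ≤
      q ^ (tri U : ℤ) := by
    intro y
    have h1 := hcnt (c ⊓ L y ⊔ (a ⊓ L y ⊔ b ⊓ L y))
    have h2 : n - finrank F ↥(c ⊓ L y ⊔ (a ⊓ L y ⊔ b ⊓ L y)) = U := by
      have := (D y).hS; omega
    rw [h2] at h1
    have h3 := (Set.ncard_le_ncard (s := {x | a ⊓ L x = a ⊓ L y ∧ b ⊓ L x = b ⊓ L y ∧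
      c ⊓ L x = c ⊓ L y}) (fun x hx => by
        obtain ⟨e1, e2, e3⟩ := hx
        show _ ≤ L x
        rw [← e1, ← e2, ← e3]
        exact sup_le inf_le_right (sup_le inf_le_right inf_le_right)) (Set.toFinite _)).trans h1
    rw [zpow_natCast, hqd]
    exact_mod_cast h3
  have h8 := fib3 (fun x y => a ⊓ L x = a ⊓ L y ∧ b ⊓ L x = b ⊓ L y) (fun x => c ⊓ L x) h9
    (N := 2 ^ π.mc * q ^ ((π.mc : ℤ) * U))
    (fun y => img_le (ec a b c (L y)) (c ⊓ ω.orthogonal (a ⊓ L y ⊔ b ⊓ L y)) π.mc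
      (by
        have h1 := dim_lag_inf H.nd H.dim H.hc (a ⊓ L y ⊔ b ⊓ L y)
        rw [c_inf_S3] at h1
        have h2 := (D y).hS3
        congr 1
        omega)
      (by
        rintro x ⟨e1, e2⟩
        refine ⟨?_, le_inf inf_le_left ?_, by rw [(D x).hxc, (D y).hec]⟩
        · rw [← c_inf_S3, ← e1, ← e2, c_inf_S3]; exact ec_le _ _ _ _
        · rw [← e1, ← e2]
          exact le_orth (hL x) (sup_le inf_le_right inf_le_right) inf_le_right))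
    (fun x x' y h h' e => ⟨h.1.trans h'.1.symm, h.2.trans h'.2.symm, e⟩)
  have h7 := fib3 (fun x y => Rx a b c (L x) = Rx a b c (L y) ∧ a ⊓ L x = a ⊓ L y)
    (fun x => b ⊓ L x) h8 (N := 2 ^ π.mb * q ^ ((π.mb : ℤ) * ((π.mc : ℤ) + U)))
    (fun y => img_le (eb a b c (L y)) (b ⊓ ω.orthogonal (eb a b c (L y) ⊔ a ⊓ L y)) π.mb
      (by
        have h1 := dim_lag_inf H.nd H.dim H.hb (eb a b c (L y) ⊔ a ⊓ L y)
        rw [b_inf_S2] at h1
        have h2 := (D y).hS2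
        congr 1
        omega)
      (by
        rintro x ⟨e1, e2⟩
        have e3 : eb a b c (L y) = eb a b c (L x) := by rw [eb_eq, eb_eq, e1]
        refine ⟨?_, le_inf inf_le_left ?_, by rw [(D x).hxb, (D y).heb]⟩
        · rw [e3]; exact eb_le _ _ _ _
        · rw [e3, ← e2]
          exact le_orth (hL x) (sup_le ((eb_le _ _ _ _).trans inf_le_right) inf_le_right)
            inf_le_right))
    (fun x x' y h h' e => ⟨h.2.trans h'.2.symm, e⟩)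
  have h6 := fib3 (fun x y => Rx a b c (L x) = Rx a b c (L y))
    (fun x => a ⊓ L x) h7 (N := 2 ^ π.ma * q ^ ((π.ma : ℤ) * ((π.mb : ℤ) + π.mc + U)))
    (fun y => img_le (ea a b c (L y)) (a ⊓ ω.orthogonal (ea a b c (L y) ⊔ eb a b c (L y))) π.ma
      (by
        have h1 := dim_lag_inf H.nd H.dim H.ha (ea a b c (L y) ⊔ eb a b c (L y))
        rw [a_inf_S1] at h1
        have h2 := (D y).hS1
        congr 1
        omega)
      (by
        intro x e1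
        have e1' : Rx a b c (L x) = Rx a b c (L y) := e1
        have e2 : ea a b c (L y) = ea a b c (L x) := by rw [ea_eq, ea_eq, e1']
        have e3 : eb a b c (L y) = eb a b c (L x) := by rw [eb_eq, eb_eq, e1']
        refine ⟨?_, le_inf inf_le_left ?_, by rw [(D x).hxa, (D y).hea]⟩
        · rw [e2]; exact ea_le _ _ _ _
        · rw [e2, e3]
          exact le_orth (hL x) (sup_le ((ea_le _ _ _ _).trans inf_le_right)
            ((eb_le _ _ _ _).trans inf_le_right)) inf_le_right))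
    (fun x x' y h h' e => ⟨h.trans h'.symm, e⟩)
  have h5 := fib3 (fun x y => P0 ω a b c (L x) = P0 ω a b c (L y))
    (fun x => Rx a b c (L x)) h6
    (N := 4 ^ π.d1 * q ^ ((π.d1 : ℤ) * ((n : ℤ) + finrank F ↥(a ⊓ b ⊓ c) - 2 * π.m0 - π.mab -
      π.mac - π.mbc - π.d0 - π.d1) - (tri π.d1 : ℤ)))
    (fun y => by
      have := finite_sub F (V × V)
      have h1 := card_iso_ext hF (beta ω) beta_symm (Rel a b c) (P0 ω a b c (L y)) π.d1
      have h2 : (π.d1 : ℤ) * ((finrank F (Rel a b c) : ℤ) - finrank F (P0 ω a b c (L y)) - π.d1) =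
          (π.d1 : ℤ) * ((n : ℤ) + finrank F ↥(a ⊓ b ⊓ c) - 2 * π.m0 - π.mab -
            π.mac - π.mbc - π.d0 - π.d1) := by
        rw [dim_Rel H.alt H.nd H.dim H.ha H.hb H.hc, (D y).hP0]
        push_cast; ring
      rw [h2] at h1
      refine le_trans ?_ h1
      have h3 : ((fun x => Rx a b c (L x)) '' {x | P0 ω a b c (L x) = P0 ω a b c (L y)}).ncard ≤
          {P : Submodule F (V × V) | P ≤ Rel a b c ∧
            P ⊓ (beta ω).orthogonal (Rel a b c) = P0 ω a b c (L y) ∧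
            (∀ u ∈ P, ∀ v ∈ P, beta ω u v = 0) ∧
            finrank F P = finrank F (P0 ω a b c (L y)) + π.d1}.ncard := by
        refine Set.ncard_le_ncard ?_ (Set.toFinite _)
        rintro _ ⟨x, hx, rfl⟩
        exact ⟨Rx_le _ _ _ _, hx, Rx_iso (hL x), by rw [(D x).hRx, (D y).hP0]⟩
      exact_mod_cast h3)
    (fun x x' y _ _ e => e)
  have h4 := fib3 (fun x y => a ⊓ b ⊓ L x = a ⊓ b ⊓ L y ∧ a ⊓ c ⊓ L x = a ⊓ c ⊓ L y ∧
      b ⊓ c ⊓ L x = b ⊓ c ⊓ L y) (fun x => P0 ω a b c (L x)) h5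
    (N := 2 ^ π.d0 * q ^ ((π.d0 : ℤ) * ((finrank F ↥(a ⊓ b) : ℤ) + finrank F ↥(a ⊓ c) +
      finrank F ↥(b ⊓ c) - finrank F ↥(a ⊓ b ⊓ c) - 2 * π.m0 - π.mab - π.mac - π.mbc - π.d0)))
    (fun y => img_le (Tri (a ⊓ b ⊓ L y) (a ⊓ c ⊓ L y) (b ⊓ c ⊓ L y))
      (Tri (a ⊓ b) (a ⊓ c) (b ⊓ c)) π.d0
      (by
        have h1 := Hyp.dim_rad a b c
        have h2 := (D y).htriv
        congr 1
        omega)
      (by
        rintro x ⟨e1, e2, e3⟩
        refine ⟨?_, H.P0_le _, by rw [(D x).hP0, (D y).htriv]⟩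
        rw [← e1, ← e2, ← e3]
        exact H.le_P0 _))
    (fun x x' y _ _ e => e)
  have h3 := fib3 (fun x y => a ⊓ b ⊓ c ⊓ L x = a ⊓ b ⊓ c ⊓ L y ∧ a ⊓ b ⊓ L x = a ⊓ b ⊓ L y ∧
      a ⊓ c ⊓ L x = a ⊓ c ⊓ L y) (fun x => b ⊓ c ⊓ L x) h4
    (N := 2 ^ π.mbc * q ^ ((π.mbc : ℤ) * ((finrank F ↥(b ⊓ c) : ℤ) - π.m0 - π.mbc)))
    (fun y => img_le (a ⊓ b ⊓ c ⊓ L y) (b ⊓ c) π.mbc (by rw [(D y).hM0])
      (by
        rintro x ⟨e1, -, -⟩
        refine ⟨?_, inf_le_left, by rw [(D x).hMbc, (D y).hM0]⟩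
        rw [← e1]
        exact fun _ h => ⟨⟨h.1.1.2, h.1.2⟩, h.2⟩))
    (fun x x' y h h' e => ⟨h.2.1.trans h'.2.1.symm, h.2.2.trans h'.2.2.symm, e⟩)
  have h2 := fib3 (fun x y => a ⊓ b ⊓ c ⊓ L x = a ⊓ b ⊓ c ⊓ L y ∧ a ⊓ b ⊓ L x = a ⊓ b ⊓ L y)
    (fun x => a ⊓ c ⊓ L x) h3
    (N := 2 ^ π.mac * q ^ ((π.mac : ℤ) * ((finrank F ↥(a ⊓ c) : ℤ) - π.m0 - π.mac)))
    (fun y => img_le (a ⊓ b ⊓ c ⊓ L y) (a ⊓ c) π.mac (by rw [(D y).hM0])
      (by
        rintro x ⟨e1, -⟩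
        refine ⟨?_, inf_le_left, by rw [(D x).hMac, (D y).hM0]⟩
        rw [← e1]
        exact fun _ h => ⟨⟨h.1.1.1, h.1.2⟩, h.2⟩))
    (fun x x' y h h' e => ⟨h.1.trans h'.1.symm, h.2.trans h'.2.symm, e⟩)
  have h1 := fib3 (fun x y => a ⊓ b ⊓ c ⊓ L x = a ⊓ b ⊓ c ⊓ L y)
    (fun x => a ⊓ b ⊓ L x) h2
    (N := 2 ^ π.mab * q ^ ((π.mab : ℤ) * ((finrank F ↥(a ⊓ b) : ℤ) - π.m0 - π.mab)))
    (fun y => img_le (a ⊓ b ⊓ c ⊓ L y) (a ⊓ b) π.mab (by rw [(D y).hM0])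
      (by
        intro x e1
        have e1' : a ⊓ b ⊓ c ⊓ L x = a ⊓ b ⊓ c ⊓ L y := e1
        refine ⟨?_, inf_le_left, by rw [(D x).hMab, (D y).hM0]⟩
        rw [← e1']
        exact fun _ h => ⟨h.1.1, h.2⟩))
    (fun x x' y h h' e => ⟨h.trans h'.symm, e⟩)
  have h0 := fib3 (fun _ _ => True) (fun x => a ⊓ b ⊓ c ⊓ L x) h1
    (N := 2 ^ π.m0 * q ^ ((π.m0 : ℤ) * ((finrank F ↥(a ⊓ b ⊓ c) : ℤ) - π.m0)))
    (fun y => img_le ⊥ (a ⊓ b ⊓ c) π.m0 (by simp)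
      (fun x _ => ⟨bot_le, inf_le_left, by rw [(D x).hM0, finrank_bot, zero_add]⟩))
    (fun x x' y _ _ e => e) y0
  rw [Set.ofPred_true, Set.ncard_univ] at h0
  refine h0.trans ?_
  rw [final_id π hU]
  simp only [zpow_add₀ hq.ne']
  have hc : (2 : ℝ) ^ (π.m0 + π.mab + π.mac + π.mbc + π.d0 + 2 * π.d1 + π.ma + π.mb + π.mc) ≤
      4 ^ (10 * n) := by
    calc _ ≤ (2 : ℝ) ^ (2 * (10 * n)) := pow_le_pow_right₀ one_le_two (by omega)
      _ = _ := by rw [pow_mul]; norm_num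
  refine le_trans (le_of_eq ?_) (mul_le_mul_of_nonneg_right hc (by positivity))
  have e4 : (4 : ℝ) ^ π.d1 = 2 ^ (2 * π.d1) := by rw [pow_mul]; norm_num
  rw [e4]
  simp only [pow_add]
  ac_rfl

end LagAux

open LagAux in
/-- L: counting Lagrangians `L x` by their position with respect to three Lagrangians `a b c` -/
theorem lag_count (hF : ringChar F ≠ 2) (ω : LinearMap.BilinForm F V) (hω : ω.IsAlt)
    (hnd : ω.Nondegenerate) (n : ℕ) (hV : finrank F V = 2 * n) (a b c : Submodule F V)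
    (ha : ω.orthogonal a = a) (hb : ω.orthogonal b = b) (hc : ω.orthogonal c = c)
    {ι : Type} [Fintype ι] (L : ι → Submodule F V) (hL : ∀ x, ω.orthogonal (L x) = L x)
    (hcnt : ∀ S : Submodule F V,
      Nat.card {x // S ≤ L x} ≤ Fintype.card F ^ tri (n - finrank F S)) :
    ∃ pat : ι → Pat,
      (∀ x, (pat x).Feas n (finrank F ↥(a ⊓ b ⊓ c)) (finrank F ↥(a ⊓ b)) (finrank F ↥(a ⊓ c))
            (finrank F ↥(b ⊓ c)) ∧
          finrank F ↥(a ⊓ L x) = (pat x).ja ∧ finrank F ↥(b ⊓ L x) = (pat x).jb ∧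
          finrank F ↥(c ⊓ L x) = (pat x).jc ∧ finrank F ↥(a ⊓ b ⊓ L x) = (pat x).Mab ∧
          finrank F ↥(a ⊓ c ⊓ L x) = (pat x).Mac ∧ finrank F ↥(b ⊓ c ⊓ L x) = (pat x).Mbc) ∧
      ∀ π : Pat, (Nat.card {x // pat x = π} : ℝ) ≤ 4 ^ (10 * n) * (Fintype.card F : ℝ) ^
        π.ex n (finrank F ↥(a ⊓ b ⊓ c)) (finrank F ↥(a ⊓ b)) (finrank F ↥(a ⊓ c))
          (finrank F ↥(b ⊓ c)) := by
  have H : Hyp ω n a b c := ⟨Ring.two_ne_zero hF, hω, hnd, hV, ha, hb, hc⟩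
  choose pat hpat using fun x => H.exists_dat (L x)
  refine ⟨pat, fun x => ⟨H.feas (hL x) (hpat x), (hpat x).hxa, (hpat x).hxb, (hpat x).hxc,
    (hpat x).hMab, (hpat x).hMac, (hpat x).hMbc⟩, fun π => ?_⟩
  refine count hF H (fun x : {x // pat x = π} => L x.1) (fun x => hL x.1) (fun S => ?_) π
    fun x => by have := hpat x.1; rwa [x.2] at this
  refine le_trans ?_ (hcnt S)
  exact Set.ncard_le_ncard_of_injOn (t := {x | S ≤ L x}) Subtype.val (fun x hx => hx)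
    Subtype.val_injective.injOn (Set.toFinite _)

end Crest.Agent.R38
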