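import Crest.Agent.PVc.R38.Gauss
import Crest.Agent.PVc.R38.Lag
import Crest.Agent.PVc.R38.NumF
import Crest.Agent.PVc.R38.Iso
import Crest.Agent.PVc.R38.Defs
import Crest.Agent.PVc.R38.SpinAux

-- ▼ part PVc/R38/Sym
section

set_option autoImplicit false
open Finset Module
open scoped BigOperators Matrix

namespace Crest.Agent.R38

variable {F : Type} [Field F] [Fintype F] [DecidableEq F] {n : ℕ}

namespace SymAux

/-- symmetric matrices are functions on unordered pairs -/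
def syEquiv (F : Type) [Field F] (n : ℕ) : Sy F n ≃ (Sym2 (Fin n) → F) where
  toFun z := Sym2.lift ⟨fun i j => z.1 i j, fun i j => (z.2.apply j i)⟩
  invFun f := ⟨Matrix.of fun i j => f s(i, j), by
    rw [mem_Sy]
    ext i j
    simp [Sym2.eq_swap]⟩
  left_inv z := by
    ext i j
    simp
  right_inv f := by
    ext p
    induction p using Sym2.ind
    simp

/-- averaging over a finite group is invariant under a surjective homomorphism -/
theorem expect_comp_of_surjective {G H : Type} [AddCommGroup G] [AddCommGroup H] [Fintype G]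
    [Fintype H] (φ : G →+ H) (hφ : Function.Surjective φ) (f : H → ℝ) :
    𝔼 x : G, f (φ x) = 𝔼 y : H, f y := by
  choose s hs using hφ
  have h1 : ∀ y : H, 𝔼 x : G, f (φ x) = 𝔼 x : G, f (φ x + y) := fun y =>
    (Fintype.expect_equiv (Equiv.addRight (s y)) _ _ fun x => by simp [hs]).symm
  have h2 : ∀ x : G, 𝔼 y : H, f (φ x + y) = 𝔼 y : H, f y := fun x =>
    Fintype.expect_equiv (Equiv.addLeft (φ x)) _ _ fun y => by simp
  calc 𝔼 x : G, f (φ x) = 𝔼 _y : H, 𝔼 x : G, f (φ x) := (Fintype.expect_const _).symm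
    _ = 𝔼 y : H, 𝔼 x : G, f (φ x + y) := Finset.expect_congr rfl fun y _ => h1 y
    _ = 𝔼 x : G, 𝔼 y : H, f (φ x + y) := Finset.expect_comm _ _ _
    _ = 𝔼 _x : G, 𝔼 y : H, f y := Finset.expect_congr rfl fun x _ => h2 x
    _ = _ := Fintype.expect_const _

/-- the matrix unit at the upper left corner -/
def E00 (F : Type) [Field F] (n : ℕ) : Sy F (n + 1) :=
  ⟨Matrix.single 0 0 1, by
    rw [mem_Sy]
    exact Matrix.transpose_single _ _ _⟩

/-- deleting the first row and column -/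
def minor (F : Type) [Field F] (n : ℕ) : Sy F (n + 1) →ₗ[F] Sy F n where
  toFun z := ⟨z.1.submatrix Fin.succ Fin.succ, Matrix.IsSymm.submatrix z.2 _⟩
  map_add' _ _ := rfl
  map_smul' _ _ := rfl

omit [Fintype F] [DecidableEq F] in
theorem minor_val (z : Sy F (n + 1)) : (minor F n z).1 = z.1.submatrix Fin.succ Fin.succ := rfl

omit [Fintype F] [DecidableEq F] in
theorem minor_surjective : Function.Surjective (minor F n) := by
  intro y
  refine ⟨⟨Matrix.of fun i j => Fin.cases 0 (fun i' => Fin.cases 0 (fun j' => y.1 i' j') j) i,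
    ?_⟩, ?_⟩
  · rw [mem_Sy]
    ext i j
    induction i using Fin.cases <;> induction j using Fin.cases <;> simp [y.2.apply]
  · ext i j
    simp [minor]


omit [DecidableEq F] in
/-- the first principal minor of a uniform symmetric matrix is uniform -/
theorem expect_minor (f : Sy F n → ℝ) :
    𝔼 z : Sy F (n + 1), f (minor F n z) = 𝔼 y : Sy F n, f y :=
  expect_comp_of_surjective (minor F n).toAddMonoidHom minor_surjective f

omit [Fintype F] [DecidableEq F] in
/-- the determinant is affine in the upper left entry -/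
theorem det_add_smul_E00 (z : Sy F (n + 1)) (t : F) :
    (z + t • E00 F n).1.det = z.1.det + t * (minor F n z).1.det := by
  have h : ∀ j : Fin (n + 1), (z + t • E00 F n).1.submatrix Fin.succ j.succAbove =
      z.1.submatrix Fin.succ j.succAbove := by
    intro j
    ext a b
    simp [E00, Matrix.single, (Fin.succ_ne_zero _).symm]
  rw [Matrix.det_succ_row_zero, Matrix.det_succ_row_zero]
  simp only [h]
  rw [Fin.sum_univ_succ, Fin.sum_univ_succ, minor_val]
  simp [E00, Matrix.single, (Fin.succ_ne_zero _).symm]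
  ring

omit [DecidableEq F] in
/-- averaging is invariant under adding a random multiple of a fixed matrix -/
theorem expect_add_smul (e : Sy F n) (f : Sy F n → ℝ) :
    𝔼 z : Sy F n, f z = 𝔼 z : Sy F n, 𝔼 t : F, f (z + t • e) := by
  rw [Finset.expect_comm]
  calc 𝔼 z : Sy F n, f z = 𝔼 _t : F, 𝔼 z : Sy F n, f z := (Fintype.expect_const _).symm
    _ = _ := Finset.expect_congr rfl fun t _ =>
      (Fintype.expect_equiv (Equiv.addRight (t • e)) _ _ fun x => by simp).symm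

omit [Fintype F] [DecidableEq F] in
theorem mem_kr (z : Sy F n) (v : Fin n → F) : v ∈ kr z ↔ z.1 *ᵥ v = 0 := Iff.rfl

omit [Fintype F] [DecidableEq F] in
/-- coordinates on the quotient by a subspace -/
theorem exists_quot (U : Submodule F (Fin n → F)) {m : ℕ} (hm : m = n - finrank F U) :
    ∃ (M : Matrix (Fin m) (Fin n) F) (N : Matrix (Fin n) (Fin m) F), M * N = 1 ∧
      ∀ v, M *ᵥ v = 0 ↔ v ∈ U := by
  have h1 : finrank F ((Fin n → F) ⧸ U) = finrank F (Fin m → F) := by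
    have := U.finrank_quotient_add_finrank
    simp only [finrank_fintype_fun_eq_card, Fintype.card_fin] at this ⊢
    omega
  let e := LinearEquiv.ofFinrankEq _ _ h1
  let f : (Fin n → F) →ₗ[F] (Fin m → F) := e.toLinearMap ∘ₗ U.mkQ
  have hf : LinearMap.range f = ⊤ :=
    LinearMap.range_eq_top.2 (e.surjective.comp U.mkQ_surjective)
  obtain ⟨g, hg⟩ := f.exists_rightInverse_of_surjective hf
  refine ⟨LinearMap.toMatrix' f, LinearMap.toMatrix' g, ?_, fun v => ?_⟩
  · rw [← LinearMap.toMatrix'_comp, hg, LinearMap.toMatrix'_id]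
  · rw [← Matrix.toLin'_apply, Matrix.toLin'_toMatrix']
    simp [f]

/-- congruence by a rectangular matrix -/
def cong {m : ℕ} (M : Matrix (Fin m) (Fin n) F) (S : Sy F m) : Sy F n :=
  ⟨Mᵀ * S.1 * M, by
    rw [mem_Sy, Matrix.IsSymm, Matrix.transpose_mul, Matrix.transpose_mul,
      Matrix.transpose_transpose, S.2.eq, Matrix.mul_assoc]⟩

omit [Fintype F] [DecidableEq F] in
theorem cong_cong {m : ℕ} {M : Matrix (Fin m) (Fin n) F} {N : Matrix (Fin n) (Fin m) F}
    (h : M * N = 1) (S : Sy F m) : cong N (cong M S) = S := by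
  apply Subtype.ext
  change Nᵀ * (Mᵀ * S.1 * M) * N = S.1
  rw [← Matrix.mul_assoc, ← Matrix.mul_assoc, ← Matrix.transpose_mul, h, Matrix.mul_assoc, h]
  simp

omit [Fintype F] [DecidableEq F] in
theorem cong_cong' {m : ℕ} {M : Matrix (Fin m) (Fin n) F} {N : Matrix (Fin n) (Fin m) F}
    (h : M * N = 1) (z : Sy F n) (hz : ∀ v, M *ᵥ v = 0 → v ∈ kr z) : cong M (cong N z) = z := by
  have h1 : z.1 * (N * M) = z.1 := by
    apply Matrix.toLin'.injective
    refine LinearMap.ext fun v => ?_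
    have := hz (v - (N * M) *ᵥ v) (by
      rw [Matrix.mulVec_sub, Matrix.mulVec_mulVec, ← Matrix.mul_assoc, h, Matrix.one_mul,
        sub_self])
    rw [mem_kr, Matrix.mulVec_sub, Matrix.mulVec_mulVec, sub_eq_zero] at this
    simp only [Matrix.toLin'_apply]
    exact this.symm
  have h2 : (N * M)ᵀ * z.1 = z.1 := by
    have := congrArg Matrix.transpose h1
    rwa [Matrix.transpose_mul, z.2.eq] at this
  apply Subtype.ext
  change Mᵀ * (Nᵀ * z.1 * N) * M = z.1
  calc Mᵀ * (Nᵀ * z.1 * N) * M = (N * M)ᵀ * z.1 * (N * M) := by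
        simp only [Matrix.transpose_mul, Matrix.mul_assoc]
    _ = z.1 := by rw [h2, h1]

omit [Fintype F] [DecidableEq F] in
theorem mem_kr_cong {m : ℕ} {M : Matrix (Fin m) (Fin n) F} {N : Matrix (Fin n) (Fin m) F}
    (h : M * N = 1) (S : Sy F m) (v : Fin n → F) : v ∈ kr (cong M S) ↔ M *ᵥ v ∈ kr S := by
  rw [mem_kr, mem_kr]
  change (Mᵀ * S.1 * M) *ᵥ v = 0 ↔ _
  rw [← Matrix.mulVec_mulVec, ← Matrix.mulVec_mulVec]
  constructor
  · intro h1
    have := congrArg (fun w => Nᵀ *ᵥ w) h1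
    simp only [Matrix.mulVec_zero] at this
    rwa [Matrix.mulVec_mulVec, ← Matrix.transpose_mul, h, Matrix.transpose_one,
      Matrix.one_mulVec] at this
  · intro h1
    rw [h1, Matrix.mulVec_zero]

omit [Fintype F] [DecidableEq F] in
theorem kr_eq_bot_iff (z : Sy F n) : kr z = ⊥ ↔ z.1.det ≠ 0 := by
  rw [Ne, ← Matrix.exists_mulVec_eq_zero_iff, Submodule.eq_bot_iff]
  constructor
  · rintro h ⟨v, hv, h1⟩
    exact hv (h v h1)
  · intro h v hv
    by_contra h0
    exact h ⟨v, h0, hv⟩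

omit [Fintype F] [DecidableEq F] in
theorem kr_cong_of_det {m : ℕ} {M : Matrix (Fin m) (Fin n) F} {N : Matrix (Fin n) (Fin m) F}
    (h : M * N = 1) {U : Submodule F (Fin n → F)} (hU : ∀ v, M *ᵥ v = 0 ↔ v ∈ U) (S : Sy F m)
    (hS : S.1.det ≠ 0) : kr (cong M S) = U := by
  ext v
  rw [mem_kr_cong h, (kr_eq_bot_iff S).2 hS, Submodule.mem_bot, hU]

omit [Fintype F] [DecidableEq F] in
/-- a symmetric matrix is congruent to an invertible one of size its rank -/
theorem exists_factor (z : Sy F n) {m : ℕ} (hm : m = n - cr z) :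
    ∃ (M : Matrix (Fin m) (Fin n) F) (N : Matrix (Fin n) (Fin m) F) (S : Sy F m),
      M * N = 1 ∧ S.1.det ≠ 0 ∧ z = cong M S := by
  obtain ⟨M, N, h, hU⟩ := exists_quot (kr z) hm
  have h1 := cong_cong' h z fun v hv => (hU v).1 hv
  refine ⟨M, N, cong N z, h, ?_, h1.symm⟩
  rw [← kr_eq_bot_iff, Submodule.eq_bot_iff]
  intro w hw
  have h2 : M *ᵥ (N *ᵥ w) = w := by rw [Matrix.mulVec_mulVec, h, Matrix.one_mulVec]
  have h3 : N *ᵥ w ∈ kr (cong M (cong N z)) := by rwa [mem_kr_cong h, h2]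
  rw [h1, ← hU, h2] at h3
  exact h3

end SymAux

open SymAux

theorem card_Sy : Fintype.card (Sy F n) = Fintype.card F ^ tri n := by
  rw [Fintype.card_congr (syEquiv F n), Fintype.card_fun, Sym2.card, Fintype.card_fin,
    Nat.choose_two_right, tri]
  congr 2
  simp [mul_comm]

theorem kr_neg (z : Sy F n) : kr (-z) = kr z := by
  ext v
  simp [mem_kr, Matrix.neg_mulVec]

theorem cr_neg (z : Sy F n) : cr (-z) = cr z := by
  unfold cr
  rw [kr_neg]

theorem cr_sub_comm (x y : Sy F n) : cr (x - y) = cr (y - x) := by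
  rw [← cr_neg, neg_sub]


theorem cr_eq_zero_iff (z : Sy F n) : cr z = 0 ↔ z.1.det ≠ 0 := by
  rw [← kr_eq_bot_iff, cr, Submodule.finrank_eq_zero]

/-- symmetric matrices killing a given subspace -/
theorem card_kr_ge (U : Submodule F (Fin n → F)) :
    Nat.card {z : Sy F n // U ≤ kr z} = Fintype.card F ^ tri (n - finrank F U) := by
  obtain ⟨M, N, h, hU⟩ := exists_quot U rfl
  rw [← card_Sy, ← Nat.card_eq_fintype_card]
  refine Nat.card_congr
    { toFun := fun z => cong N z.1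
      invFun := fun S => ⟨cong M S, fun v hv => ?_⟩
      left_inv := fun z => Subtype.ext (cong_cong' h z.1 fun v hv => z.2 ((hU v).1 hv))
      right_inv := fun S => cong_cong h S }
  rw [mem_kr_cong h, (hU v).2 hv]
  exact zero_mem _

/-- few symmetric matrices are singular -/
theorem expect_sing :
    𝔼 z : Sy F n, (if z.1.det = 0 then (1 : ℝ) else 0) ≤ n / (Fintype.card F : ℝ) := by
  induction n with
  | zero => simp
  | succ n ih =>
    have hq : (0 : ℝ) < Fintype.card F := by exact_mod_cast Fintype.card_pos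
    rw [expect_add_smul (E00 F n)]
    have h1 : ∀ z : Sy F (n + 1), 𝔼 t : F, (if (z + t • E00 F n).1.det = 0 then (1 : ℝ) else 0) ≤
        (if (minor F n z).1.det = 0 then (1 : ℝ) else 0) + 1 / (Fintype.card F : ℝ) := by
      intro z
      simp only [det_add_smul_E00]
      by_cases h0 : (minor F n z).1.det = 0
      · rw [if_pos h0]
        have : 𝔼 t : F, (if z.1.det + t * (minor F n z).1.det = 0 then (1 : ℝ) else 0) ≤
            𝔼 _t : F, (1 : ℝ) := Finset.expect_le_expect fun t _ => by split_ifs <;> norm_num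
        rw [Fintype.expect_const] at this
        have h2 : 0 ≤ 1 / (Fintype.card F : ℝ) := by positivity
        linarith
      · rw [if_neg h0, zero_add, Fintype.expect_eq_sum_div_card]
        have : ∀ t : F, (z.1.det + t * (minor F n z).1.det = 0) ↔
            t = -z.1.det / (minor F n z).1.det := by
          intro t
          rw [eq_div_iff h0]
          constructor <;> intro h <;> linear_combination h
        simp [this]
    refine (Finset.expect_le_expect fun z _ => h1 z).trans ?_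
    rw [Finset.expect_add_distrib, Fintype.expect_const,
      expect_minor fun y => if y.1.det = 0 then (1 : ℝ) else 0]
    push_cast
    rw [add_div]
    linarith

namespace SymAux

omit [DecidableEq F] in
theorem card_mul_le_card_cr :
    Nat.card {U : Submodule F (Fin 12 → F) // finrank F U = 6} *
      Nat.card {S : Sy F 6 // S.1.det ≠ 0} ≤ Nat.card {z : Sy F 12 // cr z = 6} := by
  have h : ∀ U : {U : Submodule F (Fin 12 → F) // finrank F U = 6},
      ∃ (M : Matrix (Fin 6) (Fin 12) F) (N : Matrix (Fin 12) (Fin 6) F), M * N = 1 ∧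
        ∀ v, M *ᵥ v = 0 ↔ v ∈ U.1 := fun U => exists_quot U.1 (by rw [U.2])
  choose M N hMN hU using h
  rw [← Nat.card_prod]
  refine Nat.card_le_card_of_injective
    (fun p => ⟨cong (M p.1) p.2.1, by
      unfold cr
      rw [kr_cong_of_det (hMN p.1) (hU p.1) _ p.2.2, p.1.2]⟩) ?_
  rintro ⟨U, S⟩ ⟨U', S'⟩ h
  have h1 : cong (M U) S.1 = cong (M U') S'.1 := congrArg Subtype.val h
  have h2 : U = U' := by
    apply Subtype.ext
    rw [← kr_cong_of_det (hMN U) (hU U) _ S.2, h1, kr_cong_of_det (hMN U') (hU U') _ S'.2]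
  subst h2
  have h3 := congrArg (cong (N U)) h1
  rw [cong_cong (hMN U), cong_cong (hMN U)] at h3
  rw [Subtype.ext h3]

theorem card_inv_ge : (1 - n / (Fintype.card F : ℝ)) * (Fintype.card F : ℝ) ^ tri n ≤
    Nat.card {S : Sy F n // S.1.det ≠ 0} := by
  have h := expect_sing (F := F) (n := n)
  have hc : (0 : ℝ) < Fintype.card (Sy F n) := by exact_mod_cast Fintype.card_pos
  rw [Fintype.expect_eq_sum_div_card, div_le_iff₀ hc] at h
  have h2 : (∑ z : Sy F n, if z.1.det = 0 then (1 : ℝ) else 0) +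
      (Nat.card {S : Sy F n // S.1.det ≠ 0} : ℝ) = Fintype.card (Sy F n) := by
    rw [Nat.card_eq_fintype_card, Fintype.card_subtype, Finset.sum_boole]
    norm_cast
    exact Finset.card_filter_add_card_filter_not _
  have h3 : (Fintype.card (Sy F n) : ℝ) = (Fintype.card F : ℝ) ^ tri n := by
    rw [card_Sy]; push_cast; rfl
  rw [← h3]
  linarith

end SymAux

theorem pA_pos : 0 < pA F := by
  have hq : (1 : ℝ) < Fintype.card F := by exact_mod_cast Fintype.one_lt_card
  have h1 := card_sub_ge (F := F) (V := Fin 12 → F) 6 (by simp)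
  have h2 : 0 < 1 - 1 / (Fintype.card F : ℝ) := by
    rw [sub_pos, div_lt_one (by linarith)]
    exact hq
  have h3 : 0 < Nat.card {U : Submodule F (Fin 12 → F) // finrank F U = 6} := by
    have : (0 : ℝ) < Nat.card {U : Submodule F (Fin 12 → F) // finrank F U = 6} :=
      lt_of_lt_of_le (by positivity) h1
    exact_mod_cast this
  have h4 : 0 < Nat.card {S : Sy F 6 // S.1.det ≠ 0} := by
    have : Nonempty {S : Sy F 6 // S.1.det ≠ 0} := ⟨⟨⟨1, Matrix.isSymm_one⟩, by simp⟩⟩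
    exact Nat.card_pos
  have h5 := (Nat.mul_pos h3 h4).trans_le card_mul_le_card_cr
  unfold pA
  exact div_pos (by exact_mod_cast h5) (by exact_mod_cast Fintype.card_pos)

theorem pA_ge : (1 - 1 / (Fintype.card F : ℝ)) ^ 6 * (1 - 6 / (Fintype.card F : ℝ)) ≤
    pA F * (Fintype.card F : ℝ) ^ 21 := by
  have hq : (1 : ℝ) < Fintype.card F := by exact_mod_cast Fintype.one_lt_card
  have h1 := card_sub_ge (F := F) (V := Fin 12 → F) 6 (by simp)
  have h2 : 0 < 1 - 1 / (Fintype.card F : ℝ) := by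
    rw [sub_pos, div_lt_one (by linarith)]
    exact hq
  have h3 := card_inv_ge (F := F) (n := 6)
  have h4 : (Nat.card {U : Submodule F (Fin 12 → F) // finrank F U = 6} : ℝ) *
      (Nat.card {S : Sy F 6 // S.1.det ≠ 0} : ℝ) ≤ Nat.card {z : Sy F 12 // cr z = 6} := by
    exact_mod_cast card_mul_le_card_cr
  have h5 : (Fintype.card (Sy F 12) : ℝ) = (Fintype.card F : ℝ) ^ 78 := by
    rw [card_Sy]; push_cast; rfl
  have h6 : tri 6 = 21 := rfl
  simp only [finrank_fintype_fun_eq_card, Fintype.card_fin] at h1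
  rw [h6] at h3
  norm_num only at h1
  push_cast at h3
  unfold pA
  rw [h5, div_mul_eq_mul_div, le_div_iff₀ (by positivity)]
  set q : ℝ := (Fintype.card F : ℝ)
  calc (1 - 1 / q) ^ 6 * (1 - 6 / q) * q ^ 78
      = ((1 - 1 / q) ^ 6 * q ^ 36) * ((1 - 6 / q) * q ^ 21) * q ^ 21 := by ring
    _ ≤ ((1 - 1 / q) ^ 6 * q ^ 36) * (Nat.card {S : Sy F 6 // S.1.det ≠ 0} : ℝ) * q ^ 21 := by
        gcongr
    _ ≤ (Nat.card {U : Submodule F (Fin 12 → F) // finrank F U = 6} : ℝ) *
        (Nat.card {S : Sy F 6 // S.1.det ≠ 0} : ℝ) * q ^ 21 := by gcongr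
    _ ≤ _ := by gcongr

theorem A_nonneg (z : Sy F 12) : 0 ≤ A z := by
  unfold A
  split_ifs
  · exact (inv_pos.2 pA_pos).le
  · exact le_rfl

theorem A_neg (z : Sy F 12) : A (-z) = A z := by
  unfold A
  rw [cr_neg]

theorem expect_A (a : Sy F 12) : 𝔼 y : Sy F 12, A (a - y) = 1 := by
  rw [Fintype.expect_equiv (Equiv.subLeft a) _ (fun z => A z) fun y => by simp,
    Fintype.expect_eq_sum_div_card]
  have h := pA_pos (F := F)
  have h1 : ∑ z : Sy F 12, A z = (Nat.card {z : Sy F 12 // cr z = 6} : ℝ) * (pA F)⁻¹ := by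
    unfold A
    rw [Nat.card_eq_fintype_card, Fintype.card_subtype, ← Finset.sum_filter, Finset.sum_const,
      nsmul_eq_mul]
  rw [h1, mul_div_right_comm]
  exact mul_inv_cancel₀ h.ne'

theorem tau_neg (z : Sy F 12) : tau (-z) = tau z := by
  have h : ∀ z : Sy F 12, (∃ (U : Matrix (Fin 12) (Fin 6) F) (S : Matrix (Fin 6) (Fin 6) F),
      z.1 = U * S * Uᵀ ∧ quadraticChar F S.det = 1) →
      ∃ (U : Matrix (Fin 12) (Fin 6) F) (S : Matrix (Fin 6) (Fin 6) F),
        (-z).1 = U * S * Uᵀ ∧ quadraticChar F S.det = 1 := by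
    rintro z ⟨U, S, h1, h2⟩
    refine ⟨U, -S, by simp [h1], ?_⟩
    rw [Matrix.det_neg, Fintype.card_fin]
    norm_num [h2]
  unfold tau
  refine if_congr ⟨fun h1 => ?_, h z⟩ rfl rfl
  simpa using h _ h1

theorem tau_eq (z : Sy F 12) : tau z = 1 ∨ tau z = -1 := by
  unfold tau
  split_ifs
  · exact Or.inl rfl
  · exact Or.inr rfl


theorem abs_sig_le (z : Sy F 12) : |sig z| ≤ 1 := by
  unfold sig
  by_cases h : z.1.det = 0
  · rw [h]; simp
  · rcases quadraticChar_dichotomy h with h1 | h1 <;> rw [h1] <;> simp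

theorem sig_sq (z : Sy F 12) : sig z ^ 2 = if cr z = 0 then 1 else 0 := by
  unfold sig
  simp only [cr_eq_zero_iff]
  split_ifs with h
  · exact_mod_cast quadraticChar_sq_one h
  · rw [not_not.1 h]; simp

theorem SymAux.tau_cong {M : Matrix (Fin 6) (Fin 12) F} {N : Matrix (Fin 12) (Fin 6) F}
    (h : M * N = 1) (S : Sy F 6) (hS : S.1.det ≠ 0) :
    tau (cong M S) = ((quadraticChar F S.1.det : ℤ) : ℝ) := by
  unfold tau
  split_ifs with h1
  · obtain ⟨U, S', h2, h3⟩ := h1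
    have h4 : S.1 = (Nᵀ * U) * S' * (Nᵀ * U)ᵀ := by
      have h5 := congrArg Subtype.val (cong_cong h S)
      rw [← h5]
      change Nᵀ * (cong M S).1 * N = _
      rw [h2]
      simp only [Matrix.transpose_mul, Matrix.transpose_transpose, Matrix.mul_assoc]
    have h6 : S.1.det = (Nᵀ * U).det ^ 2 * S'.det := by
      rw [h4, Matrix.det_mul, Matrix.det_mul, Matrix.det_transpose]
      ring
    have h7 : (Nᵀ * U).det ≠ 0 := by
      intro h0
      rw [h0] at h6
      exact hS (by rw [h6]; simp)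
    rw [h6, map_mul, quadraticChar_sq_one' h7, h3]
    simp
  · rcases quadraticChar_dichotomy hS with h2 | h2
    · exact absurd ⟨Mᵀ, S.1, rfl, h2⟩ h1
    · rw [h2]; simp

/-- flatness of the discriminant sign -/
theorem flat (hF : ringChar F ≠ 2) (P Q : Sy F 12) (hP : cr P = 6) (hQ : cr Q = 6)
    (hPQ : cr (P - Q) = 0) : sig (P - Q) = tau P * tau Q := by
  obtain ⟨M, N, S, h, hS, rfl⟩ := exists_factor P (m := 6) (by rw [hP])
  obtain ⟨M', N', S', h', hS', rfl⟩ := exists_factor Q (m := 6) (by rw [hQ])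
  rw [tau_cong h S hS, tau_cong h' S' hS']
  rw [cr_eq_zero_iff] at hPQ
  let e : Fin 6 ⊕ Fin 6 ≃ Fin 12 := finSumFinEquiv
  let R : Matrix (Fin 12) (Fin 12) F := (Matrix.fromRows M M').submatrix e.symm id
  let B : Matrix (Fin 12) (Fin 12) F :=
    (Matrix.fromBlocks S.1 0 0 (-S'.1)).submatrix e.symm e.symm
  have h1 : (cong M S - cong M' S').1 = Rᵀ * B * R := by
    have h2 : Rᵀ * B * R = (Matrix.fromRows M M')ᵀ * Matrix.fromBlocks S.1 0 0 (-S'.1) *
        Matrix.fromRows M M' := by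
      simp only [R, B, Matrix.transpose_submatrix, Matrix.submatrix_mul_equiv,
        Matrix.submatrix_id_id]
    rw [h2, Matrix.transpose_fromRows, Matrix.fromCols_mul_fromBlocks,
      Matrix.fromCols_mul_fromRows]
    simp [cong, sub_eq_add_neg]
  have h3 : (cong M S - cong M' S').1.det = R.det ^ 2 * (S.1.det * S'.1.det) := by
    rw [h1, Matrix.det_mul, Matrix.det_mul, Matrix.det_transpose,
      Matrix.det_submatrix_equiv_self, Matrix.det_fromBlocks_zero₂₁, Matrix.det_neg,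
      Fintype.card_fin]
    ring
  have h4 : R.det ≠ 0 := by
    intro h0
    rw [h0] at h3
    exact hPQ (by rw [h3]; simp)
  unfold sig
  rw [h3, map_mul, map_mul, quadraticChar_sq_one' h4]
  simp

theorem kk_comm (η : SignType) (x y : Y F) : kk η x y = kk η y x := by
  unfold kk
  rw [← neg_sub y.1 x.1, A_neg, tau_neg]
  split_ifs
  · rfl
  · ring

theorem SymAux.abs_term_le (η : SignType) (x y : Y F) :
    |(η : ℝ) * tau (x.1 - y.1) * sg x.2 * sg y.2| ≤ 1 := by
  have h1 : |(η : ℝ)| ≤ 1 := by cases η <;> simp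
  have h2 : |tau (x.1 - y.1)| = 1 := by rcases tau_eq (x.1 - y.1) with h | h <;> simp [h]
  have h3 : ∀ b, |sg b| = 1 := fun b => by cases b <;> simp [sg]
  rw [abs_mul, abs_mul, abs_mul, h2, h3, h3]
  simpa using h1

theorem kk_nonneg (η : SignType) (x y : Y F) : 0 ≤ kk η x y := by
  unfold kk
  split_ifs
  · exact zero_le_one
  · have := (abs_le.1 (abs_term_le η x y)).1
    exact mul_nonneg (A_nonneg _) (by linarith)

theorem kk_le (η : SignType) (x y : Y F) : kk η x y ≤ 2 * (1 + A (x.1 - y.1)) := by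
  unfold kk
  have h := A_nonneg (x.1 - y.1)
  split_ifs
  · linarith
  · have := (abs_le.1 (abs_term_le η x y)).2
    nlinarith

theorem expect_kk (η : SignType) (x : Y F) : 𝔼 y : Y F, kk η x y = 1 := by
  unfold kk
  split_ifs
  · exact Fintype.expect_const _
  · rw [← Finset.univ_product_univ, Finset.expect_product]
    refine (Finset.expect_congr rfl fun y _ => ?_).trans (expect_A x.1)
    rw [Fintype.expect_eq_sum_div_card]
    simp [sg]
    ring

end Crest.Agent.R38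
end

-- ▼ part PVc/R38/Chart
section

set_option autoImplicit false
open Finset Module
open scoped BigOperators Matrix

namespace Crest.Agent.R38

variable {F : Type} [Field F] [Fintype F] [DecidableEq F] {n : ℕ}

namespace ChartAux

omit [Fintype F] [DecidableEq F]

/-- the standard symplectic form -/
def om (F : Type) [Field F] (n : ℕ) : LinearMap.BilinForm F ((Fin n → F) × (Fin n → F)) :=
  LinearMap.mk₂ F (fun p p' => p.1 ⬝ᵥ p'.2 - p'.1 ⬝ᵥ p.2)
    (fun _ _ _ => by simp only [Prod.fst_add, Prod.snd_add, add_dotProduct, dotProduct_add]; ring)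
    (fun _ _ _ => by
      simp only [Prod.smul_fst, Prod.smul_snd, smul_dotProduct, dotProduct_smul, smul_eq_mul]; ring)
    (fun _ _ _ => by simp only [Prod.fst_add, Prod.snd_add, add_dotProduct, dotProduct_add]; ring)
    (fun _ _ _ => by
      simp only [Prod.smul_fst, Prod.smul_snd, smul_dotProduct, dotProduct_smul, smul_eq_mul]; ring)

theorem om_apply (p p' : (Fin n → F) × (Fin n → F)) :
    om F n p p' = p.1 ⬝ᵥ p'.2 - p'.1 ⬝ᵥ p.2 := rfl

theorem om_alt : (om F n).IsAlt := fun p => by rw [om_apply, sub_self]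

theorem eq_zero_of_dot {v : Fin n → F} (h : ∀ u, u ⬝ᵥ v = 0) : v = 0 := by
  funext i
  simpa using h (Pi.single i 1)

theorem om_nondeg : (om F n).Nondegenerate := by
  refine (LinearMap.IsRefl.nondegenerate_iff_separatingLeft (B := om F n)
    (om_alt (F := F) (n := n)).isRefl).2 fun p hp => ?_
  refine Prod.ext (eq_zero_of_dot fun u => ?_) (eq_zero_of_dot fun u => ?_)
  · simpa [om_apply, dotProduct_comm] using hp (0, u)
  · simpa [om_apply] using hp (u, 0)

/-- the parametrisation of the graph -/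
def inc (x : Sy F n) : (Fin n → F) →ₗ[F] (Fin n → F) × (Fin n → F) :=
  LinearMap.prod LinearMap.id (Matrix.mulVecLin x.1)

theorem inc_inj (x : Sy F n) : Function.Injective (inc x) := fun _ _ h => congrArg Prod.fst h

/-- the graph of a symmetric matrix -/
def gr (x : Sy F n) : Submodule F ((Fin n → F) × (Fin n → F)) :=
  LinearMap.graph (Matrix.mulVecLin x.1)

theorem mem_gr {x : Sy F n} {p : (Fin n → F) × (Fin n → F)} : p ∈ gr x ↔ p.2 = x.1 *ᵥ p.1 :=
  LinearMap.mem_graph_iff _ _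

theorem mem_kr_sub {x y : Sy F n} {u : Fin n → F} : u ∈ kr (x - y) ↔ x.1 *ᵥ u = y.1 *ᵥ u := by
  simp [kr, sub_eq_zero]

theorem dot_symm (x : Sy F n) (u v : Fin n → F) : u ⬝ᵥ x.1 *ᵥ v = v ⬝ᵥ x.1 *ᵥ u := by
  have h : x.1ᵀ = x.1 := x.2
  rw [Matrix.dotProduct_mulVec, ← Matrix.mulVec_transpose, h, dotProduct_comm]

theorem orth_gr (x : Sy F n) : (om F n).orthogonal (gr x) = gr x := by
  ext p
  rw [LinearMap.BilinForm.mem_orthogonal_iff, mem_gr]
  constructor
  · intro h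
    rw [← sub_eq_zero]
    refine eq_zero_of_dot fun u => ?_
    have h1 : om F n (u, x.1 *ᵥ u) p = 0 := h _ (mem_gr.2 rfl)
    rw [om_apply] at h1
    rw [dotProduct_sub, dot_symm x u]
    exact h1
  · intro h p' hp'
    change om F n p' p = 0
    rw [om_apply, h, mem_gr.1 hp', dot_symm x, sub_self]

theorem finrank_map_inc (x : Sy F n) (U : Submodule F (Fin n → F)) :
    finrank F (U.map (inc x)) = finrank F U :=
  (Submodule.equivMapOfInjective _ (inc_inj x) U).finrank_eq.symm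

theorem mem_map_inc {x : Sy F n} {U : Submodule F (Fin n → F)} {p : (Fin n → F) × (Fin n → F)} :
    p ∈ U.map (inc x) ↔ p.1 ∈ U ∧ p.2 = x.1 *ᵥ p.1 := by
  constructor
  · rintro ⟨u, hu, rfl⟩
    exact ⟨hu, rfl⟩
  · rintro ⟨h1, h2⟩
    exact ⟨p.1, h1, Prod.ext rfl h2.symm⟩

theorem finrank_two (a b : Sy F n) : finrank F ↥(gr a ⊓ gr b) = cr (a - b) := by
  have : gr a ⊓ gr b = (kr (a - b)).map (inc a) := by
    ext p
    rw [mem_map_inc, Submodule.mem_inf, mem_gr, mem_gr, mem_kr_sub]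
    constructor
    · rintro ⟨h1, h2⟩; exact ⟨h1.symm.trans h2, h1⟩
    · rintro ⟨h1, h2⟩; exact ⟨h2, h2.trans h1⟩
  rw [this, finrank_map_inc, cr]

theorem finrank_three (a b c : Sy F n) : finrank F ↥(gr a ⊓ gr b ⊓ gr c) = ty0 a b c := by
  have : gr a ⊓ gr b ⊓ gr c = (kr (a - b) ⊓ kr (a - c)).map (inc a) := by
    ext p
    rw [mem_map_inc, Submodule.mem_inf, Submodule.mem_inf, Submodule.mem_inf, mem_gr, mem_gr,
      mem_gr, mem_kr_sub, mem_kr_sub]
    constructor
    · rintro ⟨⟨h1, h2⟩, h3⟩; exact ⟨⟨h1.symm.trans h2, h1.symm.trans h3⟩, h1⟩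
    · rintro ⟨⟨h1, h3⟩, h2⟩; exact ⟨⟨h2, h2.trans h1⟩, h2.trans h3⟩
  rw [this, finrank_map_inc, ty0]

end ChartAux

namespace ChartAux

theorem card_le (S : Submodule F ((Fin n → F) × (Fin n → F))) :
    Nat.card {x : Sy F n // S ≤ gr x} ≤ Fintype.card F ^ tri (n - finrank F S) := by
  rcases isEmpty_or_nonempty {x : Sy F n // S ≤ gr x} with h | ⟨⟨x₀, h₀⟩⟩
  · simp
  have hS : S = (S.map (LinearMap.fst F _ _)).map (inc x₀) := by
    ext p
    rw [mem_map_inc]
    constructor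
    · intro hp
      exact ⟨⟨p, hp, rfl⟩, mem_gr.1 (h₀ hp)⟩
    · rintro ⟨⟨p', hp', e⟩, h2⟩
      have : p = p' := Prod.ext e.symm (by rw [h2, mem_gr.1 (h₀ hp'), ← e]; rfl)
      rwa [this]
  have hr : finrank F S = finrank F (S.map (LinearMap.fst F _ _)) := by
    conv_lhs => rw [hS]
    exact finrank_map_inc _ _
  rw [hr, ← card_kr_ge]
  refine Nat.card_le_card_of_injective (fun x => ⟨x.1 - x₀, ?_⟩) ?_
  · rintro _ ⟨p, hp, rfl⟩
    exact mem_kr_sub.2 ((mem_gr.1 (x.2 hp)).symm.trans (mem_gr.1 (h₀ hp)))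
  · intro x y h
    exact Subtype.ext (sub_left_injective (congrArg Subtype.val h))

/-- a pattern as a tuple -/
def tup (π : Pat) : Fin 9 → ℕ := ![π.m0, π.mab, π.mac, π.mbc, π.d0, π.d1, π.ma, π.mb, π.mc]

theorem tup_inj : Function.Injective tup := by
  rintro ⟨a1, a2, a3, a4, a5, a6, a7, a8, a9⟩ ⟨b1, b2, b3, b4, b5, b6, b7, b8, b9⟩ h
  have h0 := congrFun h 0
  have h1 := congrFun h 1
  have h2 := congrFun h 2
  have h3 := congrFun h 3
  have h4 := congrFun h 4
  have h5 := congrFun h 5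
  have h6 := congrFun h 6
  have h7 := congrFun h 7
  have h8 := congrFun h 8
  simp only [tup, Matrix.cons_val] at h0 h1 h2 h3 h4 h5 h6 h7 h8
  subst h0 h1 h2 h3 h4 h5 h6 h7 h8
  rfl

theorem card_feas {n n0 jab jac jbc : ℕ} (T : Finset Pat)
    (hT : ∀ π ∈ T, π.Feas n n0 jab jac jbc) : T.card ≤ (n + 1) ^ 9 := by
  have : T.card ≤ (Fintype.piFinset fun _ : Fin 9 => Finset.range (n + 1)).card := by
    refine Finset.card_le_card_of_injOn tup (fun π hπ => ?_) tup_inj.injOn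
    obtain ⟨h1, -, -, -, -, -, -, -, h9⟩ := hT π hπ
    simp only [Finset.mem_coe, Fintype.mem_piFinset, Finset.mem_range]
    intro i
    fin_cases i <;> simp [tup] <;> omega
  simpa using this

end ChartAux

open ChartAux in
/-- the counting lemma in the chart of symmetric matrices, in the form in which it is used -/
theorem expect_le (hF : ringChar F ≠ 2) (a b c : Sy F n) (ψ : ℕ → ℕ → ℕ → ℕ → ℕ → ℕ → ℤ) (B : ℤ)
    (hψ : ∀ π : Pat, π.Feas n (ty0 a b c) (cr (a - b)) (cr (a - c)) (cr (b - c)) →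
      π.ex n (ty0 a b c) (cr (a - b)) (cr (a - c)) (cr (b - c)) +
        ψ π.ja π.jb π.jc π.Mab π.Mac π.Mbc ≤ B + (tri n : ℤ)) :
    𝔼 x : Sy F n, (Fintype.card F : ℝ) ^
        ψ (cr (a - x)) (cr (b - x)) (cr (c - x)) (ty0 a b x) (ty0 a c x) (ty0 b c x) ≤
      (4 ^ (10 * n) * ((n : ℝ) + 1) ^ 9) * (Fintype.card F : ℝ) ^ B := by
  classical
  obtain ⟨pat, h1, h2⟩ := lag_count hF (om F n) om_alt om_nondeg n (by simp [two_mul])
    (gr a) (gr b) (gr c) (orth_gr a) (orth_gr b) (orth_gr c) (fun x : Sy F n => gr x) orth_gr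
    card_le
  simp only [finrank_three, finrank_two] at h1 h2
  have hq : (1 : ℝ) ≤ Fintype.card F := by exact_mod_cast Fintype.card_pos
  have hq0 : (0 : ℝ) < Fintype.card F := by linarith
  rw [Fintype.expect_eq_sum_div_card, card_Sy, div_le_iff₀ (by positivity)]
  have hT : ∀ π ∈ Finset.univ.image pat,
      π.Feas n (ty0 a b c) (cr (a - b)) (cr (a - c)) (cr (b - c)) := by
    intro π hπ
    obtain ⟨x, -, rfl⟩ := Finset.mem_image.1 hπ
    exact (h1 x).1
  rw [← Finset.sum_fiberwise_of_maps_to (t := Finset.univ.image pat) (g := pat)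
    (fun x hx => Finset.mem_image_of_mem _ hx)]
  calc _ ≤ ∑ _π ∈ Finset.univ.image pat,
        (4 : ℝ) ^ (10 * n) * (Fintype.card F : ℝ) ^ (B + (tri n : ℤ)) := by
        refine Finset.sum_le_sum fun π hπ => ?_
        have e : ∀ x ∈ Finset.univ.filter (fun x => pat x = π), (Fintype.card F : ℝ) ^
            ψ (cr (a - x)) (cr (b - x)) (cr (c - x)) (ty0 a b x) (ty0 a c x) (ty0 b c x) =
            (Fintype.card F : ℝ) ^ ψ π.ja π.jb π.jc π.Mab π.Mac π.Mbc := by
          intro x hx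
          obtain ⟨-, e1, e2, e3, e4, e5, e6⟩ := h1 x
          rw [e1, e2, e3, e4, e5, e6, (Finset.mem_filter.1 hx).2]
        rw [Finset.sum_congr rfl e, Finset.sum_const, nsmul_eq_mul]
        have h3 := h2 π
        rw [Nat.card_eq_fintype_card, Fintype.card_subtype] at h3
        calc _ ≤ (4 ^ (10 * n) * (Fintype.card F : ℝ) ^
              π.ex n (ty0 a b c) (cr (a - b)) (cr (a - c)) (cr (b - c))) *
              (Fintype.card F : ℝ) ^ ψ π.ja π.jb π.jc π.Mab π.Mac π.Mbc := by gcongr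
          _ = 4 ^ (10 * n) * (Fintype.card F : ℝ) ^
              (π.ex n (ty0 a b c) (cr (a - b)) (cr (a - c)) (cr (b - c)) +
                ψ π.ja π.jb π.jc π.Mab π.Mac π.Mbc) := by rw [zpow_add₀ hq0.ne', mul_assoc]
          _ ≤ _ := mul_le_mul_of_nonneg_left (zpow_le_zpow_right₀ hq (hψ π (hT π hπ)))
              (by positivity)
    _ = (Finset.univ.image pat).card *
        ((4 : ℝ) ^ (10 * n) * (Fintype.card F : ℝ) ^ (B + (tri n : ℤ))) := by
        rw [Finset.sum_const, nsmul_eq_mul]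
    _ ≤ ((n : ℝ) + 1) ^ 9 *
        ((4 : ℝ) ^ (10 * n) * (Fintype.card F : ℝ) ^ (B + (tri n : ℤ))) := by
        gcongr
        exact_mod_cast card_feas _ hT
    _ = _ := by
        rw [zpow_add₀ hq0.ne', zpow_natCast]
        push_cast
        ring

end Crest.Agent.R38
end

-- ▼ part PVc/R38/Deg
section

set_option autoImplicit false
open Finset Module
open scoped BigOperators Matrix

namespace Crest.Agent.R38

namespace DegAux
open _root_.Crest.Agent.R38.Num

/-- the constant of the counting lemma -/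
noncomputable def Kc : ℝ := 4 ^ (10 * 12) * (((12 : ℕ) : ℝ) + 1) ^ 9

theorem Kc_nonneg : 0 ≤ Kc := by unfold Kc; positivity

variable {F : Type} [Field F] [Fintype F] [DecidableEq F]

theorem q_pos : (0 : ℝ) < Fintype.card F := by exact_mod_cast Fintype.card_pos

theorem one_le_q : (1 : ℝ) ≤ Fintype.card F := by exact_mod_cast Fintype.card_pos

theorem one_add_A_le (hq : 12 ≤ Fintype.card F) (z : Sy F 12) :
    1 + A z ≤ 5 * (Fintype.card F : ℝ) ^ g6 (cr z) := by
  have hq' : (12 : ℝ) ≤ Fintype.card F := by exact_mod_cast hq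
  unfold A g6
  split_ifs with h
  · have h1 := pA_ge (F := F)
    have hp := pA_pos (F := F)
    have e1 : (11 / 12 : ℝ) ≤ 1 - 1 / (Fintype.card F : ℝ) := by
      have : 1 / (Fintype.card F : ℝ) ≤ 1 / 12 := one_div_le_one_div_of_le (by norm_num) hq'
      linarith
    have e2 : (1 / 2 : ℝ) ≤ 1 - 6 / (Fintype.card F : ℝ) := by
      have : 6 / (Fintype.card F : ℝ) ≤ 6 / 12 :=
        div_le_div_of_nonneg_left (by norm_num) (by norm_num) hq'
      linarith
    have e3 : (11 / 12 : ℝ) ^ 6 * (1 / 2) ≤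
        (1 - 1 / (Fintype.card F : ℝ)) ^ 6 * (1 - 6 / (Fintype.card F : ℝ)) :=
      mul_le_mul (pow_le_pow_left₀ (by norm_num) e1 6) e2 (by norm_num) (by positivity)
    have e4 : (1 / 4 : ℝ) ≤ pA F * (Fintype.card F : ℝ) ^ 21 := by
      refine le_trans ?_ (e3.trans h1); norm_num
    have e5 : (pA F)⁻¹ ≤ 4 * (Fintype.card F : ℝ) ^ 21 := by
      rw [inv_le_iff_one_le_mul₀' hp]; linarith
    have e6 : (1 : ℝ) ≤ (Fintype.card F : ℝ) ^ 21 := one_le_pow₀ one_le_q
    have e7 : (Fintype.card F : ℝ) ^ (21 : ℤ) = (Fintype.card F : ℝ) ^ 21 := zpow_ofNat _ _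
    rw [e7]; linarith
  · simp

theorem Gam_nonneg (a b c : Sy F 12) : 0 ≤ Gam a b c := by
  unfold Gam
  refine expect_nonneg fun y _ => ?_
  have := A_nonneg (a - y); have := A_nonneg (b - y); have := A_nonneg (c - y)
  positivity

theorem Gam_swap23 (a b c : Sy F 12) : Gam a b c = Gam a c b := by
  unfold Gam; congr 1; ext y; ring

theorem Gam_swap12 (a b c : Sy F 12) : Gam a b c = Gam b a c := by
  unfold Gam; congr 1; ext y; ring

/-- majorised triple functions -/
def Maj (G : Sy F 12 → Sy F 12 → Sy F 12 → ℝ) (s t u : ℕ) (C : ℝ) : Prop :=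
  ∀ a b c, 0 ≤ G a b c ∧ G a b c ≤ C * (Fintype.card F : ℝ) ^
    (Ph s t u (ty0 a b c) (cr (a - b)) (cr (a - c)) (cr (b - c)) : ℤ)

theorem tri12 : ((tri 12 : ℕ) : ℤ) = 78 := by decide

theorem maj_Gam (hF : ringChar F ≠ 2) (hq : 12 ≤ Fintype.card F) :
    Maj (F := F) Gam tA0 tC0 tC0 (125 * Kc) := by
  intro a b c
  refine ⟨Gam_nonneg a b c, ?_⟩
  have h := expect_le hF a b c (fun ja jb jc _ _ _ => g6 ja + g6 jb + g6 jc)
    (Ph tA0 tC0 tC0 (ty0 a b c) (cr (a - b)) (cr (a - c)) (cr (b - c)) : ℤ)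
    (fun π hπ => by rw [tri12]; exact numG π _ _ _ _ hπ)
  rw [mul_assoc]
  refine le_trans ?_ (mul_le_mul_of_nonneg_left h (by norm_num))
  unfold Gam
  rw [mul_expect]
  refine expect_le_expect fun y _ => ?_
  have h1 := one_add_A_le hq (a - y)
  have h2 := one_add_A_le hq (b - y)
  have h3 := one_add_A_le hq (c - y)
  have := A_nonneg (a - y); have := A_nonneg (b - y); have := A_nonneg (c - y)
  have hq0 := q_pos (F := F)
  rw [zpow_add₀ hq0.ne', zpow_add₀ hq0.ne']
  calc _ ≤ (5 * (Fintype.card F : ℝ) ^ g6 (cr (a - y))) * (5 * (Fintype.card F : ℝ) ^ g6 (cr (b - y)))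
        * (5 * (Fintype.card F : ℝ) ^ g6 (cr (c - y))) := by gcongr
    _ = _ := by ring

/-- weight of a first degenerate step -/
noncomputable def wt (a b c x : Sy F 12) : ℝ := (Fintype.card F : ℝ) ^
  ind (cr (a - b)) (cr (a - c)) (cr (b - c)) (cr (a - x)) (cr (b - x)) (cr (c - x))

/-- weight of a degenerate base triangle -/
noncomputable def wt0 (a b c : Sy F 12) : ℝ := (Fintype.card F : ℝ) ^
  ind0 (cr (a - b)) (cr (a - c)) (cr (b - c))

theorem one_le_wt (a b c x : Sy F 12) : 1 ≤ wt a b c x := by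
  unfold wt ind
  split_ifs
  · simpa using one_le_q (F := F)
  · simp

theorem one_le_wt0 (a b c : Sy F 12) : 1 ≤ wt0 a b c := by
  unfold wt0 ind0
  split_ifs
  · simp
  · simpa using one_le_q (F := F)

/-- insertion of a vertex of degree three -/
noncomputable def Ins (G : Sy F 12 → Sy F 12 → Sy F 12 → ℝ) (a b c : Sy F 12) : ℝ :=
  𝔼 x : Sy F 12, G a b x * Gam a c x * Gam b c x * wt a b c x

theorem maj_Ins (hF : ringChar F ≠ 2) (hq : 12 ≤ Fintype.card F)
    {G : Sy F 12 → Sy F 12 → Sy F 12 → ℝ} {s t u s' t' u' : ℕ} {C : ℝ} (hC : 0 ≤ C)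
    (hG : Maj G s t u C)
    (hnum : ∀ (π : Pat) (n0 jab jac jbc : ℕ), π.Feas 12 n0 jab jac jbc →
      π.ex 12 n0 jab jac jbc + ((Ph s t u π.Mab jab π.ja π.jb : ℤ) +
      Ph tA0 tC0 tC0 π.Mac jac π.ja π.jc + Ph tA0 tC0 tC0 π.Mbc jbc π.jb π.jc +
      ind jab jac jbc π.ja π.jb π.jc) ≤ (Ph s' t' u' n0 jab jac jbc : ℤ) + 78) :
    Maj (Ins G) s' t' u' (C * (125 * Kc) * (125 * Kc) * Kc) := by
  intro a b c
  have hK := Kc_nonneg
  constructor
  · refine expect_nonneg fun x _ => ?_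
    have := (hG a b x).1; have := Gam_nonneg a c x; have := Gam_nonneg b c x
    have := one_le_wt a b c x
    positivity
  have h := expect_le hF a b c (fun ja jb jc Mab Mac Mbc =>
      (Ph s t u Mab (cr (a - b)) ja jb : ℤ) + Ph tA0 tC0 tC0 Mac (cr (a - c)) ja jc +
      Ph tA0 tC0 tC0 Mbc (cr (b - c)) jb jc + ind (cr (a - b)) (cr (a - c)) (cr (b - c)) ja jb jc)
    (Ph s' t' u' (ty0 a b c) (cr (a - b)) (cr (a - c)) (cr (b - c)) : ℤ)
    (fun π hπ => by rw [tri12]; exact hnum π _ _ _ _ hπ)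
  have hL : 0 ≤ 125 * Kc := mul_nonneg (by norm_num) hK
  rw [mul_assoc]
  refine le_trans ?_ (mul_le_mul_of_nonneg_left h (mul_nonneg (mul_nonneg hC hL) hL))
  unfold Ins
  rw [mul_expect]
  refine expect_le_expect fun x _ => ?_
  obtain ⟨g0, g1⟩ := hG a b x
  obtain ⟨h0, h1⟩ := maj_Gam hF hq a c x
  obtain ⟨k0, k1⟩ := maj_Gam hF hq b c x
  have hq0 := q_pos (F := F)
  have hw : 0 ≤ wt a b c x := zero_le_one.trans (one_le_wt a b c x)
  rw [zpow_add₀ hq0.ne', zpow_add₀ hq0.ne', zpow_add₀ hq0.ne']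
  refine le_trans (mul_le_mul_of_nonneg_right (mul_le_mul (mul_le_mul g1 h1 h0 (g0.trans g1)) k1 k0
    (mul_nonneg (g0.trans g1) (h0.trans h1))) hw) (le_of_eq ?_)
  unfold wt
  ring

theorem cr_zero : cr (0 : Sy F 12) = 12 := by
  have : kr (0 : Sy F 12) = ⊤ := by
    unfold kr
    simp
  unfold cr
  rw [this]
  simp

theorem ty0_self (a b : Sy F 12) : ty0 a b b = cr (a - b) := by
  unfold ty0 cr
  rw [inf_idem]

theorem ty0_swap (a b c : Sy F 12) : ty0 a b c = ty0 a c b := by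
  unfold ty0
  rw [inf_comm]

theorem base_le (hF : ringChar F ≠ 2) {G H : Sy F 12 → Sy F 12 → Sy F 12 → ℝ} {C C' : ℝ}
    (hC : 0 ≤ C) (hC' : 0 ≤ C') (hG : Maj G tA3 tB3 tC3 C) (hH : Maj H tA2 tB2 tC2 C') :
    𝔼 a : Sy F 12, 𝔼 b : Sy F 12, 𝔼 c : Sy F 12, G a b c * H a c b * wt0 a b c ≤
      C * C' * Kc * Kc := by
  have hK := Kc_nonneg
  have hq0 := q_pos (F := F)
  have h1 : ∀ a b : Sy F 12, 𝔼 c : Sy F 12, G a b c * H a c b * wt0 a b c ≤
      C * C' * Kc * (Fintype.card F : ℝ) ^ (tri (cr (a - b)) : ℤ) := by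
    intro a b
    have h := expect_le hF a b b (fun ja jb _ Mab _ _ =>
      (Ph tA3 tB3 tC3 Mab (cr (a - b)) ja jb : ℤ) + Ph tA2 tB2 tC2 Mab ja (cr (a - b)) jb +
        ind0 (cr (a - b)) ja jb) (tri (cr (a - b)) : ℤ)
      (fun π hπ => by
        rw [tri12]
        rw [ty0_self, sub_self, cr_zero] at hπ ⊢
        exact numF1 π _ hπ)
    rw [mul_assoc]
    refine le_trans ?_ (mul_le_mul_of_nonneg_left h (by positivity))
    rw [mul_expect]
    refine expect_le_expect fun x _ => ?_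
    obtain ⟨g0, g1⟩ := hG a b x
    obtain ⟨h0, h1⟩ := hH a x b
    rw [ty0_swap a x b, cr_sub_comm x b] at h1
    have hw : 0 ≤ wt0 a b x := zero_le_one.trans (one_le_wt0 a b x)
    rw [zpow_add₀ hq0.ne', zpow_add₀ hq0.ne']
    refine le_trans (mul_le_mul_of_nonneg_right (mul_le_mul g1 h1 h0 (g0.trans g1)) hw)
      (le_of_eq ?_)
    unfold wt0
    ring
  have h2 : ∀ a : Sy F 12, 𝔼 b : Sy F 12, (Fintype.card F : ℝ) ^ (tri (cr (a - b)) : ℤ) ≤ Kc := by
    intro a
    have h := expect_le hF a a a (fun ja _ _ _ _ _ => (tri ja : ℤ)) 0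
      (fun π hπ => by
        rw [tri12]
        rw [ty0_self, sub_self, cr_zero] at hπ ⊢
        rw [zero_add]
        exact numF2 π hπ)
    rw [zpow_zero, mul_one] at h
    exact h
  refine Finset.expect_le univ_nonempty fun a _ => ?_
  refine le_trans (expect_le_expect fun b _ => h1 a b) ?_
  rw [← mul_expect]
  exact mul_le_mul_of_nonneg_left (h2 a) (by positivity)

/-- coordinates in insertion order -/
def e8 (α : Type) : α × α × α × α × α × α × α × α ≃ (Fin 8 → α) where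
  toFun p := ![p.1, p.2.1, p.2.2.2.2.2.1, p.2.2.2.2.1, p.2.2.2.1, p.2.2.1, p.2.2.2.2.2.2.2,
    p.2.2.2.2.2.2.1]
  invFun x := (x 0, x 1, x 5, x 4, x 3, x 2, x 7, x 6)
  left_inv _ := rfl
  right_inv x := by funext i; fin_cases i <;> rfl

theorem expect_prod' {α β : Type} [Fintype α] [Fintype β] (g : α × β → ℝ) :
    𝔼 p : α × β, g p = 𝔼 a, 𝔼 b, g (a, b) := by
  rw [← univ_product_univ, expect_product]

theorem expect8 {α : Type} [Fintype α] (g : (Fin 8 → α) → ℝ) :
    𝔼 x, g x = 𝔼 x0, 𝔼 x1, 𝔼 x5, 𝔼 x4, 𝔼 x3, 𝔼 x2, 𝔼 x7, 𝔼 x6,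
      g ![x0, x1, x2, x3, x4, x5, x6, x7] := by
  rw [← Fintype.expect_equiv (e8 α) (fun p => g (e8 α p)) g (fun _ => rfl)]
  simp only [expect_prod']
  rfl

/-- the weighted product -/
noncomputable def big (x : Fin 8 → Sy F 12) : ℝ :=
  (Gam (x 0) (x 1) (x 2) * Gam (x 0) (x 3) (x 2) * Gam (x 1) (x 3) (x 2) * wt (x 0) (x 1) (x 3) (x 2)
      * Gam (x 0) (x 4) (x 3) * Gam (x 1) (x 4) (x 3) * wt (x 0) (x 1) (x 4) (x 3)
      * Gam (x 0) (x 5) (x 4) * Gam (x 1) (x 5) (x 4) * wt (x 0) (x 1) (x 5) (x 4)) *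
    (Gam (x 0) (x 5) (x 6) * Gam (x 0) (x 7) (x 6) * Gam (x 5) (x 7) (x 6) *
      wt (x 0) (x 5) (x 7) (x 6)
      * Gam (x 0) (x 1) (x 7) * Gam (x 5) (x 1) (x 7) * wt (x 0) (x 5) (x 1) (x 7)) *
    wt0 (x 0) (x 1) (x 5)

theorem expect_big : 𝔼 x : Fin 8 → Sy F 12, big x = 𝔼 a : Sy F 12, 𝔼 b : Sy F 12, 𝔼 c : Sy F 12,
    Ins (Ins (Ins Gam)) a b c * Ins (Ins Gam) a c b * wt0 a b c := by
  rw [expect8]
  refine expect_congr rfl fun x0 _ => expect_congr rfl fun x1 _ => expect_congr rfl fun x5 _ => ?_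
  have : ∀ x2 x3 x4 x6 x7 : Sy F 12, big ![x0, x1, x2, x3, x4, x5, x6, x7] =
      (Gam x0 x1 x2 * Gam x0 x3 x2 * Gam x1 x3 x2 * wt x0 x1 x3 x2
        * Gam x0 x4 x3 * Gam x1 x4 x3 * wt x0 x1 x4 x3
        * Gam x0 x5 x4 * Gam x1 x5 x4 * wt x0 x1 x5 x4) *
      (Gam x0 x5 x6 * Gam x0 x7 x6 * Gam x5 x7 x6 * wt x0 x5 x7 x6
        * Gam x0 x1 x7 * Gam x5 x1 x7 * wt x0 x5 x1 x7) * wt0 x0 x1 x5 := fun _ _ _ _ _ => rfl
  simp only [this, Ins, ← expect_mul, ← mul_expect]

theorem weights (x : Fin 8 → Sy F 12) (h : ¬ ∀ e, cr (x (edge e).1 - x (edge e).2) = 0) :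
    (Fintype.card F : ℝ) ≤ wt (x 0) (x 1) (x 3) (x 2) * wt (x 0) (x 1) (x 4) (x 3) *
      wt (x 0) (x 1) (x 5) (x 4) * wt (x 0) (x 5) (x 7) (x 6) * wt (x 0) (x 5) (x 1) (x 7) *
      wt0 (x 0) (x 1) (x 5) := by
  have w2 := one_le_wt (x 0) (x 1) (x 3) (x 2)
  have w3 := one_le_wt (x 0) (x 1) (x 4) (x 3)
  have w4 := one_le_wt (x 0) (x 1) (x 5) (x 4)
  have w6 := one_le_wt (x 0) (x 5) (x 7) (x 6)
  have w7 := one_le_wt (x 0) (x 5) (x 1) (x 7)
  have w0 := one_le_wt0 (x 0) (x 1) (x 5)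
  have key : ∀ a b c y : Sy F 12, (cr (a - b) = 0 ∧ cr (a - c) = 0 ∧ cr (b - c) = 0) →
      (cr (a - y) = 0 ∧ cr (b - y) = 0 ∧ cr (c - y) = 0) ∨ wt a b c y = Fintype.card F := by
    intro a b c y h1
    by_cases h2 : cr (a - y) = 0 ∧ cr (b - y) = 0 ∧ cr (c - y) = 0
    · exact Or.inl h2
    · right; unfold wt ind; rw [if_pos ⟨h1, h2⟩, zpow_one]
  have fin : ∀ {r s t u v w : ℝ}, 1 ≤ r → 1 ≤ s → 1 ≤ t → 1 ≤ u → 1 ≤ v → 1 ≤ w →
      r ≤ r * s * t * u * v * w := by
    intro r s t u v w hr hs ht hu hv hw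
    have : 1 ≤ s * t * u * v * w := one_le_mul_of_one_le_of_one_le
      (one_le_mul_of_one_le_of_one_le (one_le_mul_of_one_le_of_one_le
        (one_le_mul_of_one_le_of_one_le hs ht) hu) hv) hw
    calc r = r * 1 := (mul_one r).symm
      _ ≤ r * (s * t * u * v * w) := by gcongr
      _ = _ := by ring
  by_cases b0 : cr (x 0 - x 1) = 0 ∧ cr (x 0 - x 5) = 0 ∧ cr (x 1 - x 5) = 0
  swap
  · have e : wt0 (x 0) (x 1) (x 5) = Fintype.card F := by
      unfold wt0 ind0; rw [if_neg b0, zpow_one]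
    rw [← e]; refine (fin w0 w2 w3 w4 w6 w7).trans (le_of_eq ?_); ring
  obtain ⟨c01, c05, c15⟩ := b0
  rcases key _ _ _ (x 4) ⟨c01, c05, c15⟩ with ⟨c04, c14, c54⟩ | e
  swap
  · rw [← e]; refine (fin w4 w2 w3 w0 w6 w7).trans (le_of_eq ?_); ring
  rcases key _ _ _ (x 3) ⟨c01, c04, c14⟩ with ⟨c03, c13, c43⟩ | e
  swap
  · rw [← e]; refine (fin w3 w2 w4 w0 w6 w7).trans (le_of_eq ?_); ring
  rcases key _ _ _ (x 2) ⟨c01, c03, c13⟩ with ⟨c02, c12, c32⟩ | e
  swap
  · rw [← e]; refine (fin w2 w3 w4 w0 w6 w7).trans (le_of_eq ?_); ring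
  rcases key _ _ _ (x 7) ⟨c05, c01, (cr_sub_comm _ _).trans c15⟩ with ⟨c07, c57, c17⟩ | e
  swap
  · rw [← e]; refine (fin w7 w3 w4 w0 w6 w2).trans (le_of_eq ?_); ring
  rcases key _ _ _ (x 6) ⟨c05, c07, c57⟩ with ⟨c06, c56, c76⟩ | e
  swap
  · rw [← e]; refine (fin w6 w3 w4 w0 w7 w2).trans (le_of_eq ?_); ring
  exfalso
  apply h
  intro e
  fin_cases e
  exacts [c01, c02, c03, c04, c05, c06, c07, c12, (cr_sub_comm _ _).trans c32,
    (cr_sub_comm _ _).trans c43, (cr_sub_comm _ _).trans c54, c56, (cr_sub_comm _ _).trans c76,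
    c17, c13, c14, c15, c57]

theorem big_eq (x : Fin 8 → Sy F 12) : big x =
    (∏ f, Gam (x (face f 0)) (x (face f 1)) (x (face f 2))) *
      (wt (x 0) (x 1) (x 3) (x 2) * wt (x 0) (x 1) (x 4) (x 3) *
      wt (x 0) (x 1) (x 5) (x 4) * wt (x 0) (x 5) (x 7) (x 6) * wt (x 0) (x 5) (x 1) (x 7) *
      wt0 (x 0) (x 1) (x 5)) := by
  have : (∏ f, Gam (x (face f 0)) (x (face f 1)) (x (face f 2))) =
      Gam (x 0) (x 1) (x 2) * (Gam (x 0) (x 2) (x 3) * (Gam (x 0) (x 3) (x 4) *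
      (Gam (x 0) (x 4) (x 5) * (Gam (x 0) (x 5) (x 6) * (Gam (x 0) (x 6) (x 7) *
      (Gam (x 0) (x 1) (x 7) * (Gam (x 1) (x 2) (x 3) * (Gam (x 1) (x 3) (x 4) *
      (Gam (x 1) (x 4) (x 5) * (Gam (x 1) (x 5) (x 7) * Gam (x 5) (x 6) (x 7))))))))))) := by
    simp only [Fin.prod_univ_succ, Fin.prod_univ_zero, mul_one]
    rfl
  rw [this, big, Gam_swap23 (x 0) (x 3) (x 2), Gam_swap23 (x 1) (x 3) (x 2),
    Gam_swap23 (x 0) (x 4) (x 3), Gam_swap23 (x 1) (x 4) (x 3), Gam_swap23 (x 0) (x 5) (x 4),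
    Gam_swap23 (x 1) (x 5) (x 4), Gam_swap23 (x 0) (x 7) (x 6), Gam_swap23 (x 5) (x 7) (x 6),
    Gam_swap12 (x 5) (x 1) (x 7)]
  ring

end DegAux

open DegAux _root_.Crest.Agent.R38.Num in
/-- degenerate configurations are negligible -/
theorem deg_part : ∃ C : ℝ, ∀ (F : Type) [Field F] [Fintype F] [DecidableEq F],
    ringChar F ≠ 2 → 12 ≤ Fintype.card F →
    𝔼 x : Fin 8 → Sy F 12, (if ∀ e, cr (x (edge e).1 - x (edge e).2) = 0 then 0 else
        ∏ f, Gam (x (face f 0)) (x (face f 1)) (x (face f 2))) ≤ C / (Fintype.card F : ℝ) := by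
  have hK := Kc_nonneg
  obtain ⟨L, hL, hLe⟩ : ∃ L : ℝ, 0 ≤ L ∧ L = 125 * Kc := ⟨_, by positivity, rfl⟩
  refine ⟨(L * L * L * Kc * L * L * Kc * L * L * Kc) * (L * L * L * Kc * L * L * Kc) * Kc * Kc, ?_⟩
  intro F _ _ _ hF hq
  have m0 := maj_Gam hF hq
  have m1 := maj_Ins hF hq (by positivity) m0 numD1
  have m2 := maj_Ins hF hq (by positivity) m1 numD2
  have m3 := maj_Ins hF hq (by positivity) m2 numD3
  rw [← hLe] at m2 m3
  have hb := base_le hF (by positivity) (by positivity) m3 m2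
  rw [← expect_big] at hb
  have hq0 := q_pos (F := F)
  rw [le_div_iff₀ hq0, expect_mul]
  refine le_trans (expect_le_expect fun x _ => ?_) hb
  have hp : 0 ≤ ∏ f, Gam (x (face f 0)) (x (face f 1)) (x (face f 2)) :=
    prod_nonneg fun f _ => Gam_nonneg _ _ _
  rw [big_eq]
  split_ifs with h
  · rw [zero_mul]
    have w2 := one_le_wt (x 0) (x 1) (x 3) (x 2)
    have w3 := one_le_wt (x 0) (x 1) (x 4) (x 3)
    have w4 := one_le_wt (x 0) (x 1) (x 5) (x 4)
    have w6 := one_le_wt (x 0) (x 5) (x 7) (x 6)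
    have w7 := one_le_wt (x 0) (x 5) (x 1) (x 7)
    have w0 := one_le_wt0 (x 0) (x 1) (x 5)
    positivity
  · exact mul_le_mul_of_nonneg_left (weights x h) hp

end Crest.Agent.R38
end

-- ▼ part PVc/R38/Face
section

set_option autoImplicit false
open Finset Module
open scoped BigOperators Matrix

namespace Crest.Agent.R38

namespace FaceAux

variable {F : Type} [Field F] {n : ℕ}

theorem mem_kr {x : Sy F n} {u : Fin n → F} : u ∈ kr x ↔ x.1 *ᵥ u = 0 := Iff.rfl

theorem mem_kr_sub {a y : Sy F n} {u : Fin n → F} : u ∈ kr (a - y) ↔ a.1 *ᵥ u = y.1 *ᵥ u := by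
  rw [mem_kr, Submodule.coe_sub, Matrix.sub_mulVec, sub_eq_zero]

theorem dot_comm (x : Sy F n) (u v : Fin n → F) : u ⬝ᵥ x.1 *ᵥ v = v ⬝ᵥ x.1 *ᵥ u := by
  rw [Matrix.dotProduct_mulVec, ← Matrix.mulVec_transpose, (mem_Sy.1 x.2).eq, dotProduct_comm]

theorem dot_zero {a b y : Sy F n} {u v : Fin n → F} (hu : u ∈ kr (a - y)) (hv : v ∈ kr (b - y)) :
    u ⬝ᵥ (a - b).1 *ᵥ v = 0 := by
  rw [mem_kr_sub] at hu hv
  rw [Submodule.coe_sub, Matrix.sub_mulVec, dotProduct_sub, hv, dot_comm a, hu, dot_comm y, sub_self]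

theorem eq_zero_of_cr {z : Sy F n} (hz : cr z = 0) {u : Fin n → F} (hu : z.1 *ᵥ u = 0) : u = 0 := by
  have : kr z = ⊥ := Submodule.finrank_eq_zero.1 hz
  exact (Submodule.mem_bot F).1 (this ▸ mem_kr.2 hu)

theorem exists_add {a b y : Sy F n} (hab : cr (a - b) = 0) (hn : cr (a - y) + cr (b - y) = n)
    (v : Fin n → F) : ∃ u ∈ kr (a - y), ∃ w ∈ kr (b - y), u + w = v := by
  have h1 : kr (a - y) ⊓ kr (b - y) = ⊥ := by
    rw [eq_bot_iff]
    rintro u ⟨hu, hu'⟩
    refine (Submodule.mem_bot F).2 (eq_zero_of_cr hab ?_)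
    rw [Submodule.coe_sub, Matrix.sub_mulVec, mem_kr_sub.1 hu, mem_kr_sub.1 hu', sub_self]
  have h2 := Submodule.finrank_sup_add_finrank_inf_eq (kr (a - y)) (kr (b - y))
  rw [h1, finrank_bot] at h2
  have h3 : kr (a - y) ⊔ kr (b - y) = ⊤ := by
    apply Submodule.eq_top_of_finrank_eq
    unfold cr at hn
    rw [Module.finrank_fin_fun]
    omega
  exact Submodule.mem_sup.1 (h3 ▸ Submodule.mem_top)

theorem kr_inj {a b y y' : Sy F n} (hab : cr (a - b) = 0) (hn : cr (a - y) + cr (b - y) = n)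
    (hn' : cr (a - y') + cr (b - y') = n) (h : kr (a - y) = kr (a - y')) : y = y' := by
  have h' : ∀ u, u ∈ kr (a - y) ↔ u ∈ kr (a - y') := fun u => by rw [h]
  have key : ∀ v ∈ kr (b - y), v ∈ kr (b - y') := by
    intro v hv
    obtain ⟨k, hk, v', hv', e⟩ := exists_add hab hn' v
    have hk0 : (a - b).1 *ᵥ k = 0 := by
      refine dotProduct_eq_zero _ fun t => ?_
      obtain ⟨u, hu, w, hw, rfl⟩ := exists_add hab hn t
      have h1 := dot_zero hu hv
      rw [← e, Matrix.mulVec_add, dotProduct_add, dot_zero ((h' u).1 hu) hv', add_zero] at h1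
      have h2 := dot_zero ((h' k).2 hk) hw
      rw [dotProduct_comm, add_dotProduct, h1, dot_comm, h2, add_zero]
    rw [← e, eq_zero_of_cr hab hk0, zero_add]
    exact hv'
  apply Subtype.ext
  apply Matrix.toLin'.injective
  refine LinearMap.ext fun t => ?_
  obtain ⟨u, hu, w, hw, rfl⟩ := exists_add hab hn t
  simp only [Matrix.toLin'_apply, Matrix.mulVec_add]
  rw [← mem_kr_sub.1 hu, ← mem_kr_sub.1 hw, ← mem_kr_sub.1 ((h' u).1 hu), ← mem_kr_sub.1 (key w hw)]

variable [Fintype F]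

theorem card_two {a b : Sy F 12} (hab : cr (a - b) = 0) :
    (Nat.card {y : Sy F 12 // cr (a - y) = 6 ∧ cr (b - y) = 6} : ℝ) *
      (1 - 1 / (Fintype.card F : ℝ)) ^ 6 ≤ (Fintype.card F : ℝ) ^ 36 := by
  have h1 := card_between (F := F) (⊥ : Submodule F (Fin 12 → F)) ⊤ 6
  have h2 : 0 ≤ 1 - 1 / (Fintype.card F : ℝ) := by
    rw [sub_nonneg, div_le_one (by positivity)]
    exact_mod_cast Fintype.card_pos
  refine le_trans (mul_le_mul_of_nonneg_right (Nat.cast_le.2 ?_) (by positivity))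
    (h1.trans (by simp))
  have : Finite (Submodule F (Fin 12 → F)) := Finite.of_injective _ SetLike.coe_injective
  exact Nat.card_le_card_of_injective
    (fun y => ⟨kr (a - y.1), bot_le, le_top, by simpa [cr] using y.2.1⟩)
    fun y y' h => Subtype.ext (kr_inj hab (by rw [y.2.1, y.2.2]) (by rw [y'.2.1, y'.2.2])
      (congrArg Subtype.val h))

variable [DecidableEq F]

omit [Fintype F] [DecidableEq F] in
theorem isSymm_M {a b c : Sy F n} (hQ : IsUnit (b - c).1.det) :
    ((a - b).1 * (b - c).1⁻¹ * (a - c).1).IsSymm := by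
  have e : (a - b).1 = (a - c).1 - (b - c).1 := by
    rw [← Submodule.coe_sub, sub_sub_sub_cancel_right]
  have h1 := (mem_Sy.1 (a - c).2).eq
  have h2 := (mem_Sy.1 (b - c).2).eq
  rw [e]
  generalize (a - c).1 = P at *
  generalize (b - c).1 = Q at *
  rw [Matrix.sub_mul, Matrix.mul_nonsing_inv _ hQ, Matrix.sub_mul, Matrix.one_mul]
  simp only [Matrix.IsSymm, Matrix.transpose_mul, Matrix.transpose_nonsing_inv,
    Matrix.transpose_sub, h1, h2, Matrix.mul_assoc]

omit [Fintype F] [DecidableEq F] in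
theorem iso {a b c y : Sy F n} (hbc : cr (b - c) = 0) (hQ : IsUnit (b - c).1.det)
    (hn : cr (b - y) + cr (c - y) = n) : ∀ u ∈ kr (a - y), ∀ u' ∈ kr (a - y),
      Matrix.toBilin' ((a - b).1 * (b - c).1⁻¹ * (a - c).1) u u' = 0 := by
  intro u hu u' hu'
  obtain ⟨v, hv, w, hw, rfl⟩ := exists_add hbc hn u'
  have e : (a - c).1 *ᵥ (v + w) = (b - c).1 *ᵥ v := by
    rw [Submodule.coe_sub, Submodule.coe_sub, Matrix.sub_mulVec, Matrix.sub_mulVec,
      mem_kr_sub.1 hu', Matrix.mulVec_add, Matrix.mulVec_add, mem_kr_sub.1 hv, mem_kr_sub.1 hw]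
    abel
  rw [Matrix.toBilin'_apply', ← Matrix.mulVec_mulVec, ← Matrix.mulVec_mulVec, e,
    Matrix.mulVec_mulVec v, Matrix.nonsing_inv_mul _ hQ, Matrix.one_mulVec]
  exact dot_zero hu hv

theorem card_three (hF : ringChar F ≠ 2) {a b c : Sy F 12} (hab : cr (a - b) = 0)
    (hac : cr (a - c) = 0) (hbc : cr (b - c) = 0) :
    (Nat.card {y : Sy F 12 // cr (a - y) = 6 ∧ cr (b - y) = 6 ∧ cr (c - y) = 6} : ℝ) *
      (1 - 1 / (Fintype.card F : ℝ)) ^ 6 ≤
      2 * (1 + 2 / (Fintype.card F : ℝ)) ^ 6 * (Fintype.card F : ℝ) ^ 15 := by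
  have hQ : IsUnit (b - c).1.det := isUnit_iff_ne_zero.2 ((cr_eq_zero_iff _).1 hbc)
  have hd : ((a - b).1 * (b - c).1⁻¹ * (a - c).1).det ≠ 0 := by
    simp only [Matrix.det_mul]
    exact mul_ne_zero (mul_ne_zero ((cr_eq_zero_iff _).1 hab)
      (Matrix.isUnit_nonsing_inv_det _ hQ).ne_zero) ((cr_eq_zero_iff _).1 hac)
  have h1 := card_max_iso hF _ (Matrix.isSymm_toBilin'_iff_isSymm.2 (isSymm_M (a := a) hQ))
    (LinearMap.BilinForm.nondegenerate_toBilin'_of_det_ne_zero' _ hd) 6 (by simp)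
  have h2 : 0 ≤ 1 - 1 / (Fintype.card F : ℝ) := by
    rw [sub_nonneg, div_le_one (by positivity)]
    exact_mod_cast Fintype.card_pos
  refine le_trans (mul_le_mul_of_nonneg_right (Nat.cast_le.2 ?_) (by positivity)) h1
  have : Finite (Submodule F (Fin 12 → F)) := Finite.of_injective _ SetLike.coe_injective
  exact Nat.card_le_card_of_injective
    (fun y => ⟨kr (a - y.1), iso hbc hQ (by rw [y.2.2.1, y.2.2.2]), y.2.1⟩)
    fun y y' h => Subtype.ext (kr_inj hab (by rw [y.2.1, y.2.2.1]) (by rw [y'.2.1, y'.2.2.1])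
      (congrArg Subtype.val h))

omit [DecidableEq F] in
theorem expect_Y (f : Y F → ℝ) :
    𝔼 y : Y F, f y = 𝔼 z : Sy F 12, (f (z, true) + f (z, false)) / 2 := by
  rw [← Finset.univ_product_univ, Finset.expect_product]
  refine Finset.expect_congr rfl fun z _ => ?_
  rw [Fintype.expect_eq_sum_div_card]
  simp

theorem expect_ite (p : Sy F 12 → Prop) [DecidablePred p] (r : ℝ) :
    𝔼 z : Sy F 12, (if p z then r else 0) =
      (Nat.card {z // p z} : ℝ) * r / (Fintype.card F : ℝ) ^ 78 := by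
  rw [Fintype.expect_eq_sum_div_card, card_Sy, Finset.sum_ite, Nat.card_eq_fintype_card,
    Fintype.card_subtype]
  simp [tri]

/-- the error term is small -/
def Big (δ : ℝ) (q : ℝ) : Prop :=
  6 < q ∧ (1 + 2 / q) ^ 6 ≤ (1 + δ) * ((1 - 1 / q) ^ 6 * ((1 - 1 / q) ^ 6 * (1 - 6 / q)) ^ 3)

theorem exists_big {δ : ℝ} (hδ : 0 < δ) : ∃ q0 : ℕ, ∀ q : ℕ, q0 ≤ q → Big δ q := by
  have h0 : Filter.Tendsto (fun q : ℕ => (q : ℝ)⁻¹) Filter.atTop (nhds 0) :=
    tendsto_inv_atTop_nhds_zero_nat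
  have hc : Continuous fun t : ℝ =>
      (1 + δ) * ((1 - 1 * t) ^ 6 * ((1 - 1 * t) ^ 6 * (1 - 6 * t)) ^ 3) - (1 + 2 * t) ^ 6 := by
    fun_prop
  have h1 := ((hc.tendsto 0).comp h0).eventually (lt_mem_nhds (show (0 : ℝ) < _ by simpa using hδ))
  obtain ⟨q0, h⟩ := Filter.eventually_atTop.1 (h1.and (Filter.eventually_gt_atTop 6))
  refine ⟨q0, fun q hq => ⟨by exact_mod_cast (h q hq).2, ?_⟩⟩
  have := (h q hq).1
  simp only [Function.comp] at this
  simp only [div_eq_mul_inv]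
  linarith

theorem g_two {δ : ℝ} (hδ : 0 < δ) (hq : Big δ (Fintype.card F)) {a b : Sy F 12}
    (hab : cr (a - b) = 0) : 𝔼 y : Sy F 12, A (a - y) * A (b - y) ≤ 1 + δ := by
  have e : ∀ y, A (a - y) * A (b - y) =
      if cr (a - y) = 6 ∧ cr (b - y) = 6 then (pA F)⁻¹ ^ 2 else 0 := fun y => by
    unfold A
    by_cases h1 : cr (a - y) = 6 <;> by_cases h2 : cr (b - y) = 6 <;> simp [h1, h2, sq]
  simp only [e]
  rw [expect_ite]
  have h1 := card_two hab
  have h2 := pA_ge (F := F)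
  have h3 := pA_pos (F := F)
  obtain ⟨h4, h5⟩ := hq
  generalize (Nat.card {y : Sy F 12 // cr (a - y) = 6 ∧ cr (b - y) = 6} : ℝ) = N at *
  generalize (Fintype.card F : ℝ) = q at *
  generalize pA F = p at *
  have hq0 : 0 < q := by linarith
  have t1 : 0 < 1 - 1 / q := by rw [sub_pos, div_lt_one hq0]; linarith
  have t2 : 0 < 1 - 6 / q := by rw [sub_pos, div_lt_one hq0]; linarith
  have t3 : (1 - 1 / q) ^ 6 * (1 - 6 / q) ≤ 1 :=
    mul_le_one₀ (pow_le_one₀ t1.le (sub_le_self _ (by positivity))) t2.le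
      (sub_le_self _ (by positivity))
  have t4 : 1 ≤ (1 + 2 / q) ^ 6 := one_le_pow₀ (le_add_of_nonneg_right (by positivity))
  have t5 : 0 < (1 - 1 / q) ^ 6 * (1 - 6 / q) := by positivity
  have t6 : 0 < (1 - 1 / q) ^ 6 := by positivity
  generalize (1 - 1 / q) ^ 6 * (1 - 6 / q) = ρ at *
  generalize (1 - 1 / q) ^ 6 = θ at *
  have h6 : ρ ^ 3 ≤ (p * q ^ 21) ^ 2 :=
    (pow_le_pow_of_le_one t5.le t3 (by norm_num)).trans (pow_le_pow_left₀ t5.le h2 2)
  have h7 : 1 ≤ (1 + δ) * (θ * (p * q ^ 21) ^ 2) := (t4.trans h5).trans (by gcongr)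
  rw [div_le_iff₀ (by positivity), inv_pow, mul_inv_le_iff₀ (by positivity)]
  refine le_of_mul_le_mul_right (h1.trans ?_) t6
  calc q ^ 36 = 1 * q ^ 36 := (one_mul _).symm
    _ ≤ (1 + δ) * (θ * (p * q ^ 21) ^ 2) * q ^ 36 := by gcongr
    _ = _ := by ring

theorem g_three (hF : ringChar F ≠ 2) {δ : ℝ} (hδ : 0 < δ) (hq : Big δ (Fintype.card F))
    {a b c : Sy F 12} (hab : cr (a - b) = 0) (hac : cr (a - c) = 0) (hbc : cr (b - c) = 0) :
    𝔼 y : Sy F 12, A (a - y) * A (b - y) * A (c - y) ≤ (1 + δ) * 2 := by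
  have e : ∀ y, A (a - y) * A (b - y) * A (c - y) =
      if cr (a - y) = 6 ∧ cr (b - y) = 6 ∧ cr (c - y) = 6 then (pA F)⁻¹ ^ 3 else 0 := fun y => by
    unfold A
    by_cases h1 : cr (a - y) = 6 <;> by_cases h2 : cr (b - y) = 6 <;>
      by_cases h3 : cr (c - y) = 6 <;> simp [h1, h2, h3, pow_succ]
  simp only [e]
  rw [expect_ite]
  have h1 := card_three hF hab hac hbc
  have h2 := pA_ge (F := F)
  have h3 := pA_pos (F := F)
  obtain ⟨h4, h5⟩ := hq
  generalize (Nat.card {y : Sy F 12 // cr (a - y) = 6 ∧ cr (b - y) = 6 ∧ cr (c - y) = 6} : ℝ) = N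
    at *
  generalize (Fintype.card F : ℝ) = q at *
  generalize pA F = p at *
  have hq0 : 0 < q := by linarith
  have t1 : 0 < 1 - 1 / q := by rw [sub_pos, div_lt_one hq0]; linarith
  have t2 : 0 < 1 - 6 / q := by rw [sub_pos, div_lt_one hq0]; linarith
  have t5 : 0 < (1 - 1 / q) ^ 6 * (1 - 6 / q) := by positivity
  have t6 : 0 < (1 - 1 / q) ^ 6 := by positivity
  generalize (1 - 1 / q) ^ 6 * (1 - 6 / q) = ρ at *
  generalize (1 - 1 / q) ^ 6 = θ at *
  have h7 : (1 + 2 / q) ^ 6 ≤ (1 + δ) * (θ * (p * q ^ 21) ^ 3) := h5.trans (by gcongr)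
  rw [div_le_iff₀ (by positivity), inv_pow, mul_inv_le_iff₀ (by positivity)]
  refine le_of_mul_le_mul_right (h1.trans ?_) t6
  calc 2 * (1 + 2 / q) ^ 6 * q ^ 15 ≤ 2 * ((1 + δ) * (θ * (p * q ^ 21) ^ 3)) * q ^ 15 := by gcongr
    _ = _ := by ring

/-- the unsigned part of an elementary kernel -/
noncomputable def uu (η : SignType) (z : Sy F 12) : ℝ := if η = 0 then 1 else A z

theorem kk_eq (η : SignType) (x y : Y F) :
    kk η x y = uu η (x.1 - y.1) * (1 + (η : ℝ) * tau (x.1 - y.1) * sg x.2 * sg y.2) := by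
  unfold kk uu
  split_ifs with h
  · simp [h]
  · rfl

theorem sig'_eq (hF : ringChar F ≠ 2) {x x' : Y F} (h : cr (x.1 - x'.1) = 0) {z : Sy F 12}
    (h1 : A (x.1 - z) ≠ 0) (h2 : A (x'.1 - z) ≠ 0) :
    sig' x x' = tau (x.1 - z) * sg x.2 * (tau (x'.1 - z) * sg x'.2) := by
  have hc : ∀ w : Sy F 12, A w ≠ 0 → cr w = 6 := fun w hw => by
    by_contra h'
    exact hw (if_neg h')
  have := flat hF (x.1 - z) (x'.1 - z) (hc _ h1) (hc _ h2) (by rwa [sub_sub_sub_cancel_right])
  rw [sub_sub_sub_cancel_right] at this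
  rw [sig', this]
  ring

theorem pair (hF : ringChar F ≠ 2) (η η' : SignType) {x x' : Y F} (h : cr (x.1 - x'.1) = 0)
    (z : Sy F 12) : uu η (x.1 - z) * uu η' (x'.1 - z) *
      ((η : ℝ) * tau (x.1 - z) * sg x.2 * ((η' : ℝ) * tau (x'.1 - z) * sg x'.2)) =
      uu η (x.1 - z) * uu η' (x'.1 - z) * ((η : ℝ) * η' * sig' x x') := by
  by_cases h0 : η = 0
  · simp [h0]
  by_cases h0' : η' = 0
  · simp [h0']
  simp only [uu, if_neg h0, if_neg h0']
  by_cases h1 : A (x.1 - z) = 0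
  · simp [h1]
  by_cases h2 : A (x'.1 - z) = 0
  · simp [h2]
  rw [sig'_eq hF h h1 h2]
  ring

theorem face_eq (hF : ringChar F ≠ 2) (η : Fin 3 → SignType) (x : Fin 3 → Y F)
    (h12 : cr ((x 1).1 - (x 2).1) = 0) (h02 : cr ((x 0).1 - (x 2).1) = 0)
    (h01 : cr ((x 0).1 - (x 1).1) = 0) :
    𝔼 y : Y F, ∏ i, kk (η i) (x i) y =
      (𝔼 z : Sy F 12, uu (η 0) ((x 0).1 - z) * uu (η 1) ((x 1).1 - z) * uu (η 2) ((x 2).1 - z)) *
        (1 + (η 1 : ℝ) * η 2 * sig' (x 1) (x 2) + (η 0 : ℝ) * η 2 * sig' (x 0) (x 2) +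
          (η 0 : ℝ) * η 1 * sig' (x 0) (x 1)) := by
  rw [expect_Y, Finset.expect_mul]
  refine Finset.expect_congr rfl fun z _ => ?_
  have p12 := pair hF (η 1) (η 2) h12 z
  have p02 := pair hF (η 0) (η 2) h02 z
  have p01 := pair hF (η 0) (η 1) h01 z
  have e1 : sg true = 1 := rfl
  have e2 : sg false = -1 := rfl
  simp only [Fin.prod_univ_three, kk_eq, e1, e2]
  linear_combination uu (η 0) ((x 0).1 - z) * p12 + uu (η 1) ((x 1).1 - z) * p02 +
    uu (η 2) ((x 2).1 - z) * p01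

theorem Ginf_eq (η : Fin 3 → SignType) (s0 s1 s2 : ℝ) : Ginf η ![s0, s1, s2] =
    1 + (η 1 : ℝ) * η 2 * s0 + (η 0 : ℝ) * η 2 * s1 + (η 0 : ℝ) * η 1 * s2 +
      (η 0 : ℝ) * η 1 * (η 2 : ℝ) ^ 2 * s0 * s1 + (η 0 : ℝ) * η 2 * (η 1 : ℝ) ^ 2 * s0 * s2 +
      (η 1 : ℝ) * η 2 * (η 0 : ℝ) ^ 2 * s1 * s2 +
      (η 0 : ℝ) ^ 2 * (η 1 : ℝ) ^ 2 * (η 2 : ℝ) ^ 2 * s0 * s1 * s2 := by
  have e : ∀ f : (Fin 3 → Bool) → ℝ, ∑ S, f S = ∑ a, ∑ b, ∑ c, f ![a, b, c] := fun f => by
    rw [← (Fin.consEquiv fun _ => Bool).sum_comp, Fintype.sum_prod_type]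
    refine Finset.sum_congr rfl fun a _ => ?_
    rw [← (Fin.consEquiv fun _ => Bool).sum_comp, Fintype.sum_prod_type]
    refine Finset.sum_congr rfl fun b _ => ?_
    rw [← (Fin.consEquiv fun _ => Bool).sum_comp, Fintype.sum_prod_type]
    refine Finset.sum_congr rfl fun c _ => ?_
    rw [Fintype.sum_unique]
    rfl
  have a1 : (0 : Fin 3) + 1 = 1 := rfl
  have a2 : (0 : Fin 3) + 2 = 2 := rfl
  have a3 : (1 : Fin 3) + 1 = 2 := rfl
  have a4 : (1 : Fin 3) + 2 = 0 := rfl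
  have a5 : (2 : Fin 3) + 1 = 0 := rfl
  have a6 : (2 : Fin 3) + 2 = 1 := rfl
  rw [Ginf, e]
  simp only [Fin.prod_univ_three, a1, a2, a3, a4, a5, a6, Fintype.sum_bool, nb]
  simp
  ring

theorem sig'_cases {x x' : Y F} (h : cr (x.1 - x'.1) = 0) : sig' x x' = 1 ∨ sig' x x' = -1 := by
  have h1 := sig_sq (x.1 - x'.1)
  rw [if_pos h] at h1
  have h2 : ∀ b, sg b ^ 2 = 1 := fun b => by cases b <;> simp [sg]
  refine sq_eq_one_iff.1 ?_
  rw [sig', mul_pow, mul_pow, h1, h2, h2]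
  norm_num

theorem coe_cases {η : SignType} (h : η ≠ 0) : (η : ℝ) = 1 ∨ (η : ℝ) = -1 := by
  cases η <;> simp_all

end FaceAux

open FaceAux

/-- a face function is bounded by `Gam` -/
theorem face_le {F : Type} [Field F] [Fintype F] [DecidableEq F] (η : Fin 3 → SignType)
    (x : Fin 3 → Y F) :
    𝔼 y : Y F, ∏ i, kk (η i) (x i) y ≤ 8 * Gam (x 0).1 (x 1).1 (x 2).1 := by
  rw [expect_Y, Gam, Finset.mul_expect]
  refine Finset.expect_le_expect fun z _ => ?_
  have h : ∀ b, ∏ i, kk (η i) (x i) (z, b) ≤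
      8 * ((1 + A ((x 0).1 - z)) * (1 + A ((x 1).1 - z)) * (1 + A ((x 2).1 - z))) := fun b => by
    refine (Finset.prod_le_prod (fun i _ => kk_nonneg _ _ _) fun i _ => kk_le _ _ _).trans
      (le_of_eq ?_)
    simp only [Fin.prod_univ_three]
    ring
  linarith [h true, h false]

/-- face functions on generic triples -/
theorem face_gen (δ : ℝ) (hδ : 0 < δ) : ∃ q0 : ℕ, ∀ (F : Type) [Field F] [Fintype F]
    [DecidableEq F], ringChar F ≠ 2 → q0 ≤ Fintype.card F →
    ∀ (η : Fin 3 → SignType) (x : Fin 3 → Y F), cr ((x 1).1 - (x 2).1) = 0 →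
      cr ((x 0).1 - (x 2).1) = 0 → cr ((x 0).1 - (x 1).1) = 0 →
      𝔼 y : Y F, ∏ i, kk (η i) (x i) y ≤
        (1 + δ) * Ginf η ![sig' (x 1) (x 2), sig' (x 0) (x 2), sig' (x 0) (x 1)] := by
  obtain ⟨q0, hq0⟩ := exists_big hδ
  refine ⟨q0, fun F _ _ _ hF hq η x h12 h02 h01 => ?_⟩
  have hb := hq0 _ hq
  have c0 := sig'_cases h12
  have c1 := sig'_cases h02
  have c2 := sig'_cases h01
  rw [face_eq hF η x h12 h02 h01, Ginf_eq]
  by_cases e0 : η 0 = 0 <;> by_cases e1 : η 1 = 0 <;> by_cases e2 : η 2 = 0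
  · simp [uu, e0, e1, e2, hδ.le]
  · simp [uu, e0, e1, e2, hδ.le, expect_A]
  · simp [uu, e0, e1, e2, hδ.le, expect_A]
  · simp only [uu, e0, e1, e2, if_true, if_false, one_mul, SignType.coe_zero]
    have := g_two hδ hb h12
    rcases coe_cases e1 with d1 | d1 <;> rcases coe_cases e2 with d2 | d2 <;>
      rcases c0 with c0 | c0 <;> rw [d1, d2, c0] <;> linarith
  · simp [uu, e0, e1, e2, hδ.le, expect_A]
  · simp only [uu, e0, e1, e2, if_true, if_false, mul_one, SignType.coe_zero]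
    have := g_two hδ hb h02
    rcases coe_cases e0 with d0 | d0 <;> rcases coe_cases e2 with d2 | d2 <;>
      rcases c1 with c1 | c1 <;> rw [d0, d2, c1] <;> linarith
  · simp only [uu, e0, e1, e2, if_true, if_false, mul_one, SignType.coe_zero]
    have := g_two hδ hb h01
    rcases coe_cases e0 with d0 | d0 <;> rcases coe_cases e1 with d1 | d1 <;>
      rcases c2 with c2 | c2 <;> rw [d0, d1, c2] <;> linarith
  · simp only [uu, e0, e1, e2, if_false]
    have h3 := g_three hF hδ hb h01 h02 h12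
    have h4 : 𝔼 z : Sy F 12, A ((x 0).1 - z) * A ((x 1).1 - z) * A ((x 2).1 - z) = 0 ∨
        sig' (x 1) (x 2) * sig' (x 0) (x 2) * sig' (x 0) (x 1) = 1 := by
      by_cases h : ∀ z, A ((x 0).1 - z) * A ((x 1).1 - z) * A ((x 2).1 - z) = 0
      · left
        simp only [h, Finset.expect_const_zero]
      · right
        obtain ⟨z, hz⟩ := not_forall.1 h
        simp only [mul_eq_zero, not_or] at hz
        have h2 : ∀ b, sg b = 1 ∨ sg b = -1 := fun b => by cases b <;> simp [sg]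
        have h5 : ∀ i, (tau ((x i).1 - z) * sg (x i).2) ^ 2 = 1 := fun i => by
          rcases tau_eq ((x i).1 - z) with t | t <;> rcases h2 (x i).2 with t' | t' <;>
            rw [t, t'] <;> norm_num
        rw [sig'_eq hF h12 hz.1.2 hz.2, sig'_eq hF h02 hz.1.1 hz.2, sig'_eq hF h01 hz.1.1 hz.1.2]
        calc _ = (tau ((x 0).1 - z) * sg (x 0).2) ^ 2 * (tau ((x 1).1 - z) * sg (x 1).2) ^ 2 *
            (tau ((x 2).1 - z) * sg (x 2).2) ^ 2 := by ring
          _ = 1 := by simp only [h5, mul_one]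
    generalize 𝔼 z : Sy F 12, A ((x 0).1 - z) * A ((x 1).1 - z) * A ((x 2).1 - z) = g at h3 h4
    rcases coe_cases e0 with d0 | d0 <;> rcases coe_cases e1 with d1 | d1 <;>
      rcases coe_cases e2 with d2 | d2 <;> rcases c0 with c0 | c0 <;> rcases c1 with c1 | c1 <;>
      rcases c2 with c2 | c2 <;> rw [c0, c1, c2] at h4 <;> rw [d0, d1, d2, c0, c1, c2] <;>
      rcases h4 with h4 | h4 <;> linarith

end Crest.Agent.R38
end

-- ▼ part PVc/R38/QuasiAux
section

set_option autoImplicit false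
set_option linter.unusedSectionVars false
open Finset Module
open scoped BigOperators Matrix

namespace Crest.Agent.R38.QuasiAux

theorem expect_resample {X A : Type} [Fintype X] [Fintype A] [Nonempty A] (U : X → A → X)
    (pr : X → A) (h1 : ∀ x a, U (U x a) (pr x) = x) (h2 : ∀ x a, pr (U x a) = a) (H : X → ℝ) :
    𝔼 x, H x = 𝔼 x, 𝔼 a, H (U x a) := by
  have hinv : Function.Involutive fun p : X × A => (U p.1 p.2, pr p.1) := fun p => by
    simp [h1, h2]
  rw [← Finset.expect_product', Finset.univ_product_univ,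
    Fintype.expect_bijective _ hinv.bijective (fun p : X × A => H (U p.1 p.2)) (fun p => H p.1)
      (fun _ => rfl), ← Finset.univ_product_univ, Finset.expect_product]
  simp

theorem expect_add_right {A : Type} [AddGroup A] [Fintype A] (H : A → ℝ) (c : A) :
    𝔼 a, H (a + c) = 𝔼 a, H a :=
  Fintype.expect_equiv (Equiv.addRight c) _ _ fun _ => rfl

theorem expect_add_left {A : Type} [AddGroup A] [Fintype A] (H : A → ℝ) (c : A) :
    𝔼 a, H (c + a) = 𝔼 a, H a :=
  Fintype.expect_equiv (Equiv.addLeft c) _ _ fun _ => rfl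

theorem expect_sub_right {A : Type} [AddGroup A] [Fintype A] (H : A → ℝ) (c : A) :
    𝔼 a, H (a - c) = 𝔼 a, H a :=
  Fintype.expect_equiv (Equiv.subRight c) _ _ fun _ => rfl

theorem expect_push {A B : Type} [AddGroup A] [AddGroup B] [Fintype A] [Fintype B] (φ : A →+ B)
    (hφ : Function.Surjective φ) (H : B → ℝ) : 𝔼 a, H (φ a) = 𝔼 b, H b := by
  choose s hs using hφ
  calc 𝔼 a, H (φ a) = 𝔼 b : B, 𝔼 a, H (φ (a + s b)) := by
        rw [Finset.expect_congr rfl fun b _ => expect_add_right (fun a => H (φ a)) (s b),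
          Fintype.expect_const]
    _ = 𝔼 a : A, 𝔼 b : B, H (φ a + b) := by
        rw [Finset.expect_comm]; simp only [map_add, hs]
    _ = 𝔼 b, H b := by
        rw [Finset.expect_congr rfl fun a _ => expect_add_left H (φ a), Fintype.expect_const]

variable {F : Type} [Field F] [Fintype F] [DecidableEq F]

/-- the real valued quadratic character -/
noncomputable def ch (a : F) : ℝ := ((quadraticChar F a : ℤ) : ℝ)

theorem abs_ch_le (a : F) : |ch a| ≤ 1 := by
  unfold ch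
  rcases quadraticChar_isQuadratic F a with h | h | h <;> simp [h]

theorem corr (hF : ringChar F ≠ 2) {a b m : F} (hm : m ≠ 0) (hab : a ≠ b) :
    |∑ s : F, ch (a + m * s) * ch (b + m * s)| ≤ 1 := by
  have hd : b - a ≠ 0 := sub_ne_zero.2 hab.symm
  have h1 := jacobiSum_nontrivial_inv (quadraticChar_ne_one hF)
  rw [(quadraticChar_isQuadratic F).inv, jacobiSum] at h1
  have hbij : Function.Bijective fun x : F => (-(b - a) * x - a) / m := by
    refine (Finite.injective_iff_bijective).1 fun x y h => ?_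
    have h' : -(b - a) * x - a = -(b - a) * y - a := by
      field_simp at h; linear_combination h
    exact mul_left_cancel₀ (neg_ne_zero.2 hd) (by linear_combination h')
  rw [← hbij.sum_comp]
  have h2 : ∀ x : F, ch (a + m * ((-(b - a) * x - a) / m)) * ch (b + m * ((-(b - a) * x - a) / m))
      = ch (-1 : F) * (ch x * ch (1 - x)) := by
    intro x
    have e1 : a + m * ((-(b - a) * x - a) / m) = -1 * (b - a) * x := by field_simp; ring
    have e2 : b + m * ((-(b - a) * x - a) / m) = (b - a) * (1 - x) := by field_simp; ring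
    have e3 := quadraticChar_sq_one hd
    rw [e1, e2]
    unfold ch
    simp only [map_mul]
    have e4 : ((quadraticChar F (b - a) : ℤ) : ℝ) ^ 2 = 1 := by exact_mod_cast e3
    push_cast
    linear_combination (((quadraticChar F (-1) : ℤ) : ℝ) * ((quadraticChar F x : ℤ) : ℝ) *
      ((quadraticChar F (1 - x) : ℤ) : ℝ)) * e4
  simp only [h2, ← Finset.mul_sum]
  have h3 : ∑ x : F, ch x * ch (1 - x) = - ch (-1 : F) := by
    unfold ch; exact_mod_cast h1
  rw [h3, abs_mul, abs_neg]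
  exact mul_le_one₀ (abs_ch_le _) (abs_nonneg _) (abs_ch_le _)

theorem card_pos' : (0 : ℝ) < Fintype.card F := by exact_mod_cast Fintype.card_pos

theorem inv_le_inv_sqrt : 1 / (Fintype.card F : ℝ) ≤ 1 / √(Fintype.card F : ℝ) := by
  have h1 : (1 : ℝ) ≤ Fintype.card F := by exact_mod_cast Fintype.card_pos
  have h2 : √(Fintype.card F : ℝ) ≤ Fintype.card F := by
    rw [Real.sqrt_le_iff]; constructor <;> nlinarith
  exact one_div_le_one_div_of_le (Real.sqrt_pos.2 card_pos') h2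

theorem line_bound (hF : ringChar F ≠ 2) {al m : F} (hm : m ≠ 0) (f g : F → ℝ)
    (hf : ∀ x, |f x| ≤ 1) (hg : ∀ x, |g x| ≤ 1) :
    |𝔼 s : F, 𝔼 t : F, f s * g t * ch (al + (s - t) * m)| ≤ 2 / √(Fintype.card F : ℝ) := by
  have hq := card_pos' (F := F)
  set h : F → ℝ := fun s => 𝔼 t : F, g t * ch (al + (s - t) * m) with hh
  have e1 : 𝔼 s : F, 𝔼 t : F, f s * g t * ch (al + (s - t) * m) = 𝔼 s : F, f s * h s := by
    simp only [hh, Finset.mul_expect, mul_assoc]
  have e2 : 𝔼 s : F, f s ^ 2 ≤ 1 := Finset.expect_le univ_nonempty fun s _ => by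
    rw [← sq_abs]; exact pow_le_one₀ (abs_nonneg _) (hf s)
  have e3 : 𝔼 s : F, h s ^ 2 ≤ 2 / Fintype.card F := by
    have e4 : 𝔼 s : F, h s ^ 2 = 𝔼 t : F, 𝔼 t' : F, g t * g t' *
        𝔼 s : F, ch (al - t * m + m * s) * ch (al - t' * m + m * s) := by
      simp only [hh, sq, Finset.expect_mul_expect]
      simp only [Finset.mul_expect]
      rw [Finset.expect_comm]
      refine Finset.expect_congr rfl fun t _ => ?_
      rw [Finset.expect_comm]
      refine Finset.expect_congr rfl fun t' _ => Finset.expect_congr rfl fun s _ => ?_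
      rw [show al + (s - t) * m = al - t * m + m * s by ring,
        show al + (s - t') * m = al - t' * m + m * s by ring]
      ring
    rw [e4]
    refine Finset.expect_le univ_nonempty fun t _ => ?_
    have e5 : ∀ t' : F, g t * g t' * 𝔼 s : F, ch (al - t * m + m * s) * ch (al - t' * m + m * s)
        ≤ (if t = t' then 1 else 0) + 1 / Fintype.card F := by
      intro t'
      refine (le_abs_self _).trans ?_
      rw [abs_mul, abs_mul]
      refine (mul_le_of_le_one_left (abs_nonneg _)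
        (mul_le_one₀ (hg t) (abs_nonneg _) (hg t'))).trans ?_
      split_ifs with htt
      · refine le_trans ?_ (le_add_of_nonneg_right (by positivity))
        refine (Finset.abs_expect_le _ _).trans (Finset.expect_le univ_nonempty fun s _ => ?_)
        rw [abs_mul]
        exact mul_le_one₀ (abs_ch_le _) (abs_nonneg _) (abs_ch_le _)
      · rw [Fintype.expect_eq_sum_div_card, abs_div, abs_of_pos hq, zero_add]
        refine div_le_div_of_nonneg_right (corr hF hm fun h => htt ?_) hq.le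
        exact mul_right_cancel₀ hm (by linear_combination -h)
    refine (Finset.expect_le_expect fun t' _ => e5 t').trans (le_of_eq ?_)
    rw [Finset.expect_add_distrib, Fintype.expect_const, Fintype.expect_eq_sum_div_card]
    simp only [Finset.sum_ite_eq, Finset.mem_univ, if_true]
    ring
  rw [e1]
  have e6 := Finset.expect_mul_sq_le_sq_mul_sq univ f h
  have e7 : 0 ≤ 𝔼 s : F, h s ^ 2 := Finset.expect_nonneg fun _ _ => sq_nonneg _
  refine abs_le_of_sq_le_sq' ?_ (by positivity) |> fun h => abs_le.2 h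
  rw [div_pow, Real.sq_sqrt hq.le]
  have e8 : (2 : ℝ) / Fintype.card F ≤ 2 ^ 2 / Fintype.card F := by gcongr; norm_num
  nlinarith

/-- the matrix unit `E₀₀` -/
def E0 : Sy F 12 := ⟨Matrix.single 0 0 1, by
  rw [mem_Sy]; exact Matrix.transpose_single _ _ _⟩

/-- deleting the first row and column -/
def minor : Sy F 12 →+ Sy F 11 where
  toFun z := ⟨z.1.submatrix Fin.succ Fin.succ, Matrix.IsSymm.submatrix z.2 _⟩
  map_zero' := rfl
  map_add' _ _ := rfl

omit [Fintype F] [DecidableEq F] in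
theorem minor_surj : Function.Surjective (minor (F := F)) := by
  intro w
  refine ⟨⟨Matrix.of fun i j => Fin.cases 0 (fun i' => Fin.cases 0 (fun j' => w.1 i' j') j) i, ?_⟩,
    ?_⟩
  · rw [mem_Sy]
    ext i j
    refine Fin.cases ?_ (fun i' => ?_) i <;> refine Fin.cases ?_ (fun j' => ?_) j <;> simp
    exact (mem_Sy.1 w.2).apply _ _
  · refine Subtype.ext ?_
    ext i j
    simp [minor]

omit [Fintype F] [DecidableEq F] in
theorem det_add_E0 (z : Sy F 12) (u : F) :
    (z + u • E0).1.det = z.1.det + u * (minor z).1.det := by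
  rw [Matrix.det_succ_row_zero, Matrix.det_succ_row_zero z.1]
  have h1 : ∀ j : Fin 12, (z + u • E0).1.submatrix Fin.succ j.succAbove =
      z.1.submatrix Fin.succ j.succAbove := by
    intro j
    ext a b
    simp [E0, (Fin.succ_ne_zero a).symm]
  simp only [h1]
  rw [Fin.sum_univ_succ, Fin.sum_univ_succ (n := 11)]
  have h2 : ∀ j : Fin 11, (z + u • E0).1 0 j.succ = z.1 0 j.succ := by
    intro j
    simp [E0, (Fin.succ_ne_zero j).symm]
  have h3 : (z + u • E0).1 0 0 = z.1 0 0 + u := by simp [E0]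
  simp only [h2, h3]
  simp [minor]
  ring

end Crest.Agent.R38.QuasiAux
end

-- ▼ part PVc/R38/Quasi
section

set_option autoImplicit false
set_option linter.unusedSectionVars false
open Finset Module
open scoped BigOperators Matrix

namespace Crest.Agent.R38

variable {F : Type} [Field F] [Fintype F] [DecidableEq F]

/-- `sig (x - y)` has small cut norm -/
theorem cut_sig (hF : ringChar F ≠ 2) (f g : Sy F 12 → ℝ) (hf : ∀ x, |f x| ≤ 1)
    (hg : ∀ x, |g x| ≤ 1) :
    |𝔼 x : Sy F 12, 𝔼 y : Sy F 12, f x * g y * sig (x - y)| ≤ 13 / √(Fintype.card F : ℝ) := by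
  open QuasiAux in
  have hq := card_pos' (F := F)
  have e1 : 𝔼 x : Sy F 12, 𝔼 y : Sy F 12, f x * g y * sig (x - y) =
      𝔼 x : Sy F 12, 𝔼 y : Sy F 12, 𝔼 s : F, 𝔼 t : F,
        f (x + s • E0) * g (y + t • E0) * sig (x + s • E0 - (y + t • E0)) := by
    symm
    calc _ = 𝔼 s : F, 𝔼 t : F, 𝔼 x : Sy F 12, 𝔼 y : Sy F 12,
          f (x + s • E0) * g (y + t • E0) * sig (x + s • E0 - (y + t • E0)) := by
          rw [Finset.expect_congr rfl fun x _ => Finset.expect_comm _ _ _, Finset.expect_comm]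
          refine Finset.expect_congr rfl fun s _ => ?_
          rw [Finset.expect_congr rfl fun x _ => Finset.expect_comm _ _ _, Finset.expect_comm]
      _ = 𝔼 _s : F, 𝔼 _t : F, 𝔼 x : Sy F 12, 𝔼 y : Sy F 12, f x * g y * sig (x - y) := by
          refine Finset.expect_congr rfl fun s _ => Finset.expect_congr rfl fun t _ => ?_
          rw [expect_add_right (fun x => 𝔼 y : Sy F 12, f x * g (y + t • E0) *
            sig (x - (y + t • E0))) (s • E0)]
          exact Finset.expect_congr rfl fun x _ =>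
            expect_add_right (fun y => f x * g y * sig (x - y)) (t • E0)
      _ = _ := by rw [Fintype.expect_const, Fintype.expect_const]
  have e2 : ∀ x y : Sy F 12, |𝔼 s : F, 𝔼 t : F,
      f (x + s • E0) * g (y + t • E0) * sig (x + s • E0 - (y + t • E0))| ≤
      (if (minor (x - y)).1.det = 0 then 1 else 0) + 2 / √(Fintype.card F : ℝ) := by
    intro x y
    split_ifs with h
    · refine le_trans ?_ (le_add_of_nonneg_right (by positivity))
      refine (Finset.abs_expect_le _ _).trans (Finset.expect_le univ_nonempty fun s _ => ?_)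
      refine (Finset.abs_expect_le _ _).trans (Finset.expect_le univ_nonempty fun t _ => ?_)
      rw [abs_mul, abs_mul]
      exact mul_le_one₀ (mul_le_one₀ (hf _) (abs_nonneg _) (hg _)) (abs_nonneg _) (abs_sig_le _)
    · have := line_bound hF (al := (x - y).1.det) h (fun s => f (x + s • E0))
        (fun t => g (y + t • E0)) (fun _ => hf _) (fun _ => hg _)
      rw [zero_add]
      convert this using 6 with s _ t
      have e : x + s • E0 - (y + t • E0) = x - y + (s - t) • (E0 : Sy F 12) := by module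
      rw [← det_add_E0, e]
      rfl
  have e3 : ∀ y : Sy F 12, 𝔼 x : Sy F 12, (if (minor (x - y)).1.det = 0 then (1 : ℝ) else 0) ≤
      11 / √(Fintype.card F : ℝ) := by
    intro y
    rw [expect_sub_right (fun z => if (minor z).1.det = 0 then (1 : ℝ) else 0),
      expect_push minor minor_surj (fun w => if w.1.det = 0 then (1 : ℝ) else 0)]
    refine expect_sing.trans ?_
    have := inv_le_inv_sqrt (F := F)
    rw [div_eq_mul_one_div, div_eq_mul_one_div 11]
    push_cast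
    gcongr
  rw [e1, Finset.expect_comm]
  refine (Finset.abs_expect_le _ _).trans (Finset.expect_le univ_nonempty fun y _ => ?_)
  refine (Finset.abs_expect_le _ _).trans
    ((Finset.expect_le_expect fun x _ => e2 x y).trans ?_)
  rw [Finset.expect_add_distrib, Fintype.expect_const]
  have := e3 y
  have e4 : 13 / √(Fintype.card F : ℝ) = 11 / √(Fintype.card F : ℝ) + 2 / √(Fintype.card F : ℝ) := by
    ring
  linarith

namespace QuasiAux

/-- sign of an edge -/
noncomputable def se (x : Fin 8 → Y F) (e : Fin 18) : ℝ := sig' (x (edge e).1) (x (edge e).2)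

theorem sg_sq (b : Bool) : sg b ^ 2 = 1 := by cases b <;> simp [sg]

theorem abs_sg (b : Bool) : |sg b| = 1 := by cases b <;> simp [sg]

theorem sig'_sq (a b : Y F) : sig' a b ^ 2 = if cr (a.1 - b.1) = 0 then 1 else 0 := by
  unfold sig'
  rw [mul_pow, mul_pow, sg_sq, sg_sq, sig_sq, mul_one, mul_one]

theorem abs_sig'_le (a b : Y F) : |sig' a b| ≤ 1 := by
  unfold sig'
  rw [abs_mul, abs_mul, abs_sg, abs_sg, mul_one, mul_one]
  exact abs_sig_le _

theorem sig'_even (a b : Y F) {c : ℕ} (hc : Even c) : sig' a b ^ (2 + c) = sig' a b ^ 2 := by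
  obtain ⟨k, rfl⟩ := hc
  rw [← two_mul, pow_add, pow_mul, sig'_sq]
  split_ifs <;> simp

theorem sig'_odd (a b : Y F) {c : ℕ} (hc : Odd c) : sig' a b ^ (2 + c) = sig' a b := by
  obtain ⟨k, rfl⟩ := hc
  have h := sig'_sq a b
  rw [← add_assoc, pow_succ, sig'_even a b (even_two_mul k), h]
  split_ifs with h'
  · rw [one_mul]
  · rw [if_neg h'] at h
    rw [pow_eq_zero_iff two_ne_zero] at h
    rw [h, mul_zero]

theorem prod_se_sq (x : Fin 8 → Y F) : ∏ e, se x e ^ 2 =
    if ∀ e, cr ((x (edge e).1).1 - (x (edge e).2).1) = 0 then 1 else 0 := by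
  simp only [se, sig'_sq]
  rw [Finset.prod_boole]
  simp

/-- number of marked corners opposite to an edge -/
def ce (S : Fin 12 → Fin 3 → Bool) (e : Fin 18) : ℕ :=
  ∑ c ∈ {c : Fin 12 × Fin 3 | side c.1 c.2 = e}, nb (S c.1 c.2)

/-- coefficient of a marking -/
noncomputable def coef (η : Fin 12 → Fin 3 → SignType) (S : Fin 12 → Fin 3 → Bool) : ℝ :=
  ∏ f, ∏ i, (η f i : ℝ) ^ (nb (S f (i + 1)) + nb (S f (i + 2)))

theorem abs_coef_le (η : Fin 12 → Fin 3 → SignType) (S : Fin 12 → Fin 3 → Bool) :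
    |coef η S| ≤ 1 := by
  unfold coef
  simp only [Finset.abs_prod, abs_pow]
  refine Finset.prod_le_one (fun _ _ => by positivity) fun f _ =>
    Finset.prod_le_one (fun _ _ => by positivity) fun i _ => pow_le_one₀ (abs_nonneg _) ?_
  rcases η f i <;> simp

theorem prod_Ginf (η : Fin 12 → Fin 3 → SignType) (s : Fin 18 → ℝ) :
    ∏ f, Ginf (η f) (fun i => s (side f i)) =
      ∑ S : Fin 12 → Fin 3 → Bool, coef η S * ∏ e, s e ^ ce S e := by
  unfold Ginf
  rw [Finset.prod_univ_sum, Fintype.piFinset_univ]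
  refine Finset.sum_congr rfl fun S _ => ?_
  rw [Finset.prod_mul_distrib, mul_comm]
  congr 1
  rw [← Finset.prod_product', Finset.univ_product_univ,
    ← Finset.prod_fiberwise univ (fun c : Fin 12 × Fin 3 => side c.1 c.2)]
  refine Finset.prod_congr rfl fun e _ => ?_
  unfold ce
  rw [← Finset.prod_pow_eq_pow_sum]
  refine Finset.prod_congr rfl fun c hc => ?_
  beta_reduce
  rw [(Finset.mem_filter.1 hc).2]

theorem sum_even (η : Fin 12 → Fin 3 → SignType) :
    ∑ S : Fin 12 → Fin 3 → Bool, (if ∀ e, Even (ce S e) then coef η S else 0) = Tinf η := by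
  rw [← Finset.sum_filter]
  have h2 : ∀ e, ∃ c₁ c₂ : Fin 12 × Fin 3, c₁ ≠ c₂ ∧
      ({c : Fin 12 × Fin 3 | side c.1 c.2 = e} : Finset _) = {c₁, c₂} := fun e =>
    Finset.card_eq_two.1 (card_side e)
  choose c₁ c₂ hne hc using h2
  have hc₁ : ∀ e, side (c₁ e).1 (c₁ e).2 = e := fun e => by
    have : c₁ e ∈ ({c : Fin 12 × Fin 3 | side c.1 c.2 = e} : Finset _) := by rw [hc]; simp
    simpa using this
  have hc₂ : ∀ e, side (c₂ e).1 (c₂ e).2 = e := fun e => by
    have : c₂ e ∈ ({c : Fin 12 × Fin 3 | side c.1 c.2 = e} : Finset _) := by rw [hc]; simp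
    simpa using this
  have hce : ∀ S e, ce S e = nb (S (c₁ e).1 (c₁ e).2) + nb (S (c₂ e).1 (c₂ e).2) := fun S e => by
    unfold ce; rw [hc, Finset.sum_pair (hne e)]
  symm
  refine Finset.sum_nbij' (fun S' f i => S' (side f i)) (fun S e => S (c₁ e).1 (c₁ e).2)
    ?_ (fun _ _ => Finset.mem_univ _) ?_ ?_ (fun _ _ => rfl)
  · intro S' _
    rw [Finset.mem_filter]
    refine ⟨Finset.mem_univ _, fun e => ?_⟩
    rw [hce, hc₁, hc₂]
    exact Even.add_self _
  · intro S' _
    funext e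
    beta_reduce
    rw [hc₁]
  · intro S hS
    funext f i
    have h1 := (Finset.mem_filter.1 hS).2 (side f i)
    rw [hce] at h1
    have h3 : (f, i) ∈ ({c : Fin 12 × Fin 3 | side c.1 c.2 = side f i} : Finset _) := by simp
    rw [hc, Finset.mem_insert, Finset.mem_singleton] at h3
    beta_reduce
    rcases h3 with h3 | h3
    · rw [← h3]
    · rw [← h3] at h1
      revert h1
      generalize S (c₁ (side f i)).1 (c₁ (side f i)).2 = a
      generalize S f i = b
      cases a <;> cases b <;> simp [nb]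

/-- change the matrix at one vertex -/
def upd (u : Fin 8) (x : Fin 8 → Y F) (a : Sy F 12) : Fin 8 → Y F :=
  Function.update x u (a, (x u).2)

theorem expect_upd (u : Fin 8) (H : (Fin 8 → Y F) → ℝ) :
    𝔼 x, H x = 𝔼 x, 𝔼 a, H (upd u x a) :=
  expect_resample (upd u) (fun x => (x u).1) (fun x a => by simp [upd]) (fun x a => by simp [upd]) H

theorem edge_touch : ∀ e e₀ : Fin 18, e ≠ e₀ →
    ((edge e).1 = (edge e₀).1 ∨ (edge e).2 = (edge e₀).1) →
    (edge e).1 ≠ (edge e₀).2 ∧ (edge e).2 ≠ (edge e₀).2 := by decide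

theorem odd_bound (hF : ringChar F ≠ 2) (k : Fin 18 → ℕ) (e₀ : Fin 18) (h : Odd (k e₀)) :
    |𝔼 x : Fin 8 → Y F, ∏ e, se x e ^ (2 + k e)| ≤ 13 / √(Fintype.card F : ℝ) := by
  have huv : (edge e₀).1 ≠ (edge e₀).2 := (edge_lt e₀).ne
  rw [expect_upd (edge e₀).2, expect_upd (edge e₀).1]
  refine (Finset.abs_expect_le _ _).trans (Finset.expect_le univ_nonempty fun x _ => ?_)
  let p : Fin 18 → Prop := fun e => (edge e).1 = (edge e₀).1 ∨ (edge e).2 = (edge e₀).1
  have hb : ∀ (T : Finset (Fin 18)) (y : Fin 8 → Y F), |∏ e ∈ T, se y e ^ (2 + k e)| ≤ 1 := by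
    intro T y
    simp only [Finset.abs_prod, abs_pow]
    exact Finset.prod_le_one (fun _ _ => by positivity) fun e _ =>
      pow_le_one₀ (abs_nonneg _) (abs_sig'_le _ _)
  have := cut_sig hF
    (fun a => sg (x (edge e₀).1).2 * ∏ e ∈ (univ.erase e₀).filter p,
      se (upd (edge e₀).1 x a) e ^ (2 + k e))
    (fun b => sg (x (edge e₀).2).2 * ∏ e ∈ (univ.erase e₀).filter (fun e => ¬ p e),
      se (upd (edge e₀).2 x b) e ^ (2 + k e))
    (fun a => by rw [abs_mul, abs_sg, one_mul]; exact hb _ _)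
    (fun a => by rw [abs_mul, abs_sg, one_mul]; exact hb _ _)
  refine le_trans (le_of_eq ?_) this
  congr 1
  refine Finset.expect_congr rfl fun a _ => Finset.expect_congr rfl fun b _ => ?_
  rw [← Finset.mul_prod_erase univ _ (Finset.mem_univ e₀),
    ← Finset.prod_filter_mul_prod_filter_not (univ.erase e₀) p]
  have e1 : se (upd (edge e₀).2 (upd (edge e₀).1 x a) b) e₀ ^ (2 + k e₀) =
      sig (a - b) * sg (x (edge e₀).1).2 * sg (x (edge e₀).2).2 := by
    unfold se
    rw [sig'_odd _ _ h]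
    simp [sig', upd, Function.update_of_ne huv, Function.update_of_ne huv.symm]
  have e2 : ∏ e ∈ (univ.erase e₀).filter p,
      se (upd (edge e₀).2 (upd (edge e₀).1 x a) b) e ^ (2 + k e) =
      ∏ e ∈ (univ.erase e₀).filter p, se (upd (edge e₀).1 x a) e ^ (2 + k e) := by
    refine Finset.prod_congr rfl fun e he => ?_
    rw [Finset.mem_filter] at he
    obtain ⟨h1, h2⟩ := edge_touch e e₀ (Finset.ne_of_mem_erase he.1) he.2
    unfold se
    rw [upd, Function.update_of_ne h1, Function.update_of_ne h2]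
  have e3 : ∏ e ∈ (univ.erase e₀).filter (fun e => ¬ p e),
      se (upd (edge e₀).2 (upd (edge e₀).1 x a) b) e ^ (2 + k e) =
      ∏ e ∈ (univ.erase e₀).filter (fun e => ¬ p e), se (upd (edge e₀).2 x b) e ^ (2 + k e) := by
    refine Finset.prod_congr rfl fun e he => ?_
    rw [Finset.mem_filter] at he
    have hw : ∀ w, w ≠ (edge e₀).1 →
        upd (edge e₀).2 (upd (edge e₀).1 x a) b w = upd (edge e₀).2 x b w := by
      intro w hw
      by_cases hwv : w = (edge e₀).2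
      · subst hwv
        simp [upd, Function.update_of_ne hw]
      · simp [upd, Function.update_of_ne hw, Function.update_of_ne hwv]
    unfold se
    rw [hw _ fun h => he.2 (Or.inl h), hw _ fun h => he.2 (Or.inr h)]
  rw [e1, e2, e3]
  ring

theorem generic_ge : 1 - 216 / √(Fintype.card F : ℝ) ≤ 𝔼 x : Fin 8 → Y F, ∏ e, se x e ^ 2 := by
  have h1 : ∀ e : Fin 18, 𝔼 x : Fin 8 → Y F,
      (if ((x (edge e).1).1 - (x (edge e).2).1).1.det = 0 then (1 : ℝ) else 0) ≤
        12 / √(Fintype.card F : ℝ) := by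
    intro e
    have huv : (edge e).1 ≠ (edge e).2 := (edge_lt e).ne
    rw [expect_upd (edge e).1]
    refine Finset.expect_le univ_nonempty fun x _ => ?_
    simp only [upd, Function.update_self, Function.update_of_ne huv.symm]
    rw [expect_sub_right (fun z : Sy F 12 => if z.1.det = 0 then (1 : ℝ) else 0)]
    refine expect_sing.trans ?_
    have := inv_le_inv_sqrt (F := F)
    rw [div_eq_mul_one_div, div_eq_mul_one_div 12]
    push_cast
    gcongr
  have h2 : ∀ x : Fin 8 → Y F, 1 - ∑ e : Fin 18,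
      (if ((x (edge e).1).1 - (x (edge e).2).1).1.det = 0 then (1 : ℝ) else 0) ≤
        ∏ e, se x e ^ 2 := by
    intro x
    rw [prod_se_sq]
    split_ifs with h
    · exact sub_le_self _ (Finset.sum_nonneg fun _ _ => by positivity)
    · obtain ⟨e, he⟩ := not_forall.1 h
      rw [cr_eq_zero_iff, not_not] at he
      have := Finset.single_le_sum (f := fun e : Fin 18 =>
        if ((x (edge e).1).1 - (x (edge e).2).1).1.det = 0 then (1 : ℝ) else 0)
        (fun _ _ => by positivity) (Finset.mem_univ e)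
      rw [if_pos he] at this
      linarith
  refine le_trans ?_ (Finset.expect_le_expect fun x _ => h2 x)
  rw [Finset.expect_sub_distrib, Fintype.expect_const, Finset.expect_sum_comm]
  have h3 := Finset.sum_le_sum fun e (_ : e ∈ univ) => h1 e
  rw [Finset.sum_const, Finset.card_univ, Fintype.card_fin, nsmul_eq_mul] at h3
  have e4 : 216 / √(Fintype.card F : ℝ) = (18 : ℕ) * (12 / √(Fintype.card F : ℝ)) := by
    push_cast; ring
  linarith

theorem generic_le : 𝔼 x : Fin 8 → Y F, ∏ e, se x e ^ 2 ≤ 1 :=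
  Finset.expect_le univ_nonempty fun x _ => by rw [prod_se_sq]; split_ifs <;> simp

end QuasiAux

/-- the generic part of the one-coordinate density -/
theorem gen_part (hF : ringChar F ≠ 2) (η : Fin 12 → Fin 3 → SignType) :
    𝔼 x : Fin 8 → Y F, (if ∀ e, cr ((x (edge e).1).1 - (x (edge e).2).1) = 0 then
        ∏ f, Ginf (η f) (fun i => sig' (x (edge (side f i)).1) (x (edge (side f i)).2)) else 0) ≤
      Tinf η + 8 ^ 12 * 216 / √(Fintype.card F : ℝ) := by
  open QuasiAux in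
  have hq := card_pos' (F := F)
  have e1 : ∀ x : Fin 8 → Y F, (if ∀ e, cr ((x (edge e).1).1 - (x (edge e).2).1) = 0 then
        ∏ f, Ginf (η f) (fun i => sig' (x (edge (side f i)).1) (x (edge (side f i)).2)) else 0) =
      ∑ S : Fin 12 → Fin 3 → Bool, coef η S * ∏ e, se x e ^ (2 + ce S e) := by
    intro x
    have h1 := prod_Ginf η (se x)
    simp only [pow_add, Finset.prod_mul_distrib, prod_se_sq]
    split_ifs with h
    · simp only [one_mul]; exact h1
    · simp
  have e2 : ∀ S : Fin 12 → Fin 3 → Bool,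
      𝔼 x : Fin 8 → Y F, coef η S * ∏ e, se x e ^ (2 + ce S e) ≤
        (if ∀ e, Even (ce S e) then coef η S else 0) + 216 / √(Fintype.card F : ℝ) := by
    intro S
    rw [← Finset.mul_expect]
    have hc := abs_le.1 (abs_coef_le η S)
    split_ifs with h
    · have h1 : ∀ x : Fin 8 → Y F, ∏ e, se x e ^ (2 + ce S e) = ∏ e, se x e ^ 2 := fun x =>
        Finset.prod_congr rfl fun e _ => sig'_even _ _ (h e)
      simp only [h1]
      have h2 := generic_ge (F := F)
      have h3 := generic_le (F := F)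
      nlinarith [mul_nonneg (sub_nonneg.2 h3) (show 0 ≤ coef η S + 1 by linarith)]
    · obtain ⟨e, he⟩ := not_forall.1 h
      have h1 := odd_bound hF (ce S) e (Nat.not_even_iff_odd.1 he)
      refine (le_abs_self _).trans ?_
      rw [abs_mul, zero_add]
      refine (mul_le_of_le_one_left (abs_nonneg _) (abs_coef_le η S)).trans (h1.trans ?_)
      gcongr; norm_num
  simp only [e1]
  rw [Finset.expect_sum_comm]
  refine (Finset.sum_le_sum fun S _ => e2 S).trans (le_of_eq ?_)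
  rw [Finset.sum_add_distrib, sum_even, Finset.sum_const, Finset.card_univ, nsmul_eq_mul,
    Fintype.card_fun, Fintype.card_fun, Fintype.card_bool, Fintype.card_fin, Fintype.card_fin]
  push_cast
  ring

end Crest.Agent.R38
end

-- ▼ part PVc/R38/Graph
section

set_option autoImplicit false
set_option linter.unusedSectionVars false
open Finset Module
open scoped BigOperators Matrix

namespace Crest.Agent.R38

namespace GraphAux

section random
variable {P : Type} [Fintype P] [DecidableEq P]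

/-- product weight of a random subset -/
def wt (w : P → ℝ) (g : P → Bool) : ℝ := ∏ p, if g p then w p else 1 - w p

/-- indicator -/
def ind (b : Bool) : ℝ := if b then 1 else 0

theorem ind_nonneg (b : Bool) : 0 ≤ ind b := by cases b <;> simp [ind]

theorem wt_nonneg {w : P → ℝ} (h0 : ∀ p, 0 ≤ w p) (h1 : ∀ p, w p ≤ 1) (g : P → Bool) :
    0 ≤ wt w g := prod_nonneg fun p _ => by
  split_ifs
  · exact h0 p
  · linarith [h1 p]

theorem sum_wt_prod (w : P → ℝ) (T : Finset P) :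
    ∑ g : P → Bool, wt w g * ∏ p ∈ T, ind (g p) = ∏ p ∈ T, w p := by
  have h := prod_univ_sum (fun _ : P => (univ : Finset Bool))
    (fun p b => (if b then w p else 1 - w p) * if p ∈ T then ind b else 1)
  rw [Fintype.piFinset_univ] at h
  calc _ = ∑ g : P → Bool, ∏ p, (if g p then w p else 1 - w p) * if p ∈ T then ind (g p) else 1 :=
        sum_congr rfl fun g _ => by rw [prod_mul_distrib, Fintype.prod_ite_mem, wt]
    _ = ∏ p, if p ∈ T then w p else 1 := by
        rw [← h]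
        refine prod_congr rfl fun p _ => ?_
        by_cases hp : p ∈ T <;> simp [hp, ind]
    _ = _ := Fintype.prod_ite_mem _ _

theorem sum_wt (w : P → ℝ) : ∑ g : P → Bool, wt w g = 1 := by
  simpa using sum_wt_prod w ∅

theorem sum_wt_ind (w : P → ℝ) (p : P) : ∑ g : P → Bool, wt w g * ind (g p) = w p := by
  simpa using sum_wt_prod w {p}

theorem sum_wt_inj {ι : Type} [Fintype ι] (w : P → ℝ) {e : ι → P} (he : Function.Injective e) :
    ∑ g : P → Bool, wt w g * ∏ c, ind (g (e c)) = ∏ c, w (e c) := by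
  have := sum_wt_prod w (univ.map ⟨e, he⟩)
  simpa using this

end random

section count
variable {K V : Type} [Fintype K] [DecidableEq K] [Fintype V] [DecidableEq V]

theorem card_eq_mul_le {i j : K} (h : i ≠ j) :
    #{φ : K → V | φ i = φ j} * Fintype.card V ≤ Fintype.card V ^ Fintype.card K := by
  have := card_le_card_of_injOn (s := ({φ : K → V | φ i = φ j} : Finset _) ×ˢ (univ : Finset V))
    (t := (univ : Finset (K → V))) (fun q => Function.update q.1 i q.2) (fun _ _ => by simp) (by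
      rintro ⟨φ, v⟩ h1 ⟨φ', v'⟩ h2 e
      simp only [coe_product, coe_filter, mem_univ, true_and, Set.mem_prod,
        Set.mem_ofPred_eq] at h1 h2
      have e1 : ∀ k, k ≠ i → φ k = φ' k := fun k hk => by simpa [hk] using congrFun e k
      refine Prod.ext (funext fun k => ?_) (by simpa using congrFun e i)
      by_cases hk : k = i
      · subst hk
        exact h1.1.trans ((e1 j h.symm).trans h2.1.symm)
      · exact e1 k hk)
  simpa using this

open Classical in
theorem card_noninj : #{φ : K → V | ¬ Function.Injective φ} * Fintype.card V ≤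
    Fintype.card K ^ 2 * Fintype.card V ^ Fintype.card K := by
  have h : ({φ : K → V | ¬ Function.Injective φ} : Finset _) ⊆
      (univ : Finset K).offDiag.biUnion fun q => {φ : K → V | φ q.1 = φ q.2} := by
    intro φ hφ
    simp only [Function.Injective, mem_filter, mem_univ, true_and, not_forall] at hφ
    obtain ⟨i, j, h1, h2⟩ := hφ
    exact mem_biUnion.2 ⟨(i, j), by simpa using h2, by simpa using h1⟩
  refine (Nat.mul_le_mul_right _ ((card_le_card h).trans card_biUnion_le)).trans ?_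
  rw [sum_mul]
  refine (sum_le_card_nsmul _ _ _ fun q hq => card_eq_mul_le (mem_offDiag.1 hq).2.2).trans ?_
  rw [smul_eq_mul, offDiag_card, card_univ, sq]
  exact Nat.mul_le_mul_right _ (Nat.sub_le _ _)

/-- the graph of a set of pairs -/
def rg (g : Sym2 V → Bool) : SimpleGraph V := SimpleGraph.fromEdgeSet {p | g p = true}

theorem two_mul_card_edges (g : Sym2 V → Bool) :
    (2 * Nat.card (rg g).edgeSet : ℝ) = ∑ q ∈ (univ : Finset V).offDiag, ind (g s(q.1, q.2)) := by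
  classical
  have h := (rg g).two_mul_card_edgeFinset
  rw [SimpleGraph.edgeFinset_card, ← Nat.card_eq_fintype_card] at h
  have h2 := congrArg (Nat.cast : ℕ → ℝ) h
  rw [Nat.cast_mul, Nat.cast_ofNat] at h2
  rw [h2]
  simp only [ind, sum_boole]
  congr 2
  ext ⟨u, v⟩
  simp [rg, and_comm]

open Classical in
/-- The random graph. -/
theorem exists_graph {ι : Type} [Fintype ι] [Nonempty V] {E : ι → Sym2 K}
    (hE : Function.Injective E) (w : Sym2 V → ℝ) (h0 : ∀ p, 0 ≤ w p) (h1 : ∀ p, w p ≤ 1) {t b : ℝ}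
    (ht : 𝔼 φ : K → V, ∏ c, w ((E c).map φ) = t) (hb : 𝔼 u, 𝔼 v, w s(u, v) = b)
    (hpos : 0 ≤ b - 1 / Fintype.card V)
    (h : t + Fintype.card K ^ 2 / Fintype.card V < (b - 1 / Fintype.card V) ^ Fintype.card ι) :
    ∃ G : SimpleGraph V, (#{φ : K → V | ∀ c, (E c).map φ ∈ G.edgeSet} : ℝ) /
      Fintype.card V ^ Fintype.card K <
        ((2 * Nat.card G.edgeSet : ℝ) / Fintype.card V ^ 2) ^ Fintype.card ι := by
  set N : ℝ := (Fintype.card V : ℝ) with hN
  have hN0 : 0 < N := by rw [hN]; exact_mod_cast Fintype.card_pos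
  by_contra hc
  push Not at hc
  have hw := wt_nonneg h0 h1
  have a1 : ∑ g, wt w g * ((2 * Nat.card (rg g).edgeSet : ℝ) / N ^ 2) ^ Fintype.card ι ≤
      ∑ g, wt w g * ((#{φ : K → V | ∀ c, (E c).map φ ∈ (rg g).edgeSet} : ℝ) /
        N ^ Fintype.card K) := sum_le_sum fun g _ => mul_le_mul_of_nonneg_left (hc _) (hw g)
  have a2 := Real.pow_arith_mean_le_arith_mean_pow univ (wt w)
    (fun g => (2 * Nat.card (rg g).edgeSet : ℝ) / N ^ 2) (fun g _ => hw g) (sum_wt w)
    (fun g _ => by positivity) (Fintype.card ι)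
  have a3 : b - 1 / N ≤ ∑ g, wt w g * ((2 * Nat.card (rg g).edgeSet : ℝ) / N ^ 2) := by
    simp only [two_mul_card_edges, ← mul_div_assoc, ← sum_div, mul_sum]
    rw [sum_comm]
    simp only [sum_wt_ind]
    have b1 : ∑ q ∈ (univ : Finset V) ×ˢ (univ : Finset V), w s(q.1, q.2) = b * N ^ 2 := by
      rw [← hb, ← expect_product' (f := fun u v => w s(u, v)), expect_eq_sum_div_card,
        card_product, card_univ]
      push_cast
      rw [← hN]
      field_simp
    rw [← diag_union_offDiag, sum_union (disjoint_diag_offDiag _)] at b1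
    have b2 : ∑ q ∈ (univ : Finset V).diag, w s(q.1, q.2) ≤ N := by
      simpa [hN] using sum_le_card_nsmul (univ : Finset V).diag _ 1 fun q _ => h1 s(q.1, q.2)
    rw [le_div_iff₀ (by positivity)]
    have : (b - 1 / N) * N ^ 2 = b * N ^ 2 - N := by field_simp
    linarith
  have a4 : ∀ g, (#{φ : K → V | ∀ c, (E c).map φ ∈ (rg g).edgeSet} : ℝ) ≤
      ∑ φ : K → V with Function.Injective φ, ∏ c, ind (g ((E c).map φ)) +
        #{φ : K → V | ¬ Function.Injective φ} := fun g => by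
    rw [← sum_boole, ← sum_boole, sum_filter, ← sum_add_distrib]
    refine sum_le_sum fun φ _ => ?_
    have : 0 ≤ ∏ c, ind (g ((E c).map φ)) := prod_nonneg fun c _ => ind_nonneg _
    by_cases hφ : Function.Injective φ
    · simp only [hφ, if_true, not_true, if_false, add_zero]
      split_ifs with h2
      · refine (prod_eq_one fun c _ => ?_).ge
        have := h2 c
        simp only [rg, SimpleGraph.edgeSet_fromEdgeSet, Set.mem_sdiff, Set.mem_ofPred_eq] at this
        simp [ind, this.1]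
      · exact this
    · simp only [hφ, if_false, not_false_iff, if_true, zero_add]
      split_ifs <;> norm_num
  have a5 : ∑ g, wt w g * ((#{φ : K → V | ∀ c, (E c).map φ ∈ (rg g).edgeSet} : ℝ) /
        N ^ Fintype.card K) ≤ t + Fintype.card K ^ 2 / N := by
    simp only [← mul_div_assoc, ← sum_div]
    rw [div_le_iff₀ (by positivity)]
    refine (sum_le_sum fun g _ => mul_le_mul_of_nonneg_left (a4 g) (hw g)).trans ?_
    simp only [mul_add, sum_add_distrib, ← sum_mul, sum_wt, one_mul, mul_sum]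
    rw [sum_comm, add_mul]
    refine add_le_add ?_ ?_
    · rw [← ht, expect_eq_sum_div_card, card_univ, Fintype.card_fun]
      push_cast
      rw [← hN, div_mul_cancel₀ _ (by positivity)]
      calc _ = ∑ φ : K → V with Function.Injective φ, ∏ c, w ((E c).map φ) :=
            sum_congr rfl fun φ hφ => sum_wt_inj w ((Sym2.map.injective (mem_filter.1 hφ).2).comp hE)
        _ ≤ _ := sum_le_sum_of_subset_of_nonneg (filter_subset _ _)
            fun φ _ _ => prod_nonneg fun c _ => h0 _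
    · rw [div_mul_eq_mul_div, le_div_iff₀ hN0, hN]
      exact_mod_cast card_noninj
  have a6 := pow_le_pow_left₀ hpos a3 (Fintype.card ι)
  linarith

end count

theorem expect_fst {K Ω Z V : Type} [Fintype K] [DecidableEq K] [Fintype Ω] [Fintype Z]
    [Nonempty Z] [Fintype V] (e : V ≃ Ω × Z) (F : (K → Ω) → ℝ) :
    𝔼 φ : K → V, F (fun k => (e (φ k)).1) = 𝔼 x : K → Ω, F x := by
  rw [Fintype.expect_equiv ((Equiv.arrowCongr (Equiv.refl K) e).trans
    (Equiv.arrowProdEquivProdArrow K (fun _ => Ω) fun _ => Z))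
    (fun φ => F fun k => (e (φ k)).1) (fun q => F q.1) fun φ => rfl,
    ← univ_product_univ, expect_product]
  simp only [Fintype.expect_const]

theorem expect_fst' {Ω Z V : Type} [Fintype Ω] [Fintype Z] [Nonempty Z] [Fintype V]
    (e : V ≃ Ω × Z) (F : Ω → ℝ) : 𝔼 v : V, F (e v).1 = 𝔼 x : Ω, F x := by
  rw [Fintype.expect_equiv e _ (fun q => F q.1) fun φ => rfl, ← univ_product_univ, expect_product]
  simp only [Fintype.expect_const]

/-- the edges of the incidence graph -/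
def ed (c : Fin 12 × Fin 3) : Sym2 (Fin (8 + 12)) :=
  s(Fin.castAdd 12 (face c.1 c.2), Fin.natAdd 8 c.1)

theorem cast_ne (a : Fin 8) (b : Fin 12) : Fin.castAdd 12 a ≠ Fin.natAdd 8 b := fun h => by
  have := congrArg Fin.val h
  simp at this
  omega

theorem ed_inj : Function.Injective ed := by
  rintro ⟨f, i⟩ ⟨f', i'⟩ h
  rcases Sym2.eq_iff.1 h with ⟨h1, h2⟩ | ⟨h1, _⟩
  · obtain rfl : f = f' := Fin.ext (by simpa using congrArg Fin.val h2)
    obtain rfl : i = i' := face_injective f (Fin.ext (by simpa using congrArg Fin.val h1))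
    rfl
  · exact absurd h1 (cast_ne _ _)

/-- the incidence graph -/
def HH : SimpleGraph (Fin (8 + 12)) := SimpleGraph.fromEdgeSet (Set.range ed)

theorem edgeSet_HH : HH.edgeSet = Set.range ed := by
  rw [HH, SimpleGraph.edgeSet_fromEdgeSet, sdiff_eq_left, Set.disjoint_left]
  rintro _ ⟨c, rfl⟩ h
  exact cast_ne _ _ (by simpa [ed] using h)

theorem card_HH : Nat.card HH.edgeSet = 36 := by
  rw [edgeSet_HH, Nat.card_range_of_injective ed_inj]; simp

theorem colorable_HH : HH.Colorable 2 := by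
  refine ⟨SimpleGraph.Coloring.mk (fun v => if v.val < 8 then 0 else 1) fun {u v} h => ?_⟩
  rw [← SimpleGraph.mem_edgeSet, edgeSet_HH] at h
  obtain ⟨c, h⟩ := h
  rcases Sym2.eq_iff.1 h with ⟨rfl, rfl⟩ | ⟨rfl, rfl⟩ <;> simp

open Classical in
theorem card_hom_le {V : Type} [Fintype V] [DecidableEq V] (G : SimpleGraph V) :
    Nat.card (HH →g G) ≤ #{φ : Fin (8 + 12) → V | ∀ c, (ed c).map φ ∈ G.edgeSet} := by
  rw [← Fintype.card_coe, ← Nat.card_eq_fintype_card]
  refine Nat.card_le_card_of_injective (fun f => ⟨f, ?_⟩) fun f f' h => ?_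
  · simp only [mem_filter, mem_univ, true_and]
    exact fun c => f.map_mem_edgeSet (edgeSet_HH ▸ ⟨c, rfl⟩)
  · exact DFunLike.coe_injective (congrArg Subtype.val h)

theorem exists_n {t a : ℝ} (c : ℕ) (hc : 0 < c) (ha : 0 < a) (ht : t < a ^ 36) :
    ∃ n : ℕ, 0 < n ∧ 0 ≤ a - 1 / (c * n : ℕ) ∧
      t + 20 ^ 2 / (c * n : ℕ) < (a - 1 / (c * n : ℕ)) ^ 36 := by
  have h0 : Filter.Tendsto (fun n : ℕ => ((c * n : ℕ) : ℝ)) Filter.atTop Filter.atTop :=
    tendsto_natCast_atTop_atTop.comp (Filter.tendsto_id.const_mul_atTop' hc)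
  have h1 := fun x : ℝ => Filter.Tendsto.div_atTop (tendsto_const_nhds (x := x)) h0
  have h2 := (tendsto_const_nhds (x := a)).sub (h1 1)
  have h3 := (tendsto_const_nhds (x := t)).add (h1 (20 ^ 2))
  exact ((Filter.eventually_gt_atTop 0).and ((h2.eventually_const_le (by simpa using ha)).and
    (h3.eventually_lt (h2.pow 36) (by simpa using ht)))).exists

end GraphAux

open GraphAux in
/-- from a symmetric nonnegative kernel of mean one to a simple graph -/
theorem kernel_to_graph {Ω : Type} [Fintype Ω] [Nonempty Ω] (W : Ω → Ω → ℝ)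
    (hs : ∀ x y, W x y = W y x) (h0 : ∀ x y, 0 ≤ W x y) (h1 : 𝔼 x, 𝔼 y, W x y = 1)
    (hlt : 𝔼 x : Fin 8 → Ω, 𝔼 y : Fin 12 → Ω, ∏ f, ∏ i, W (x (face f i)) (y f) < 1) :
    ∃ (m : ℕ) (H : SimpleGraph (Fin m)) (N : ℕ) (G : SimpleGraph (Fin N)),
      H.Colorable 2 ∧ 0 < Nat.card H.edgeSet ∧ 0 < Nat.card G.edgeSet ∧
      (Nat.card (H →g G) : ℝ) / (N : ℝ) ^ m <
        ((2 * Nat.card G.edgeSet : ℝ) / (N : ℝ) ^ 2) ^ Nat.card H.edgeSet := by
  obtain ⟨M, hM0, hM⟩ : ∃ M : ℝ, 0 < M ∧ ∀ x y, W x y ≤ M := by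
    obtain ⟨M, hM⟩ := (Set.finite_range fun q : Ω × Ω => W q.1 q.2).bddAbove
    exact ⟨max M 1, by positivity, fun x y => le_max_of_le_left (hM ⟨(x, y), rfl⟩)⟩
  set t := 𝔼 x : Fin 8 → Ω, 𝔼 y : Fin 12 → Ω, ∏ f, ∏ i, W (x (face f i)) (y f) with ht
  obtain ⟨n, n0, n1, n2⟩ := exists_n (t := t / M ^ 36) (a := 1 / M) (Fintype.card Ω)
    Fintype.card_pos (by positivity) (by rw [div_pow, one_pow]; gcongr)
  have : Nonempty (Fin n) := ⟨⟨0, n0⟩⟩
  have : Nonempty (Fin (Fintype.card Ω * n)) := ⟨⟨0, Nat.mul_pos Fintype.card_pos n0⟩⟩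
  obtain ⟨e⟩ : Nonempty (Fin (Fintype.card Ω * n) ≃ Ω × Fin n) :=
    ⟨Fintype.equivOfCardEq (by simp)⟩
  obtain ⟨G, hG⟩ := exists_graph (V := Fin (Fintype.card Ω * n)) ed_inj
    (Sym2.lift ⟨fun u v => W (e u).1 (e v).1 / M, fun u v => by simp only [hs (e u).1]⟩)
    (fun p => Sym2.inductionOn p fun u v => div_nonneg (h0 _ _) hM0.le)
    (fun p => Sym2.inductionOn p fun u v => (div_le_one hM0).2 (hM _ _))
    (t := t / M ^ 36) (b := 1 / M) (by
      have := expect_fst e fun x : Fin (8 + 12) → Ω =>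
        ∏ f, ∏ i, W (x (Fin.castAdd 12 (face f i))) (x (Fin.natAdd 8 f))
      rw [Fintype.expect_equiv ((Equiv.arrowCongr finSumFinEquiv.symm (Equiv.refl Ω)).trans
        (Equiv.sumArrowEquivProdArrow _ _ _))
        (fun x : Fin (8 + 12) → Ω => ∏ f, ∏ i, W (x (Fin.castAdd 12 (face f i))) (x (Fin.natAdd 8 f)))
        (fun q => ∏ f, ∏ i, W (q.1 (face f i)) (q.2 f)) fun φ => rfl,
        ← univ_product_univ, expect_product] at this
      rw [ht, ← this, expect_div]
      refine expect_congr rfl fun φ _ => ?_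
      simp only [ed, Sym2.map_mk, Sym2.lift_mk, prod_div_distrib, prod_const]
      rw [Fintype.prod_prod_type]
      simp)
    (by
      simp only [Sym2.lift_mk, ← expect_div]
      rw [← h1, ← expect_fst' e]
      congr 1
      exact expect_congr rfl fun u _ => expect_fst' e _)
    (by simpa using n1) (by simpa using n2)
  have key : (Nat.card (HH →g G) : ℝ) / ((Fintype.card Ω * n : ℕ) : ℝ) ^ (8 + 12) <
      ((2 * Nat.card G.edgeSet : ℝ) / ((Fintype.card Ω * n : ℕ) : ℝ) ^ 2) ^ 36 := by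
    refine lt_of_le_of_lt ?_ (by simpa using hG)
    have := card_hom_le G
    simp only [Nat.cast_mul]
    gcongr
  refine ⟨_, HH, _, G, colorable_HH, by rw [card_HH]; norm_num, ?_, by rwa [card_HH]⟩
  refine Nat.pos_of_ne_zero fun h => ?_
  rw [h] at key
  refine absurd key (not_lt.2 ?_)
  simp only [Nat.cast_zero, mul_zero, zero_div]
  rw [zero_pow (by norm_num)]
  positivity

end Crest.Agent.R38
end

-- ▼ part PVc/R38/Spin
section

set_option autoImplicit false
open Finset Module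
open scoped BigOperators Matrix

namespace Crest.Agent.R38

namespace SpinAux

/-- exponent of the number of points of each type -/
def emu : Fin 5 → ℕ := ![31, 24, 13, 0, 80]

/-- exponent of the activity of each type -/
def al : Fin 5 → ℕ := ![6, 4, 2, 0, 0]

/-- colour attached to a pair of types -/
def ty : Fin 5 → Fin 5 → Fin 4 :=
  ![![0, 0, 0, 0, 0], ![0, 0, 0, 0, 1], ![0, 0, 0, 0, 2], ![0, 0, 0, 0, 3], ![0, 1, 2, 3, 0]]

/-- active pairs of types -/
def act (s t : Fin 5) : Bool := (s == 4) ^^ (t == 4)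

theorem ty_comm : ∀ s t, ty s t = ty t s := by decide
theorem act_comm : ∀ s t, act s t = act t s := by decide
theorem act_iff : ∀ s t, act s t = true → (s = 4 ↔ t ≠ 4) := by decide

/-- activity -/
noncomputable def lam (M : ℝ) (s t : Fin 5) : ℝ :=
  if act s t then (M ^ (al s + al t))⁻¹ else 0

theorem lam_comm (M : ℝ) (s t : Fin 5) : lam M s t = lam M t s := by
  unfold lam; rw [act_comm s t, add_comm]

theorem lam_nonneg {M : ℝ} (hM : 1 ≤ M) (s t : Fin 5) : 0 ≤ lam M s t := by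
  unfold lam; split_ifs
  · positivity
  · exact le_rfl

theorem lam_le_one {M : ℝ} (hM : 1 ≤ M) (s t : Fin 5) : lam M s t ≤ 1 := by
  unfold lam; split_ifs
  · exact inv_le_one_of_one_le₀ (one_le_pow₀ hM)
  · exact zero_le_one

/-- the measures -/
noncomputable def mu (M : ℝ) (s t : Fin 5) (ξ : Fin 4 → SignType) : ℝ :=
  (1 - lam M s t) * (if ξ = 0 then 1 else 0) + lam M s t * ((nuZ (ty s t) ξ : ℝ) / 48)

theorem mu_comm (M : ℝ) (s t : Fin 5) : mu M s t = mu M t s := by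
  funext ξ; unfold mu; rw [lam_comm M s t, ty_comm s t]

theorem mu_nonneg {M : ℝ} (hM : 1 ≤ M) (s t : Fin 5) (ξ : Fin 4 → SignType) :
    0 ≤ mu M s t ξ := by
  unfold mu
  have h1 := lam_nonneg hM s t
  have h2 := lam_le_one hM s t
  have h3 : (0 : ℝ) ≤ (nuZ (ty s t) ξ : ℝ) := by exact_mod_cast nuZ_nonneg _ _
  have h4 : (0 : ℝ) ≤ (if ξ = 0 then 1 else 0) := by split_ifs <;> norm_num
  have h5 : 0 ≤ 1 - lam M s t := by linarith
  positivity

theorem sum_mu (M : ℝ) (s t : Fin 5) : ∑ ξ, mu M s t ξ = 1 := by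
  unfold mu
  rw [Finset.sum_add_distrib, ← Finset.mul_sum, ← Finset.mul_sum, ← Finset.sum_div]
  have h : ∑ ξ, (nuZ (ty s t) ξ : ℝ) = 48 := by exact_mod_cast sum_nuZ (ty s t)
  rw [h]
  simp

/-- corner weights -/
noncomputable def w (M : ℝ) (s t : Fin 5) (g g' : Fin 4 → Bool) : ℝ :=
  (1 - lam M s t) * (if g = z4 ∧ g' = z4 then 1 else 0)
    + lam M s t * ((wT (ty s t) g g' : ℝ) / 48)

theorem prod_zero_pow (g g' : Fin 4 → Bool) :
    ∏ l, (0 : ℝ) ^ (nb (g l) + nb (g' l)) = if g = z4 ∧ g' = z4 then 1 else 0 := by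
  split_ifs with h
  · obtain ⟨rfl, rfl⟩ := h
    simp [z4, nb]
  · by_contra hne
    apply h
    have h1 : ∀ l, nb (g l) + nb (g' l) = 0 := by
      intro l
      by_contra hl
      exact hne (Finset.prod_eq_zero (Finset.mem_univ l) (zero_pow hl))
    constructor
    · funext l
      have := h1 l
      cases hg : g l
      · rfl
      · simp [nb, hg] at this
    · funext l
      have := h1 l
      cases hg : g' l
      · rfl
      · simp [nb, hg] at this

theorem sum_mu_w (M : ℝ) (s t : Fin 5) (g g' : Fin 4 → Bool) :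
    ∑ ξ : Fin 4 → SignType, mu M s t ξ * ∏ l, (ξ l : ℝ) ^ (nb (g l) + nb (g' l))
      = w M s t g g' := by
  unfold mu w
  simp only [add_mul, Finset.sum_add_distrib, mul_assoc, ← Finset.mul_sum]
  congr 2
  · rw [← prod_zero_pow]
    simp only [ite_mul, one_mul, zero_mul, Finset.sum_ite_eq', Finset.mem_univ, if_true]
    simp
  · rw [← wZ_eq]
    push_cast
    rw [Finset.sum_div]
    refine Finset.sum_congr rfl fun ξ _ => ?_
    ring

/-- weight of a configuration -/
noncomputable def T (M : ℝ) (τ : Fin 8 → Fin 5) (σ : Fin 12 → Fin 5)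
    (γ : Fin 4 → Fin 18 → Bool) : ℝ :=
  ∏ f, ∏ i, w M (τ (face f i)) (σ f) (col γ (side f (i + 1))) (col γ (side f (i + 2)))

theorem expand (M : ℝ) (τ : Fin 8 → Fin 5) (σ : Fin 12 → Fin 5) :
    ∑ ξ : Fin 12 → Fin 3 → Fin 4 → SignType,
      (∏ f, ∏ i, mu M (τ (face f i)) (σ f) (ξ f i)) * ∏ l, Tinf (fun f i => ξ f i l)
      = ∑ γ, T M τ σ γ := by
  unfold Tinf T
  simp only [Fintype.prod_sum (κ := fun _ : Fin 4 => Fin 18 → Bool), Finset.mul_sum]
  rw [Finset.sum_comm]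
  refine Finset.sum_congr rfl fun γ _ => ?_
  simp only [← sum_mu_w]
  simp only [Fintype.prod_sum (κ := fun _ : Fin 3 => Fin 4 → SignType)]
  rw [Fintype.prod_sum (κ := fun _ : Fin 12 => Fin 3 → Fin 4 → SignType)]
  refine Finset.sum_congr rfl fun ξ _ => ?_
  simp only [Finset.prod_mul_distrib, col]
  refine congrArg₂ (· * ·) rfl ?_
  rw [Finset.prod_comm]
  refine Finset.prod_congr rfl fun f _ => ?_
  rw [Finset.prod_comm]

/-- the empty configuration -/
def zz : Fin 4 → Fin 18 → Bool := fun _ _ => false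

theorem T_zz (M : ℝ) (τ : Fin 8 → Fin 5) (σ : Fin 12 → Fin 5) : T M τ σ zz = 1 := by
  unfold T
  refine Finset.prod_eq_one fun f _ => Finset.prod_eq_one fun i _ => ?_
  change w M _ _ z4 z4 = 1
  unfold w
  rw [wT_zero]
  simp

theorem w_ne_zero {M : ℝ} {s t : Fin 5} {g g' : Fin 4 → Bool} (h : w M s t g g' ≠ 0) :
    (g = z4 ↔ g' = z4) := by
  by_cases h1 : g = z4 ∧ g' = z4
  · simp [h1.1, h1.2]
  · unfold w at h
    rw [if_neg h1] at h
    refine (wT_ne_zero (ty s t) g g' ?_).2.2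
    intro h0
    apply h
    rw [h0]
    simp

theorem col_ne {M : ℝ} {τ : Fin 8 → Fin 5} {σ : Fin 12 → Fin 5} {γ : Fin 4 → Fin 18 → Bool}
    (hγ : γ ≠ zz) (hT : T M τ σ γ ≠ 0) (e : Fin 18) : col γ e ≠ z4 := by
  have hc := conn (fun e => col γ e = z4) (fun f i => propext (w_ne_zero (M := M)
    (s := τ (face f i)) (t := σ f) (fun h => hT (Finset.prod_eq_zero (Finset.mem_univ f)
      (Finset.prod_eq_zero (Finset.mem_univ i) h)))))
  intro he
  apply hγ
  funext l e'
  have h0 : col γ 0 = z4 := (hc e) ▸ he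
  have h1 : col γ e' = z4 := (hc e').symm ▸ h0
  exact congrFun h1 l

theorem T_eq (M : ℝ) (τ : Fin 8 → Fin 5) (σ : Fin 12 → Fin 5) {γ : Fin 4 → Fin 18 → Bool}
    (h : ∀ e, col γ e ≠ z4) :
    T M τ σ γ = (∏ f, ∏ i, lam M (τ (face f i)) (σ f)) * ∏ f, ∏ i,
      ((wT (ty (τ (face f i)) (σ f)) (col γ (side f (i + 1))) (col γ (side f (i + 2))) : ℝ)
        / 48) := by
  unfold T
  simp only [← Finset.prod_mul_distrib]
  refine Finset.prod_congr rfl fun f _ => Finset.prod_congr rfl fun i _ => ?_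
  unfold w
  rw [if_neg (fun hh => h _ hh.1)]
  ring

theorem T_le {M : ℝ} (hM : 1 ≤ M) (τ : Fin 8 → Fin 5) (σ : Fin 12 → Fin 5)
    {γ : Fin 4 → Fin 18 → Bool} (hγ : γ ≠ zz) :
    T M τ σ γ ≤ ∏ f, ∏ i, lam M (τ (face f i)) (σ f) := by
  have hL : 0 ≤ ∏ f, ∏ i, lam M (τ (face f i)) (σ f) :=
    Finset.prod_nonneg fun f _ => Finset.prod_nonneg fun i _ => lam_nonneg hM _ _
  by_cases hT : T M τ σ γ = 0
  · rw [hT]; exact hL
  · rw [T_eq M τ σ (col_ne hγ hT)]
    refine mul_le_of_le_one_right hL ((le_abs_self _).trans ?_)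
    rw [Finset.abs_prod]
    refine Finset.prod_le_one (fun _ _ => abs_nonneg _) fun f _ => ?_
    rw [Finset.abs_prod]
    refine Finset.prod_le_one (fun _ _ => abs_nonneg _) fun i _ => ?_
    rw [abs_div, div_le_one (by norm_num)]
    have := wT_abs (ty (τ (face f i)) (σ f)) (col γ (side f (i + 1))) (col γ (side f (i + 2)))
    have h2 : ((|wT (ty (τ (face f i)) (σ f)) (col γ (side f (i + 1)))
      (col γ (side f (i + 2)))| : ℤ) : ℝ) ≤ ((48 : ℤ) : ℝ) := Int.cast_le.2 this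
    rw [Int.cast_abs] at h2
    simpa using h2

/-- the optimal types -/
def τs : Fin 8 → Fin 5 := ![3, 2, 0, 1, 1, 1, 0, 1]

/-- degrees -/
def dg : Fin 8 → ℕ := ![7, 6, 3, 4, 4, 5, 3, 4]

/-- optimal values -/
def cv : Fin 8 → ℕ := ![0, 1, 13, 8, 8, 4, 13, 8]

theorem sum_face (F : Fin 8 → ℕ) : ∑ f, ∑ i, F (face f i) = ∑ v, dg v * F v := by
  simp [Fin.sum_univ_succ, face, dg]
  ring

theorem cost_le : ∀ (v : Fin 8) (t : Fin 5), t ≠ 4 → emu t ≤ cv v + dg v * al t := by decide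
theorem cost_lt : ∀ (v : Fin 8) (t : Fin 5), t ≠ 4 → t ≠ τs v → emu t < cv v + dg v * al t := by
  decide
theorem em_le : ∀ t : Fin 5, t ≠ 4 → emu t ≤ 31 := by decide
theorem face_surj : ∀ v : Fin 8, ∃ f i, face f i = v := by decide
theorem face_conn : ∀ f : Fin 12, face f 0 = 0 ∨ face f 0 = face 0 1 ∨ face f 0 = face 3 2 := by
  decide

theorem expo_le {τ : Fin 8 → Fin 5} {σ : Fin 12 → Fin 5}
    (hact : ∀ f i, act (τ (face f i)) (σ f) = true) (hne : ¬ (τ = τs ∧ σ = fun _ => 4)) :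
    ∑ v, emu (τ v) + ∑ f, emu (σ f) ≤ 1014 + ∑ f, ∑ i, (al (τ (face f i)) + al (σ f)) := by
  have H : ∀ f i, (τ (face f i) = 4 ↔ σ f ≠ 4) := fun f i => act_iff _ _ (hact f i)
  have H0 : ∀ f, (σ f ≠ 4 ↔ τ 0 = 4) := by
    intro f
    rw [← H f 0]
    rcases face_conn f with h | h | h
    · rw [h]
    · rw [h, H 0 1, ← H 0 0]; rfl
    · rw [h, H 3 2, ← H 3 0]; rfl
  have H1 : ∀ v, (τ v = 4 ↔ τ 0 = 4) := by
    intro v
    obtain ⟨f, i, rfl⟩ := face_surj v
    rw [H f i, H0 f]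
  by_cases h0 : τ 0 = 4
  · have h1 : ∑ v, emu (τ v) = 640 := by
      rw [Finset.sum_congr rfl fun v _ => congrArg emu ((H1 v).2 h0)]
      rfl
    have h2 : ∑ f, emu (σ f) ≤ 372 := by
      refine (Finset.sum_le_sum fun f _ => em_le _ ((H0 f).2 h0)).trans ?_
      simp
    omega
  · have hσ : σ = fun _ => 4 := by
      funext f
      by_contra hf
      exact h0 ((H0 f).1 hf)
    have hτ : ∀ v, τ v ≠ 4 := fun v hv => h0 ((H1 v).1 hv)
    have hτ' : ∃ v, τ v ≠ τs v := by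
      by_contra hh
      push Not at hh
      exact hne ⟨funext hh, hσ⟩
    subst hσ
    have h1 : ∑ _f : Fin 12, emu 4 = 960 := rfl
    have h2 : ∑ f, ∑ i, (al (τ (face f i)) + al 4) = ∑ v, dg v * al (τ v) :=
      sum_face (fun v => al (τ v))
    have h3 : ∑ v, emu (τ v) < ∑ v, (cv v + dg v * al (τ v)) := by
      obtain ⟨v, hv⟩ := hτ'
      exact Finset.sum_lt_sum (fun v _ => cost_le v _ (hτ v))
        ⟨v, Finset.mem_univ v, cost_lt v _ (hτ v) hv⟩
    rw [Finset.sum_add_distrib] at h3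
    have h4 : ∑ v, cv v = 55 := rfl
    simp only
    omega

/-- multiplicity of a pair of type patterns -/
noncomputable def W (M : ℝ) (τ : Fin 8 → Fin 5) (σ : Fin 12 → Fin 5) : ℝ :=
  (∏ v, M ^ emu (τ v)) * ∏ f, M ^ emu (σ f)

theorem W_mul {M : ℝ} {τ : Fin 8 → Fin 5} {σ : Fin 12 → Fin 5}
    (hact : ∀ f i, act (τ (face f i)) (σ f) = true) :
    W M τ σ * ∏ f, ∏ i, lam M (τ (face f i)) (σ f) =
      M ^ (∑ v, emu (τ v) + ∑ f, emu (σ f)) / M ^ (∑ f, ∑ i, (al (τ (face f i)) + al (σ f))) := by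
  unfold W lam
  simp only [hact, if_true, Finset.prod_inv_distrib, Finset.prod_pow_eq_pow_sum]
  rw [pow_add, div_eq_mul_inv]

theorem W_nonneg {M : ℝ} (hM : 1 ≤ M) (τ : Fin 8 → Fin 5) (σ : Fin 12 → Fin 5) :
    0 ≤ W M τ σ := by
  unfold W
  have : 0 ≤ M := by linarith
  positivity

theorem act_s : ∀ (f : Fin 12) (i : Fin 3), act (τs (face f i)) 4 = true := by decide
theorem ty_s : ∀ v, ty (τs v) 4 = ts v := by decide

theorem WT_s {M : ℝ} (hM : 1 ≤ M) {γ : Fin 4 → Fin 18 → Bool} (h : ∀ e, col γ e ≠ z4) :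
    W M τs (fun _ => 4) * T M τs (fun _ => 4) γ = M ^ 1015 * ((WS γ : ℝ) / 48 ^ 36) := by
  rw [T_eq M _ _ h, ← mul_assoc, W_mul (σ := fun _ => 4) act_s]
  have h1 : ∑ v, emu (τs v) + ∑ _f : Fin 12, emu 4 = 1015 + 116 := by decide +kernel
  have h2 : ∑ f : Fin 12, ∑ i : Fin 3, (al (τs (face f i)) + al 4) = 116 := by decide +kernel
  have hM0 : M ≠ 0 := by linarith
  simp only [h1, h2, ty_s]
  refine congrArg₂ (· * ·) ?_ ?_
  · rw [pow_add, mul_div_assoc, div_self (pow_ne_zero _ hM0), mul_one]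
  · unfold WS
    push_cast
    simp only [Finset.prod_div_distrib, Finset.prod_const, Finset.card_univ, Fintype.card_fin]
    rw [← pow_mul]

theorem WT_le {M : ℝ} (hM : 1 ≤ M) (τ : Fin 8 → Fin 5) (σ : Fin 12 → Fin 5)
    {γ : Fin 4 → Fin 18 → Bool} (hγ : γ ≠ zz) : W M τ σ * T M τ σ γ ≤ M ^ 1014 := by
  have hM0 : 0 < M := by linarith
  by_cases hs : τ = τs ∧ σ = fun _ => 4
  · obtain ⟨rfl, rfl⟩ := hs
    by_cases hT : T M τs (fun _ => 4) γ = 0
    · rw [hT, mul_zero]; positivity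
    · rw [WT_s hM (col_ne hγ hT)]
      have h1 : (WS γ : ℝ) ≤ 0 := by exact_mod_cast WS_nonpos γ (col_ne hγ hT 1)
      refine le_trans (mul_nonpos_of_nonneg_of_nonpos (by positivity)
        (div_nonpos_of_nonpos_of_nonneg h1 (by positivity))) (by positivity)
  · refine (mul_le_mul_of_nonneg_left (T_le hM τ σ hγ) (W_nonneg hM τ σ)).trans ?_
    by_cases hact : ∀ f i, act (τ (face f i)) (σ f) = true
    · rw [W_mul hact, div_le_iff₀ (by positivity), ← pow_add]
      exact pow_le_pow_right₀ hM (expo_le hact hs)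
    · push Not at hact
      obtain ⟨f, i, hfi⟩ := hact
      have : ∏ f, ∏ i, lam M (τ (face f i)) (σ f) = 0 :=
        Finset.prod_eq_zero (Finset.mem_univ f) (Finset.prod_eq_zero (Finset.mem_univ i)
          (by unfold lam; rw [if_neg hfi]))
      rw [this, mul_zero]; positivity

theorem sum_neg {X : Type} [Fintype X] (U : X → ℝ) (x0 : X) {A B : ℝ} (hA : 0 ≤ A)
    (h1 : ∀ x, U x ≤ A) (h2 : U x0 ≤ -B) (h3 : Fintype.card X * A < B) : ∑ x, U x < 0 := by
  classical
  rw [← Finset.add_sum_erase _ _ (Finset.mem_univ x0)]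
  have h4 : ∑ x ∈ Finset.univ.erase x0, U x ≤ (Finset.univ.erase x0).card • A :=
    Finset.sum_le_card_nsmul _ _ _ fun x _ => h1 x
  rw [nsmul_eq_mul] at h4
  have h5 : ((Finset.univ.erase x0).card : ℝ) ≤ Fintype.card X := by
    exact_mod_cast Finset.card_le_univ _
  nlinarith [mul_le_mul_of_nonneg_right h5 hA]

/-- the non-trivial part of the partition function -/
noncomputable def R (M : ℝ) (τ : Fin 8 → Fin 5) (σ : Fin 12 → Fin 5) : ℝ :=
  ∑ γ, if γ = zz then 0 else T M τ σ γ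

theorem sum_T (M : ℝ) (τ : Fin 8 → Fin 5) (σ : Fin 12 → Fin 5) :
    ∑ γ, T M τ σ γ = 1 + R M τ σ := by
  have : ∀ γ, T M τ σ γ = (if γ = zz then 1 else 0) + (if γ = zz then 0 else T M τ σ γ) := by
    intro γ
    split_ifs with h
    · rw [h, T_zz, add_zero]
    · rw [zero_add]
  rw [Finset.sum_congr rfl fun γ _ => this γ, Finset.sum_add_distrib, Finset.sum_ite_eq']
  rw [if_pos (Finset.mem_univ _)]
  rfl

theorem sum_WR {M : ℝ} (hM : 1 ≤ M)
    (hK : (Fintype.card ((Fin 8 → Fin 5) × (Fin 12 → Fin 5) × (Fin 4 → Fin 18 → Bool)) : ℝ)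
      * 48 ^ 36 < M) : ∑ τ, ∑ σ, W M τ σ * R M τ σ < 0 := by
  have hM0 : 0 < M := by linarith
  have key := sum_neg (X := (Fin 8 → Fin 5) × (Fin 12 → Fin 5) × (Fin 4 → Fin 18 → Bool))
    (fun x => W M x.1 x.2.1 * if x.2.2 = zz then 0 else T M x.1 x.2.1 x.2.2)
    (τs, (fun _ => 4), g0) (A := M ^ 1014) (B := M ^ 1015 / 48 ^ 36) (by positivity) ?_ ?_ ?_
  · rw [Fintype.sum_prod_type] at key
    simp only [Fintype.sum_prod_type] at key
    simpa only [R, Finset.mul_sum] using key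
  · intro x
    split_ifs with h
    · rw [mul_zero]; positivity
    · exact WT_le hM _ _ h
  · have hg : g0 ≠ zz := by
      intro h
      exact g0_ne 0 (by rw [h]; rfl)
    simp only [if_neg hg]
    rw [WT_s hM g0_ne]
    have h1 : (WS g0 : ℝ) ≤ -1 := by exact_mod_cast WS_g0
    have h2 : (WS g0 : ℝ) / 48 ^ 36 ≤ -1 / 48 ^ 36 :=
      div_le_div_of_nonneg_right h1 (by positivity)
    refine (mul_le_mul_of_nonneg_left h2 (by positivity)).trans (le_of_eq ?_)
    ring
  · generalize (Fintype.card ((Fin 8 → Fin 5) × (Fin 12 → Fin 5) × (Fin 4 → Fin 18 → Bool)) : ℝ)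
      = K at hK
    rw [lt_div_iff₀ (by positivity)]
    have : M ^ 1015 = M * M ^ 1014 := by ring
    rw [this, mul_right_comm]
    exact mul_lt_mul_of_pos_right hK (by positivity)

theorem sum_sigma_fun {ι : Type} [Fintype ι] [DecidableEq ι] (m : Fin 5 → ℕ)
    (F : (ι → Fin 5) → ℝ) :
    ∑ φ : ι → (Σ t, Fin (m t)), F (fun i => (φ i).1) = ∑ τ, (∏ i, (m (τ i) : ℝ)) * F τ := by
  let e : (ι → (Σ t, Fin (m t))) ≃ (Σ τ : ι → Fin 5, ∀ i, Fin (m (τ i))) :=
    { toFun := fun φ => ⟨fun i => (φ i).1, fun i => (φ i).2⟩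
      invFun := fun p i => ⟨p.1 i, p.2 i⟩
      left_inv := fun _ => rfl
      right_inv := fun _ => rfl }
  rw [Fintype.sum_equiv e (fun φ => F (fun i => (φ i).1)) (fun p => F p.1) (fun _ => rfl),
    Fintype.sum_sigma]
  refine Finset.sum_congr rfl fun τ _ => ?_
  simp

end SpinAux

open SpinAux in
/-- the limiting spin model has partition function `< 1` -/
theorem spin : ∃ (Λ : Type) (_ : Fintype Λ) (_ : Nonempty Λ)
    (μ : Λ → Λ → (Fin 4 → SignType) → ℝ),
    (∀ s t, μ s t = μ t s) ∧ (∀ s t ξ, 0 ≤ μ s t ξ) ∧ (∀ s t, ∑ ξ, μ s t ξ = 1) ∧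
    𝔼 φ : Fin 8 → Λ, 𝔼 ψ : Fin 12 → Λ, ∑ ξ : Fin 12 → Fin 3 → Fin 4 → SignType,
      (∏ f, ∏ i, μ (φ (face f i)) (ψ f) (ξ f i)) * ∏ l, Tinf (fun f i => ξ f i l) < 1 := by
  obtain ⟨M, hK⟩ := exists_nat_gt
    ((Fintype.card ((Fin 8 → Fin 5) × (Fin 12 → Fin 5) × (Fin 4 → Fin 18 → Bool)) : ℝ) * 48 ^ 36)
  have hM0 : 0 < M := by
    have : (0 : ℝ) < M := lt_of_le_of_lt (by positivity) hK
    exact_mod_cast this
  have hM : (1 : ℝ) ≤ M := by exact_mod_cast hM0
  have hne : Nonempty (Σ t : Fin 5, Fin (M ^ emu t)) := ⟨⟨3, ⟨0, by positivity⟩⟩⟩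
  refine ⟨Σ t : Fin 5, Fin (M ^ emu t), inferInstance, hne, fun s t => mu M s.1 t.1,
    fun s t => mu_comm _ _ _, fun s t ξ => mu_nonneg hM _ _ _, fun s t => sum_mu _ _ _, ?_⟩
  have h1 : ∀ (φ : Fin 8 → Σ t : Fin 5, Fin (M ^ emu t)) (ψ : Fin 12 → Σ t : Fin 5, Fin (M ^ emu t)),
      ∑ ξ : Fin 12 → Fin 3 → Fin 4 → SignType,
      (∏ f, ∏ i, mu M (φ (face f i)).1 (ψ f).1 (ξ f i)) * ∏ l, Tinf (fun f i => ξ f i l)
      = 1 + R M (fun v => (φ v).1) (fun f => (ψ f).1) := fun φ ψ => by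
    rw [← sum_T, ← expand]
  simp only [h1, Finset.expect_add_distrib, Fintype.expect_const]
  have h2 : ∑ φ : Fin 8 → Σ t : Fin 5, Fin (M ^ emu t), ∑ ψ : Fin 12 → Σ t : Fin 5, Fin (M ^ emu t),
      R M (fun v => (φ v).1) (fun f => (ψ f).1) < 0 := by
    have h3 : ∀ τ : Fin 8 → Fin 5, ∑ ψ : Fin 12 → Σ t : Fin 5, Fin (M ^ emu t),
        R M τ (fun f => (ψ f).1) = ∑ σ, (∏ f, ((M ^ emu (σ f) : ℕ) : ℝ)) * R M τ σ :=
      fun τ => sum_sigma_fun (fun t => M ^ emu t) (R M τ)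
    simp only [h3]
    rw [sum_sigma_fun (fun t => M ^ emu t)
      (fun τ => ∑ σ, (∏ f, ((M ^ emu (σ f) : ℕ) : ℝ)) * R M τ σ)]
    have := sum_WR hM hK
    simpa only [W, Finset.mul_sum, mul_assoc, Nat.cast_pow] using this
  have h4 : 𝔼 φ : Fin 8 → Σ t : Fin 5, Fin (M ^ emu t), 𝔼 ψ : Fin 12 → Σ t : Fin 5, Fin (M ^ emu t),
      R M (fun v => (φ v).1) (fun f => (ψ f).1) < 0 := by
    simp only [Finset.expect_eq_sum_div_card, ← Finset.sum_div]
    refine div_neg_of_neg_of_pos (div_neg_of_neg_of_pos h2 ?_) ?_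
    · exact_mod_cast Finset.card_pos.2 Finset.univ_nonempty
    · exact_mod_cast Finset.card_pos.2 Finset.univ_nonempty
  linarith

end Crest.Agent.R38
end

-- ▼ part PVc/R38/Core

set_option autoImplicit false
open Finset Module
open scoped BigOperators Matrix

namespace Crest.Agent.R38

namespace CoreAux

theorem expect_pi_prod {ι α : Type} [Fintype ι] [DecidableEq ι] [Fintype α] (g : ι → α → ℝ) :
    𝔼 y : ι → α, ∏ i, g i (y i) = ∏ i, 𝔼 a, g i a := by
  simp only [Fintype.expect_eq_sum_div_card]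
  rw [prod_div_distrib, Fintype.prod_sum, Fintype.card_pi, Nat.cast_prod]

theorem expect_prod_type {α β : Type} [Fintype α] [Fintype β] (h : α × β → ℝ) :
    𝔼 p, h p = 𝔼 a, 𝔼 b, h (a, b) := by
  rw [← univ_product_univ, expect_product]

theorem expect_fst {ι α β : Type} [Fintype ι] [DecidableEq ι] [Fintype α] [Fintype β] [Nonempty β]
    (h : (ι → α) → ℝ) : 𝔼 x : ι → α × β, h (fun v => (x v).1) = 𝔼 x, h x := by
  refine (Fintype.expect_equiv (Equiv.arrowProdEquivProdArrow ι (fun _ => α) (fun _ => β)) _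
    (fun p => h p.1) (fun _ => rfl)).trans ?_
  rw [expect_prod_type]
  exact expect_congr rfl fun x _ => Fintype.expect_const (h x)

theorem expect_split {ι κ Λ Z : Type} [Fintype ι] [DecidableEq ι] [Fintype κ] [DecidableEq κ]
    [Fintype Λ] [Fintype Z] (h : (ι → Λ) → (κ → ι → Z) → ℝ) :
    𝔼 X : ι → Λ × (κ → Z), h (fun v => (X v).1) (fun l v => (X v).2 l) = 𝔼 φ, 𝔼 x, h φ x := by
  refine (Fintype.expect_equiv
    ((Equiv.arrowProdEquivProdArrow ι (fun _ => Λ) (fun _ => κ → Z)).trans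
    ((Equiv.refl _).prodCongr (Equiv.piComm fun _ _ => Z))) _
    (fun p => h p.1 p.2) (fun _ => rfl)).trans ?_
  rw [expect_prod_type]

theorem expect_two {κ A B : Type} [Fintype κ] [DecidableEq κ] [Fintype A] [Fintype B]
    (g : κ → A → B → ℝ) :
    𝔼 x : κ → A, 𝔼 y : κ → B, ∏ l, g l (x l) (y l) = ∏ l, 𝔼 a, 𝔼 b, g l a b := by
  rw [← expect_pi_prod fun l a => 𝔼 b, g l a b]
  exact expect_congr rfl fun x _ => expect_pi_prod fun l b => g l (x l) b

/-- the density of the product kernel -/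
theorem density {ι κ J I Λ Z Ξ : Type} [Fintype ι] [DecidableEq ι] [Fintype κ] [DecidableEq κ]
    [Fintype J] [DecidableEq J] [Fintype I] [DecidableEq I] [Fintype Λ] [Fintype Z] [Fintype Ξ]
    (fc : J → I → ι) (μ : Λ → Λ → (κ → Ξ) → ℝ) (k : Ξ → Z → Z → ℝ) :
    𝔼 X : ι → Λ × (κ → Z), 𝔼 Y : J → Λ × (κ → Z), ∏ f, ∏ i,
      ∑ ξ, μ (X (fc f i)).1 (Y f).1 ξ * ∏ l, k (ξ l) ((X (fc f i)).2 l) ((Y f).2 l) =
    𝔼 φ : ι → Λ, 𝔼 ψ : J → Λ, ∑ ξ : J → I → κ → Ξ, (∏ f, ∏ i, μ (φ (fc f i)) (ψ f) (ξ f i)) *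
      ∏ l, 𝔼 x : ι → Z, 𝔼 y : J → Z, ∏ f, ∏ i, k (ξ f i l) (x (fc f i)) (y f) := by
  have h1 : ∀ (φ : ι → Λ) (x : κ → ι → Z), 𝔼 Y : J → Λ × (κ → Z), ∏ f, ∏ i,
      ∑ ξ, μ (φ (fc f i)) (Y f).1 ξ * ∏ l, k (ξ l) (x l (fc f i)) ((Y f).2 l) =
      𝔼 ψ : J → Λ, 𝔼 y : κ → J → Z, ∏ f, ∏ i,
      ∑ ξ, μ (φ (fc f i)) (ψ f) ξ * ∏ l, k (ξ l) (x l (fc f i)) (y l f) := fun φ x =>
    expect_split fun ψ y => ∏ f, ∏ i,
      ∑ ξ, μ (φ (fc f i)) (ψ f) ξ * ∏ l, k (ξ l) (x l (fc f i)) (y l f)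
  have h2 := expect_split (ι := ι) (κ := κ) fun φ x => 𝔼 Y : J → Λ × (κ → Z), ∏ f, ∏ i,
      ∑ ξ, μ (φ (fc f i)) (Y f).1 ξ * ∏ l, k (ξ l) (x l (fc f i)) ((Y f).2 l)
  rw [h2]
  refine expect_congr rfl fun φ _ => ?_
  simp only [h1]
  rw [expect_comm]
  refine expect_congr rfl fun ψ _ => ?_
  have h3 : ∀ (x : κ → ι → Z) (y : κ → J → Z), ∏ f, ∏ i,
      ∑ ξ, μ (φ (fc f i)) (ψ f) ξ * ∏ l, k (ξ l) (x l (fc f i)) (y l f) =
      ∑ ξ : J → I → κ → Ξ, (∏ f, ∏ i, μ (φ (fc f i)) (ψ f) (ξ f i)) *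
        ∏ l, ∏ f, ∏ i, k (ξ f i l) (x l (fc f i)) (y l f) := by
    intro x y
    simp only [Fintype.prod_sum]
    refine sum_congr rfl fun ξ _ => ?_
    simp only [prod_mul_distrib]
    congr 1
    rw [prod_comm (s := (univ : Finset κ))]
    exact prod_congr rfl fun f _ => prod_comm
  simp only [h3, expect_sum_comm, ← mul_expect]
  refine sum_congr rfl fun ξ _ => ?_
  rw [expect_two fun l (x : ι → Z) (y : J → Z) => ∏ f, ∏ i, k (ξ f i l) (x (fc f i)) (y f)]

variable {F : Type} [Field F] [Fintype F] [DecidableEq F]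

theorem face_nonneg (η : Fin 3 → SignType) (x : Fin 3 → Y F) :
    0 ≤ 𝔼 y : Y F, ∏ i, kk (η i) (x i) y :=
  expect_nonneg fun _ _ => prod_nonneg fun _ _ => kk_nonneg _ _ _

theorem Tq_nonneg (η : Fin 12 → Fin 3 → SignType) : 0 ≤ Tq F η :=
  expect_nonneg fun _ _ => expect_nonneg fun _ _ => prod_nonneg fun _ _ =>
    prod_nonneg fun _ _ => kk_nonneg _ _ _

theorem Tq_eq (η : Fin 12 → Fin 3 → SignType) :
    Tq F η = 𝔼 x : Fin 8 → Y F, ∏ f, 𝔼 y : Y F, ∏ i, kk (η f i) (x (face f i)) y :=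
  expect_congr rfl fun x _ => expect_pi_prod fun f y => ∏ i, kk (η f i) (x (face f i)) y

theorem sig_side (x : Fin 8 → Y F) (f : Fin 12) :
    (fun i => sig' (x (edge (side f i)).1) (x (edge (side f i)).2)) =
      ![sig' (x (face f 1)) (x (face f 2)), sig' (x (face f 0)) (x (face f 2)),
        sig' (x (face f 0)) (x (face f 1))] := by
  funext i
  fin_cases i
  · change sig' (x (edge (side f 0)).1) (x (edge (side f 0)).2) = _
    rw [edge_side0]; rfl
  · change sig' (x (edge (side f 1)).1) (x (edge (side f 1)).2) = _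
    rw [edge_side1]; rfl
  · change sig' (x (edge (side f 2)).1) (x (edge (side f 2)).2) = _
    rw [edge_side2]; rfl

end CoreAux

open CoreAux Filter Topology

/-- one-coordinate limit (upper bound) -/
theorem core (ε : ℝ) (hε : 0 < ε) : ∃ q0 : ℕ, ∀ (F : Type) [Field F] [Fintype F] [DecidableEq F],
    ringChar F ≠ 2 → q0 ≤ Fintype.card F → ∀ η, Tq F η ≤ Tinf η + ε := by
  obtain ⟨C, hC⟩ := deg_part
  obtain ⟨δ, hδ, hδ'⟩ : ∃ δ : ℝ, 0 < δ ∧ ∀ η, (1 + δ) ^ 12 * Tinf η < Tinf η + ε / 3 := by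
    have h1 : ∀ᶠ δ : ℝ in 𝓝 0, ∀ η, (1 + δ) ^ 12 * Tinf η < Tinf η + ε / 3 := by
      refine eventually_all.2 fun η => ?_
      have hc : Continuous fun δ : ℝ => (1 + δ) ^ 12 * Tinf η := by fun_prop
      refine (hc.tendsto 0).eventually (gt_mem_nhds ?_)
      rw [add_zero, one_pow, one_mul]
      linarith
    obtain ⟨δ, h2, h3⟩ := ((h1.filter_mono nhdsWithin_le_nhds).and
      (self_mem_nhdsWithin (s := Set.Ioi (0 : ℝ)))).exists
    exact ⟨δ, h3, h2⟩
  obtain ⟨q1, hq1⟩ := face_gen δ hδ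
  have t1 : Tendsto (fun q : ℕ => (1 + δ) ^ 12 * (8 ^ 12 * 216 / √(q : ℝ))) atTop (𝓝 0) := by
    have := ((Real.tendsto_sqrt_atTop.comp tendsto_natCast_atTop_atTop).const_div_atTop
      (8 ^ 12 * 216 : ℝ)).const_mul ((1 + δ) ^ 12)
    rwa [mul_zero] at this
  have t2 : Tendsto (fun q : ℕ => 8 ^ 12 * (C / (q : ℝ))) atTop (𝓝 0) := by
    have := (tendsto_natCast_atTop_atTop.const_div_atTop C).const_mul (8 ^ 12 : ℝ)
    rwa [mul_zero] at this
  have hε3 : 0 < ε / 3 := by positivity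
  obtain ⟨q2, hq2⟩ := eventually_atTop.1
    ((t1.eventually (gt_mem_nhds hε3)).and (t2.eventually (gt_mem_nhds hε3)))
  refine ⟨max 12 (max q1 q2), fun F _ _ _ hF hq η => ?_⟩
  have hq12 : 12 ≤ Fintype.card F := (le_max_left _ _).trans hq
  have hqa : q1 ≤ Fintype.card F := ((le_max_left _ _).trans (le_max_right _ _)).trans hq
  have hqb : q2 ≤ Fintype.card F := ((le_max_right _ _).trans (le_max_right _ _)).trans hq
  have hg := gen_part hF η
  have hd := hC F hF hq12
  rw [← expect_fst (β := Bool)] at hd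
  have key : ∀ x : Fin 8 → Y F, ∏ f, 𝔼 y : Y F, ∏ i, kk (η f i) (x (face f i)) y ≤
      (1 + δ) ^ 12 * (if ∀ e, cr ((x (edge e).1).1 - (x (edge e).2).1) = 0 then
        ∏ f, Ginf (η f) (fun i => sig' (x (edge (side f i)).1) (x (edge (side f i)).2)) else 0) +
      8 ^ 12 * (if ∀ e, cr ((x (edge e).1).1 - (x (edge e).2).1) = 0 then 0 else
        ∏ f, Gam (x (face f 0)).1 (x (face f 1)).1 (x (face f 2)).1) := by
    intro x
    have hcard : ∀ (c : ℝ) (g : Fin 12 → ℝ), c ^ 12 * ∏ f, g f = ∏ f, c * g f := fun c g => by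
      rw [prod_mul_distrib, prod_const, card_fin]
    split_ifs with h
    · rw [mul_zero, add_zero, hcard]
      refine prod_le_prod (fun f _ => face_nonneg (η f) fun i => x (face f i)) fun f _ => ?_
      rw [sig_side]
      refine hq1 F hF hqa (η f) (fun i => x (face f i)) ?_ ?_ ?_
      · have := h (side f 0); rwa [edge_side0] at this
      · have := h (side f 1); rwa [edge_side1] at this
      · have := h (side f 2); rwa [edge_side2] at this
    · rw [mul_zero, zero_add, hcard]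
      exact prod_le_prod (fun f _ => face_nonneg (η f) fun i => x (face f i)) fun f _ =>
        face_le (η f) fun i => x (face f i)
  rw [Tq_eq]
  refine (expect_le_expect fun x _ => key x).trans ?_
  rw [expect_add_distrib, ← mul_expect, ← mul_expect]
  have h1 := mul_le_mul_of_nonneg_left hg (show (0 : ℝ) ≤ (1 + δ) ^ 12 by positivity)
  have h2 := mul_le_mul_of_nonneg_left hd (show (0 : ℝ) ≤ 8 ^ 12 by positivity)
  rw [mul_add] at h1
  have h3 := hq2 _ hqb
  have h4 := hδ' η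
  linarith [h3.1, h3.2]

theorem main :
    ∃ (m : ℕ) (H : SimpleGraph (Fin m)) (N : ℕ) (G : SimpleGraph (Fin N)),
      H.Colorable 2 ∧ 0 < Nat.card H.edgeSet ∧ 0 < Nat.card G.edgeSet ∧
      (Nat.card (H →g G) : ℝ) / (N : ℝ) ^ m <
        ((2 * Nat.card G.edgeSet : ℝ) / (N : ℝ) ^ 2) ^ Nat.card H.edgeSet := by
  obtain ⟨Λ, _, _, μ, hμs, hμ0, hμ1, hlt⟩ := spin
  obtain ⟨ε, hε, hε'⟩ : ∃ ε : ℝ, 0 < ε ∧
      𝔼 φ : Fin 8 → Λ, 𝔼 ψ : Fin 12 → Λ, ∑ ξ : Fin 12 → Fin 3 → Fin 4 → SignType,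
      (∏ f, ∏ i, μ (φ (face f i)) (ψ f) (ξ f i)) * ∏ l, (Tinf (fun f i => ξ f i l) + ε) < 1 := by
    have hc : Continuous fun ε : ℝ => 𝔼 φ : Fin 8 → Λ, 𝔼 ψ : Fin 12 → Λ,
        ∑ ξ : Fin 12 → Fin 3 → Fin 4 → SignType, (∏ f, ∏ i, μ (φ (face f i)) (ψ f) (ξ f i)) *
          ∏ l, (Tinf (fun f i => ξ f i l) + ε) := by
      simp only [Fintype.expect_eq_sum_div_card]
      refine (continuous_finsetSum _ fun φ _ => (continuous_finsetSum _ fun ψ _ =>
        continuous_finsetSum _ fun ξ _ => continuous_const.mul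
          (continuous_finsetProd _ fun l _ => continuous_const.add continuous_id)).div_const _).div_const _
    have h1 := (hc.tendsto 0).eventually (gt_mem_nhds (by simpa only [add_zero] using hlt))
    obtain ⟨δ, h2, h3⟩ := ((h1.filter_mono nhdsWithin_le_nhds).and
      (self_mem_nhdsWithin (s := Set.Ioi (0 : ℝ)))).exists
    exact ⟨δ, h3, h2⟩
  obtain ⟨q0, hq0⟩ := core ε hε
  obtain ⟨F, _, _, _, hF, hq⟩ : ∃ (F : Type) (_ : Field F) (_ : Fintype F) (_ : DecidableEq F),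
      ringChar F ≠ 2 ∧ q0 ≤ Fintype.card F := by
    obtain ⟨p, hp1, hp⟩ := Nat.exists_infinite_primes (max q0 3)
    have := Fact.mk hp
    refine ⟨ZMod p, inferInstance, inferInstance, inferInstance, ?_, ?_⟩
    · rw [ZMod.ringChar_zmod_n]
      have := (le_max_right _ _).trans hp1
      omega
    · rw [ZMod.card]
      exact (le_max_left _ _).trans hp1
  have hT := hq0 F hF hq
  refine kernel_to_graph (Ω := Λ × (Fin 4 → Y F))
    (fun x y => ∑ ξ, μ x.1 y.1 ξ * ∏ l, kk (ξ l) (x.2 l) (y.2 l)) (fun x y => ?_) (fun x y => ?_)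
    ?_ ?_
  · refine sum_congr rfl fun ξ _ => ?_
    rw [hμs x.1 y.1]
    congr 1
    exact prod_congr rfl fun l _ => kk_comm _ _ _
  · exact sum_nonneg fun ξ _ => mul_nonneg (hμ0 _ _ _) (prod_nonneg fun l _ => kk_nonneg _ _ _)
  · have h1 : ∀ x : Λ × (Fin 4 → Y F), 𝔼 y : Λ × (Fin 4 → Y F),
        ∑ ξ, μ x.1 y.1 ξ * ∏ l, kk (ξ l) (x.2 l) (y.2 l) = 1 := by
      intro x
      rw [expect_prod_type]
      have h2 : ∀ t : Λ, 𝔼 y : Fin 4 → Y F,
          ∑ ξ, μ x.1 t ξ * ∏ l, kk (ξ l) (x.2 l) (y l) = 1 := by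
        intro t
        rw [expect_sum_comm, ← hμ1 x.1 t]
        refine sum_congr rfl fun ξ _ => ?_
        rw [← mul_expect, expect_pi_prod fun l y => kk (ξ l) (x.2 l) y]
        simp only [expect_kk, prod_const_one, mul_one]
      simp only [h2]
      exact Fintype.expect_const _
    simp only [h1]
    exact Fintype.expect_const _
  · refine lt_of_le_of_lt ((density face μ kk).trans_le ?_) hε'
    refine expect_le_expect fun φ _ => expect_le_expect fun ψ _ => sum_le_sum fun ξ _ => ?_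
    refine mul_le_mul_of_nonneg_left ?_
      (prod_nonneg fun f _ => prod_nonneg fun i _ => hμ0 _ _ _)
    exact prod_le_prod (fun l _ => Tq_nonneg fun f i => ξ f i l) fun l _ => hT fun f i => ξ f i l

end Crest.Agent.R38
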