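import Crest.Agent.PVc.R38.Defs

set_option autoImplicit false

namespace Crest.Agent.R38.Num

/-- `p i` for all `i ≤ n` -/
def allLe (n : ℕ) (p : ℕ → Bool) : Bool :=
  Nat.rec (motive := fun _ => Bool) (p 0) (fun i ih => Bool.rec false (p (Nat.succ i)) ih) n

theorem allLe_spec {n : ℕ} {p : ℕ → Bool} (h : allLe n p = true) (i : ℕ) (hi : i ≤ n) :
    p i = true := by
  induction n with
  | zero => obtain rfl : i = 0 := by omega
            exact h
  | succ n ih =>
    have h' : (Bool.rec false (p (n + 1)) (allLe n p) : Bool) = true := h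
    cases hn : allLe n p with
    | false => rw [hn] at h'; exact absurd h' (by simp)
    | true =>
      rw [hn] at h'
      rcases Nat.lt_or_ge i (n + 1) with h1 | h1
      · exact ih hn (by omega)
      · obtain rfl : i = n + 1 := by omega
        exact h'

/-- maximum of two naturals -/
def mx (a b : ℕ) : ℕ := Bool.rec a b (Nat.ble a b)

theorem mx_eq (a b : ℕ) : mx a b = max a b := by
  unfold mx
  cases h : Nat.ble a b with
  | false =>
    have : ¬ a ≤ b := fun h' => by rw [Nat.ble_eq_true_of_le h'] at h; exact absurd h (by simp)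
    simp only; omega
  | true => have := Nat.le_of_ble_eq_true h; simp only; omega

/-- maximum of `f i` over `i ≤ n` -/
def pmax (f : ℕ → ℕ) (n : ℕ) : ℕ :=
  Nat.rec (motive := fun _ => ℕ) (f 0) (fun i ih => mx ih (f (Nat.succ i))) n

theorem le_pmax (f : ℕ → ℕ) {n i : ℕ} (hi : i ≤ n) : f i ≤ pmax f n := by
  induction n with
  | zero => obtain rfl : i = 0 := by omega
            exact le_rfl
  | succ n ih =>
    have h' : pmax f (n + 1) = mx (pmax f n) (f (n + 1)) := rfl
    rw [h', mx_eq]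
    rcases Nat.lt_or_ge i (n + 1) with h1 | h1
    · exact le_max_of_le_left (ih (by omega))
    · obtain rfl : i = n + 1 := by omega
      exact le_max_right _ _

/-- byte table -/
def tb (t i : ℕ) : ℕ := Nat.mod (Nat.shiftRight t (Nat.mul 8 i)) 256
/-- two-dimensional byte table -/
def tb2 (t i j : ℕ) : ℕ := Nat.mod (Nat.shiftRight t (Nat.mul 8 (Nat.add (Nat.mul 13 i) j))) 256
/-- triangular numbers -/
def tr (j : ℕ) : ℕ := Nat.div (Nat.mul j (Nat.succ j)) 2

theorem tr_eq (j : ℕ) : tr j = tri j := rfl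

local infixl:65 " +. " => Nat.add
local infixl:65 " -. " => Nat.sub
local infixl:70 " *. " => Nat.mul

/-- best value of a corner term -/
def gg (t1 M1 t2 M2 u lim : ℕ) : ℕ :=
  pmax (fun m => tb2 t1 M1 (u +. m) +. tb2 t2 M2 (u +. m) -. tr m) lim

/-- insertion check -/
def chkI (aF bF cF a0 c0 a' b' c' m0 k0 : ℕ) : Bool :=
  allLe (12 -. m0 -. k0) fun mab =>
  allLe (12 -. m0 -. k0 -. mab) fun mac =>
  allLe (12 -. m0 -. k0 -. mab -. mac) fun mbc =>
  allLe (Nat.div (12 -. m0 -. k0 -. mab -. mac -. mbc) 3) fun d0 =>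
  allLe (Nat.div (12 -. m0 -. k0 -. mab -. mac -. mbc -. 3 *. d0) 2) fun d1 =>
  let R := 12 -. m0 -. k0 -. mab -. mac -. mbc -. 3 *. d0 -. 2 *. d1
  let T := R +. k0 +. d0
  let n0 := m0 +. k0
  let P := m0 *. k0 +. (mab +. mac +. mbc +. 2 *. d0) *. (k0 +. d0) +. d1 *. (T +. k0 +. d0 +. d1)
    +. tr T +. tb aF (m0 +. mab) +. tb a0 (m0 +. mac) +. tb a0 (m0 +. mbc)
  let Q := tr d1 +. 78 +. tb a' n0
  allLe R fun eab =>
  let P1 := P +. (mab +. d0) *. eab +. tb2 bF (m0 +. mab) (n0 +. mab +. d0 +. eab)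
  let Q1 := Q +. tb2 b' n0 (n0 +. mab +. d0 +. eab)
  allLe (R -. eab) fun eac =>
  let P2 := P1 +. (mac +. d0) *. eac +. tb2 c0 (m0 +. mac) (n0 +. mac +. d0 +. eac)
    +. gg cF (m0 +. mab) c0 (m0 +. mac) (m0 +. mab +. mac +. d0 +. d1) (R -. mx eab eac)
  let Q2 := Q1 +. tb2 c' n0 (n0 +. mac +. d0 +. eac)
  allLe (R -. eab -. eac) fun ebc =>
  Nat.ble (P2 +. (mbc +. d0) *. ebc +. tb2 c0 (m0 +. mbc) (n0 +. mbc +. d0 +. ebc)
    +. gg cF (m0 +. mab) c0 (m0 +. mbc) (m0 +. mab +. mbc +. d0 +. d1) (R -. mx eab ebc)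
    +. gg c0 (m0 +. mac) c0 (m0 +. mbc) (m0 +. mac +. mbc +. d0 +. d1) (R -. mx eac ebc))
    (Q2 +. tb2 c' n0 (n0 +. mbc +. d0 +. ebc))


/-- check of the face majorant -/
def chkG (a0 c0 m0 k0 : ℕ) : Bool :=
  allLe (12 -. m0 -. k0) fun mab =>
  allLe (12 -. m0 -. k0 -. mab) fun mac =>
  allLe (12 -. m0 -. k0 -. mab -. mac) fun mbc =>
  allLe (Nat.div (12 -. m0 -. k0 -. mab -. mac -. mbc) 3) fun d0 =>
  allLe (Nat.div (12 -. m0 -. k0 -. mab -. mac -. mbc -. 3 *. d0) 2) fun d1 =>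
  let R := 12 -. m0 -. k0 -. mab -. mac -. mbc -. 3 *. d0 -. 2 *. d1
  let T := R +. k0 +. d0
  let n0 := m0 +. k0
  let P := m0 *. k0 +. (mab +. mac +. mbc +. 2 *. d0) *. (k0 +. d0) +. d1 *. (T +. k0 +. d0 +. d1)
    +. tr T
  let Q := tr d1 +. 78 +. tb a0 n0
  allLe 1 fun oa => allLe 1 fun ob => allLe 1 fun oc =>
  let ua := m0 +. mab +. mac +. d0 +. d1
  let ub := m0 +. mab +. mbc +. d0 +. d1
  let uc := m0 +. mac +. mbc +. d0 +. d1
  let ma := oa *. (6 -. ua)
  let mb := ob *. (6 -. ub)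
  let mc := oc *. (6 -. uc)
  Bool.rec true
    (allLe (R -. (ma +. mb)) fun eab =>
      allLe (R -. mx eab (ma +. mc)) fun eac =>
      allLe (R -. mx (eab +. eac) (mb +. mc)) fun ebc =>
      Nat.ble (P +. 21 *. (oa +. ob +. oc) +. (mab +. d0) *. eab +. (mac +. d0) *. eac
          +. (mbc +. d0) *. ebc)
        (Q +. tr ma +. tr mb +. tr mc +. tb2 c0 n0 (n0 +. mab +. d0 +. eab)
          +. tb2 c0 n0 (n0 +. mac +. d0 +. eac) +. tb2 c0 n0 (n0 +. mbc +. d0 +. ebc)))
    (Nat.ble ((oa *. ua -. 6) +. (ob *. ub -. 6) +. (oc *. uc -. 6) +. (ma +. mb +. mc -. (R +. d0))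
      +. (ma +. mb -. R) +. (ma +. mc -. R) +. (mb +. mc -. R)) 0)

/-- separable majorant given by three tables -/
def Ph (a b c n0 j1 j2 j3 : ℕ) : ℕ := tb a n0 + tb2 b n0 j1 + tb2 c n0 j2 + tb2 c n0 j3

theorem gg_spec (t1 M1 t2 M2 u lim m : ℕ) (hm : m ≤ lim) :
    (tb2 t1 M1 (u + m) : ℤ) + tb2 t2 M2 (u + m) - tri m ≤ gg t1 M1 t2 M2 u lim := by
  have h := le_pmax (fun m => tb2 t1 M1 (u +. m) +. tb2 t2 M2 (u +. m) -. tr m) hm
  simp only [Nat.add_eq, Nat.sub_eq, tr_eq] at h
  unfold gg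
  simp only [Nat.add_eq, Nat.sub_eq, tr_eq]
  omega

theorem feas_param {π : Pat} {n0 jab jac jbc : ℕ} (h : π.Feas 12 n0 jab jac jbc) :
    ∃ k0 eab eac ebc R : ℕ, n0 = π.m0 + k0 ∧ jab = π.m0 + k0 + π.mab + π.d0 + eab ∧
      jac = π.m0 + k0 + π.mac + π.d0 + eac ∧ jbc = π.m0 + k0 + π.mbc + π.d0 + ebc ∧
      π.m0 + k0 + π.mab + π.mac + π.mbc + 3 * π.d0 + 2 * π.d1 + R = 12 ∧ eab + eac + ebc ≤ R ∧
      π.ma + π.mb + eab ≤ R ∧ π.ma + π.mc + eac ≤ R ∧ π.mb + π.mc + ebc ≤ R ∧
      π.ma + π.mb + π.mc ≤ R + π.d0 := by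
  obtain ⟨h1, h2, h3, h4, h5, h6, h7, h8, h9⟩ := h
  refine ⟨n0 - π.m0, jab - n0 - π.mab - π.d0, jac - n0 - π.mac - π.d0, jbc - n0 - π.mbc - π.d0,
    12 - n0 - π.mab - π.mac - π.mbc - 3 * π.d0 - 2 * π.d1, ?_⟩
  omega

theorem insI {aF bF cF a0 c0 a' b' c' : ℕ}
    (hc : ∀ m0 k0, m0 + k0 ≤ 12 → chkI aF bF cF a0 c0 a' b' c' m0 k0 = true)
    (π : Pat) (n0 jab jac jbc : ℕ) (h : π.Feas 12 n0 jab jac jbc) :
    π.ex 12 n0 jab jac jbc + ((Ph aF bF cF π.Mab jab π.ja π.jb : ℤ) +
      Ph a0 c0 c0 π.Mac jac π.ja π.jc + Ph a0 c0 c0 π.Mbc jbc π.jb π.jc) ≤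
      (Ph a' b' c' n0 jab jac jbc : ℤ) + 78 := by
  obtain ⟨k0, eab, eac, ebc, R, rfl, rfl, rfl, rfl, hR, he, h1, h2, h3, -⟩ := feas_param h
  obtain ⟨m0, mab, mac, mbc, d0, d1, ma, mb, mc⟩ := π
  simp only at hR h1 h2 h3
  have hR1 : 12 - m0 - k0 - mab - mac - mbc - 3 * d0 - 2 * d1 = R := by omega
  have H0 := hc m0 k0 (by omega)
  unfold chkI at H0
  have H1 := allLe_spec (allLe_spec (allLe_spec (allLe_spec (allLe_spec H0 mab
    (by simp only [Nat.sub_eq]; omega)) mac (by simp only [Nat.sub_eq]; omega)) mbc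
    (by simp only [Nat.sub_eq]; omega)) d0
    (by simp only [Nat.sub_eq]; show d0 ≤ _ / 3; omega)) d1
    (by simp only [Nat.sub_eq, Nat.mul_eq]; show d1 ≤ _ / 2; omega)
  simp only [Nat.add_eq, Nat.sub_eq, Nat.mul_eq, hR1] at H1
  have H2 := Nat.le_of_ble_eq_true (allLe_spec (allLe_spec (allLe_spec H1 eab (by omega)) eac
    (by omega)) ebc (by omega))
  have ga := gg_spec cF (m0 + mab) c0 (m0 + mac) (m0 + mab + mac + d0 + d1) (R - mx eab eac) ma
    (by rw [mx_eq]; omega)
  have gb := gg_spec cF (m0 + mab) c0 (m0 + mbc) (m0 + mab + mbc + d0 + d1) (R - mx eab ebc) mb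
    (by rw [mx_eq]; omega)
  have gc := gg_spec c0 (m0 + mac) c0 (m0 + mbc) (m0 + mac + mbc + d0 + d1) (R - mx eac ebc) mc
    (by rw [mx_eq]; omega)
  have hT : 12 - (m0 + mab + mac + mbc + 2 * (d0 + d1)) = R + k0 + d0 := by omega
  have hRz : (R : ℤ) = 12 - m0 - k0 - mab - mac - mbc - 3 * d0 - 2 * d1 := by omega
  simp only [Pat.ex, Pat.Mab, Pat.Mac, Pat.Mbc, Pat.ja, Pat.jb, Pat.jc, Pat.s1, Ph, hT]
  simp only [tr_eq] at H2
  zify at H2
  rw [hRz] at H2
  push_cast at ga gb gc ⊢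
  linarith

/-- gain of a corner of corank six -/
def g6 (j : ℕ) : ℤ := if j = 6 then 21 else 0

theorem insG {a0 c0 : ℕ} (hc : ∀ m0 k0, m0 + k0 ≤ 12 → chkG a0 c0 m0 k0 = true)
    (π : Pat) (n0 jab jac jbc : ℕ) (h : π.Feas 12 n0 jab jac jbc) :
    π.ex 12 n0 jab jac jbc + (g6 π.ja + g6 π.jb + g6 π.jc) ≤
      (Ph a0 c0 c0 n0 jab jac jbc : ℤ) + 78 := by
  obtain ⟨k0, eab, eac, ebc, R, rfl, rfl, rfl, rfl, hR, he, h1, h2, h3, h4⟩ := feas_param h
  obtain ⟨m0, mab, mac, mbc, d0, d1, ma, mb, mc⟩ := π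
  simp only at hR h1 h2 h3 h4
  have hR1 : 12 - m0 - k0 - mab - mac - mbc - 3 * d0 - 2 * d1 = R := by omega
  have H0 := hc m0 k0 (by omega)
  unfold chkG at H0
  have H1 := allLe_spec (allLe_spec (allLe_spec (allLe_spec (allLe_spec H0 mab
    (by simp only [Nat.sub_eq]; omega)) mac (by simp only [Nat.sub_eq]; omega)) mbc
    (by simp only [Nat.sub_eq]; omega)) d0
    (by simp only [Nat.sub_eq]; show d0 ≤ _ / 3; omega)) d1
    (by simp only [Nat.sub_eq, Nat.mul_eq]; show d1 ≤ _ / 2; omega)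
  simp only [Nat.add_eq, Nat.sub_eq, Nat.mul_eq, hR1] at H1
  have key : ∀ (u m : ℕ), ∃ o : ℕ, o ≤ 1 ∧ o * u ≤ 6 ∧ o * (6 - u) ≤ m ∧
      g6 (u + m) - tri m ≤ 21 * (o : ℤ) - tri (o * (6 - u)) := by
    intro u m
    by_cases hu : u + m = 6
    · refine ⟨1, le_rfl, by omega, by omega, ?_⟩
      have : 1 * (6 - u) = m := by omega
      rw [this, g6, if_pos hu]; simp
    · refine ⟨0, by omega, by omega, by omega, ?_⟩
      rw [g6, if_neg hu, zero_mul]
      have : tri 0 = 0 := rfl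
      omega
  obtain ⟨oa, a1, a2, a3, a4⟩ := key (m0 + mab + mac + d0 + d1) ma
  obtain ⟨ob, b1, b2, b3, b4⟩ := key (m0 + mab + mbc + d0 + d1) mb
  obtain ⟨oc, c1, c2, c3, c4⟩ := key (m0 + mac + mbc + d0 + d1) mc
  have H2 := allLe_spec (allLe_spec (allLe_spec H1 oa a1) ob b1) oc c1
  clear H0 H1 h
  generalize oa * (6 - (m0 + mab + mac + d0 + d1)) = xa at H2 a3 a4
  generalize ob * (6 - (m0 + mab + mbc + d0 + d1)) = xb at H2 b3 b4
  generalize oc * (6 - (m0 + mac + mbc + d0 + d1)) = xc at H2 c3 c4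
  generalize oa * (m0 + mab + mac + d0 + d1) = ya at H2 a2
  generalize ob * (m0 + mab + mbc + d0 + d1) = yb at H2 b2
  generalize oc * (m0 + mac + mbc + d0 + d1) = yc at H2 c2
  rw [Nat.ble_eq_true_of_le (by omega)] at H2
  have H3 := Nat.le_of_ble_eq_true (allLe_spec (allLe_spec (allLe_spec H2 eab (by omega)) eac
    (by rw [mx_eq]; omega)) ebc (by rw [mx_eq]; omega))
  have hT : 12 - (m0 + mab + mac + mbc + 2 * (d0 + d1)) = R + k0 + d0 := by omega
  have hRz : (R : ℤ) = 12 - m0 - k0 - mab - mac - mbc - 3 * d0 - 2 * d1 := by omega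
  simp only [Pat.ex, Pat.ja, Pat.jb, Pat.jc, Pat.s1, Ph, hT]
  simp only [tr_eq] at H3
  zify at H3
  rw [hRz] at H3
  push_cast at a4 b4 c4 ⊢
  linarith

def tA0 : ℕ := 0x2a24231e1c1815120f0c0a0600
def tC0 : ℕ := 0x10000000000000000000000000100020000000000000000000003010100000000000000000000030103010100000000000000000603030102000000000000000006030401020101000000000000090505020401010000000000000a0608040401020000000000000c0708040602030000000000000f0a0b06070304010100000000150f0f0a0a0606030301010000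
def tA1 : ℕ := 0x3f2e2d211f17150d0c09070600
def tB1 : ℕ := 0x50000000000000000000000000500010000000000000000000009040500000000000000000000090405000200000000000000000b0607020400000000000000000b0607030400010000000000000e090a050602030000000000000f090a050602030000000000000e090a05060304010100000000100a0b060703040101000000000f0a0b06070304010100000000150f0f0a0a0606030301010000
def tC1 : ℕ := 0x50000000000000000000000000500010000000000000000000009040500000000000000000000090405000200000000000000000b0607020400000000000000000b0607030400010000000000000e090a050602030000000000000f090a050602030000000000000e090a05060304010100000000100a0b060703040101000000000f0a0b06070304010100000000150f0f0a0a0606030301010000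
def tA2 : ℕ := 0x463433262315140d0c08070600
def tB2 : ℕ := 0x3000000000000000000000000070001000000000000000000000f0a0800000000000000000000130b080200000000000000000017110e0705000000000000000018100d0704000100000000000019120f0606020300000000000018100d060602030000000000001a120f0707030401010000000019110e0607030401010000000018110e060703040101000000001c15120a0a0606030301010000
def tC2 : ℕ := 0x300000000000000000000000200010000000000000000000004040400000000000000000000080304000000000000000000000c0808040400000000000000000c0708030400010000000000000e090a050602030000000000000f090a050602030000000000000f0a0b06070304010100000000100a0b060703040101000000000f0a0b06070304010100000000150f0f0a0a0606030301010000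
def tA3 : ℕ := 0x503f3a292315140d0c08070600
def tB3 : ℕ := 0x30000000000000000000000000a020000000000000000000000141009000000000000000000001d140d05000000000000000000211a130a0500000000000000002219120a040001000000000000231b140a06020300000000000022191209060203000000000000241b140a070304010100000000231a1309070304010100000000221a1309070304010100000000261e170d0a0606030301010000
def tC3 : ℕ := 0x200000000000000000000000200010000000000000000000004050500000000000000000000080304000000000000000000000c0808040400000000000000000c0708030400010000000000000e090a050602030000000000000f090a050602030000000000000f0a0b06070304010100000000100a0b060703040101000000000f0a0b06070304010100000000150f0f0a0a0606030301010000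

end Crest.Agent.R38.Num
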